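import Crest.Agent.R153.SatDefs

/-! Row 153, module P: every label system is approximated by uniform trees with rational exponents. -/

set_option autoImplicit false

namespace Crest.Agent.R153

open Finset Crest.ProbabilityR.Diluted Crest.Agent.R141

open Filter Topology in
theorem apx_exists_freq {ι : Type} [Fintype ι] (p : ι → ℝ) (hp : ∀ i, 0 ≤ p i)
    (hp1 : ∑ i, p i = 1) :
    ∃ (w : ∀ B : ℕ, Fin (B + 1) → ι) (q : ℕ → ι → ℝ),
      (∀ (B : ℕ) (g : ι → ℝ), ∑ j, ((B : ℝ) + 1)⁻¹ * g (w B j) = ∑ i, q B i * g i) ∧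
      ∀ i, Tendsto (fun B => q B i) atTop (𝓝 (p i)) := by
  classical
  have hne : Nonempty ι := by
    by_contra h
    rw [not_nonempty_iff] at h
    simp at hp1
  obtain ⟨i₀⟩ := hne
  let n : ℕ → ι → ℕ := fun B i => ⌊((B : ℝ) + 1) * p i⌋₊
  have hn1 : ∀ B i, (n B i : ℝ) ≤ ((B : ℝ) + 1) * p i := fun B i =>
    Nat.floor_le (mul_nonneg (by positivity) (hp i))
  have hn2 : ∀ (B : ℕ) i, ((B : ℝ) + 1) * p i < n B i + 1 := fun B i => Nat.lt_floor_add_one _
  have hsum : ∀ B, ∑ i, n B i ≤ B + 1 := fun B => by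
    have := sum_le_sum fun i (_ : i ∈ univ) => hn1 B i
    rw [← mul_sum, hp1, mul_one] at this
    exact_mod_cast this
  let n' : ℕ → ι → ℕ := fun B i => n B i + if i = i₀ then B + 1 - ∑ i, n B i else 0
  have hsum' : ∀ B, ∑ i, n' B i = B + 1 := fun B => by
    simp only [n', sum_add_distrib, sum_ite_eq', mem_univ, if_true]
    have := hsum B
    omega
  have hrem : ∀ B, ((B + 1 - ∑ i, n B i : ℕ) : ℝ) ≤ Fintype.card ι := fun B => by
    have := sum_le_sum fun i (_ : i ∈ univ) => (hn2 B i).le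
    rw [← mul_sum, hp1, mul_one, sum_add_distrib] at this
    rw [Nat.cast_sub (hsum B)]
    simp only [sum_const, card_univ, nsmul_eq_mul, mul_one] at this
    push_cast
    linarith
  let e : ∀ B, Fin (B + 1) ≃ Σ i, Fin (n' B i) := fun B =>
    Fintype.equivOfCardEq (by simp [hsum'])
  refine ⟨fun B j => (e B j).1, fun B i => ((B : ℝ) + 1)⁻¹ * n' B i, fun B g => ?_, fun i => ?_⟩
  · rw [Equiv.sum_comp (e B) (fun x => ((B : ℝ) + 1)⁻¹ * g x.1), Fintype.sum_sigma]
    refine sum_congr rfl fun i _ => ?_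
    simp only [sum_const, card_univ, Fintype.card_fin, nsmul_eq_mul]
    ring
  · have h0 : Tendsto (fun B : ℕ => ((Fintype.card ι : ℝ) + 1) / ((B : ℝ) + 1)) atTop (𝓝 0) :=
      tendsto_const_nhds.div_atTop
        (tendsto_atTop_add_const_right _ _ tendsto_natCast_atTop_atTop)
    rw [tendsto_iff_dist_tendsto_zero]
    refine squeeze_zero (fun _ => dist_nonneg) (fun B => ?_) h0
    have hB : (0 : ℝ) < (B : ℝ) + 1 := by positivity
    have e1 : ((B : ℝ) + 1)⁻¹ * n' B i - p i = (n' B i - ((B : ℝ) + 1) * p i) / ((B : ℝ) + 1) := by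
      field_simp
    rw [Real.dist_eq, e1, abs_div, abs_of_pos hB]
    refine div_le_div_of_nonneg_right ?_ hB.le
    have h1 := hn1 B i
    have h2 := hn2 B i
    have h3 := hrem B
    have h4 : (0 : ℝ) ≤ Fintype.card ι := Nat.cast_nonneg _
    have h5 : (0 : ℝ) ≤ ((B + 1 - ∑ i, n B i : ℕ) : ℝ) := Nat.cast_nonneg _
    simp only [n']
    rw [abs_le]
    split_ifs
    · rw [Nat.cast_add]
      constructor <;> linarith
    · rw [add_zero]
      constructor <;> linarith

/-- The systems `R B` have the shape of `S` and their weights converge to those of `S`. -/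
def ApxConv : ℕ → (ℕ → Sys Bool) → Sys Bool → Prop
  | 0, R, S => ∀ B, (R B).val = S.val
  | d + 1, R, S => ∃ (q : ℕ → S.ι → ℝ) (R' : S.ι → ℕ → Sys Bool),
      (∀ B, R B = Sys.node false S.ι (q B) (fun i => R' i B)) ∧
      (∀ i, Filter.Tendsto (fun B => q B i) Filter.atTop (nhds (S.p i))) ∧
      ∀ i, ApxConv d (R' i) (S.ch i)

theorem apx_exists_rew (d : ℕ) : ∀ S : Sys Bool, Sys.Prob d S →
    ∃ (R : ℕ → Sys Bool) (lv : ℕ → ℕ → Bool), ApxConv d R S ∧
      ∀ (B : ℕ) (f : ℕ → Bool) (a : ℕ), (∀ t < (B + 1) ^ d, f (a * (B + 1) ^ d + t) = lv B t) →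
        Sys.Proj id d (utree B f d a) (R B) := by
  induction d with
  | zero =>
    intro S _
    refine ⟨fun _ => S, fun _ _ => S.val, fun _ => rfl, fun B f a h => ?_⟩
    have := h 0 (by simp)
    simp only [pow_zero, mul_one, add_zero] at this
    exact this
  | succ d ih =>
    intro S hS
    obtain ⟨w, q, hw, hq⟩ := apx_exists_freq S.p (fun i => (hS.1 i).le) hS.2.1
    choose R' lv' hc hp using fun i => ih (S.ch i) (hS.2.2 i)
    refine ⟨fun B => Sys.node false S.ι (q B) (fun i => R' i B),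
      fun B t => lv' (w B (Fin.ofNat (B + 1) (t / (B + 1) ^ d))) B (t % (B + 1) ^ d),
      ⟨q, R', fun _ => rfl, hq, hc⟩, fun B f a h => ⟨w B, hw B, fun (j : Fin (B + 1)) => ?_⟩⟩
    refine hp (w B j) B f _ fun t ht => ?_
    have hpos : 0 < (B + 1) ^ d := by positivity
    have h1 := h (j * (B + 1) ^ d + t) (by
      have : (j + 1) * (B + 1) ^ d ≤ (B + 1) * (B + 1) ^ d := Nat.mul_le_mul_right _ j.2
      rw [pow_succ']
      rw [add_mul] at this
      omega)
    have e1 : ((j : ℕ) * (B + 1) ^ d + t) / (B + 1) ^ d = j := by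
      rw [mul_comm, Nat.mul_add_div hpos, Nat.div_eq_of_lt ht, add_zero]
    have e2 : ((j : ℕ) * (B + 1) ^ d + t) % (B + 1) ^ d = t := by
      rw [mul_comm, Nat.mul_add_mod, Nat.mod_eq_of_lt ht]
    have e3 : Fin.ofNat (B + 1) (j : ℕ) = j := Fin.ext (Nat.mod_eq_of_lt j.2)
    simp only [e1, e2, e3] at h1
    rw [← h1]
    congr 1
    ring

theorem apx_allAt_of {X : Type} (d : ℕ) (S : Sys X) {P : Sys X → Prop} (h : ∀ Q, P Q) :
    Sys.AllAt d S P := by
  induction d generalizing S with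
  | zero => exact h S
  | succ d ih => exact fun ω => ih _

open Filter Topology in
theorem apx_T_tendsto {Λ : Type} [Fintype Λ] [DecidableEq Λ] {m : ℕ → ℝ} {m' : ℕ → ℕ → ℝ}
    (hm : ∀ j, 0 < m j) (V : (Λ → Bool) → ℝ) (hV : ∀ s, 0 < V s) (d : ℕ)
    (hm' : ∀ j < d, Tendsto (fun B => m' B j) atTop (𝓝 (m j))) :
    ∀ (S : Λ → Sys Bool) (R : Λ → ℕ → Sys Bool), (∀ l, Sys.Prob d (S l)) →
      (∀ l, ApxConv d (R l) (S l)) →
      Tendsto (fun B => Sys.T (m' B) d (Sys.piProd d fun l => R l B) (fun L => V L.val)) atTop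
        (𝓝 (Sys.T m d (Sys.piProd d S) (fun L => V L.val))) := by
  induction d with
  | zero =>
    intro S R _ hc
    refine tendsto_const_nhds.congr fun B => ?_
    change V (fun l => (S l).val) = V (fun l => (R l B).val)
    congr 1
    funext l
    exact (hc l B).symm
  | succ d ih =>
    intro S R hS hc
    choose q R' hR hq hc' using hc
    obtain rfl : R = fun l B => Sys.node false (S l).ι (q l B) (fun i => R' l i B) :=
      funext fun l => funext fun B => hR l B
    have hpos : ∀ ω : (l : Λ) → (S l).ι,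
        0 < Sys.T m d (Sys.piProd d fun l => (S l).ch (ω l)) (fun L => V L.val) := fun ω =>
      Sys.T_pos (Sys.prob_piProd fun l => (hS l).2.2 _) (apx_allAt_of _ _ fun _ => hV _)
    have h1 : Tendsto (fun B => ∑ ω : (l : Λ) → (S l).ι, (∏ l, q l B (ω l)) *
        Sys.T (m' B) d (Sys.piProd d fun l => R' l (ω l) B) (fun L => V L.val) ^ m' B d) atTop
        (𝓝 (∑ ω : (l : Λ) → (S l).ι, (∏ l, (S l).p (ω l)) *
          Sys.T m d (Sys.piProd d fun l => (S l).ch (ω l)) (fun L => V L.val) ^ m d)) :=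
      tendsto_finsetSum _ fun ω _ => (tendsto_finsetProd _ fun l _ => hq l _).mul
        ((ih (fun j hj => hm' j (by omega)) _ (fun l => R' l (ω l)) (fun l => (hS l).2.2 _)
          (fun l => hc' l _)).rpow (hm' d (by omega)) (Or.inl (hpos ω).ne'))
    exact h1.rpow ((hm' d (by omega)).inv₀ (hm d).ne') (Or.inr (inv_pos.2 (hm d)))

theorem apx_labLog_proj {Λ : Type} [Fintype Λ] [DecidableEq Λ] (m : ℕ → ℝ) (r : ℕ)
    {S S' : Sys Bool} (h : Sys.Proj id (r + 2) S S') (V : (Λ → Bool) → ℝ) :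
    labLog m r S V = labLog m r S' V := by
  obtain ⟨f, hf, hc⟩ := h
  unfold labLog
  rw [← pi_push (A := fun _ : Λ => S.ι) (B := fun _ : Λ => S'.ι) (fun _ => S.p) (fun _ => S'.p)
    (fun _ => f) (fun _ => hf)]
  refine sum_congr rfl fun u _ => ?_
  congr 2
  exact (Sys.proj_piProd (φ := fun _ => id) fun l => hc (u l)).T_eq V

theorem apx_mq (m : ℕ → ℝ) (N r d : ℕ) :
    mq ((List.range (r + 1)).map fun d => ⌈((N : ℝ) + 1) * m d⌉₊) N r d =
      (⌈((N : ℝ) + 1) * m (min d r)⌉₊ : ℝ) / ((N : ℝ) + 1) := by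
  unfold mq
  have h : min d r < r + 1 := Nat.lt_succ_of_le (min_le_right _ _)
  rw [List.getD_eq_getElem _ _ (by simp)]
  simp

/-- A sequence of finite data along which all the `labLog` functionals converge. -/
theorem exists_labData_tendsto {m : ℕ → ℝ} (hm : Exps m) {r : ℕ} {Lab : Sys Bool}
    (hL : Sys.Prob (r + 2) Lab) :
    ∃ D : ℕ → LabData, (∀ i, (D i).r = r) ∧ (∀ i, Exps (D i).m) ∧
      ∀ (Λ : Type) [Fintype Λ] [DecidableEq Λ] (V : (Λ → Bool) → ℝ), (∀ s, 0 < V s) →
        Filter.Tendsto (fun i => labLog (D i).m r (D i).lab V) Filter.atTop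
          (nhds (labLog m r Lab V)) := by
  obtain ⟨R, lv, hc, hp⟩ := apx_exists_rew (r + 2) Lab hL
  let D : ℕ → LabData := fun B => (B, (List.range ((B + 1) ^ (r + 2))).map (lv B), B,
    (List.range (r + 1)).map fun d => ⌈((B : ℝ) + 1) * m d⌉₊, r)
  have hDm : ∀ B d, (D B).m d = (⌈((B : ℝ) + 1) * m (min d r)⌉₊ : ℝ) / ((B : ℝ) + 1) :=
    fun B d => apx_mq m B r d
  have hlim : ∀ j < r + 1, Filter.Tendsto (fun B => (D B).m j) Filter.atTop (nhds (m j)) := by
    intro j hj
    simp only [hDm, min_eq_left (Nat.lt_succ_iff.1 hj)]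
    have h0 : Filter.Tendsto (fun B : ℕ => m j + 1 / ((B : ℝ) + 1)) Filter.atTop
        (nhds (m j + 0)) := tendsto_const_nhds.add tendsto_one_div_add_atTop_nhds_zero_nat
    rw [add_zero] at h0
    refine tendsto_of_tendsto_of_tendsto_of_le_of_le tendsto_const_nhds h0 (fun B => ?_)
      (fun B => ?_)
    · have hB : (0 : ℝ) < (B : ℝ) + 1 := by positivity
      simp only
      rw [le_div_iff₀ hB, mul_comm]
      exact Nat.le_ceil _
    · have hB : (0 : ℝ) < (B : ℝ) + 1 := by positivity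
      simp only
      rw [div_le_iff₀ hB, add_mul (m j), one_div, inv_mul_cancel₀ hB.ne', mul_comm (m j)]
      exact (Nat.ceil_lt_add_one (mul_nonneg hB.le (hm.pos j).le)).le
  refine ⟨D, fun _ => rfl, fun B => ⟨fun d => ?_, fun a b hab => ?_, ?_⟩, fun Λ _ _ V hV => ?_⟩
  · rw [hDm]
    have hB : (0 : ℝ) < (B : ℝ) + 1 := by positivity
    exact div_pos (Nat.cast_pos.2 (Nat.ceil_pos.2 (mul_pos hB (hm.pos _)))) hB
  · rw [hDm, hDm]
    have hB : (0 : ℝ) < (B : ℝ) + 1 := by positivity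
    exact div_le_div_of_nonneg_right (Nat.cast_le.2 (Nat.ceil_mono
      (mul_le_mul_of_nonneg_left (hm.anti (min_le_min_right r hab)) hB.le))) hB.le
  · rw [hDm, Nat.zero_min, hm.zero, mul_one]
    have hB : (0 : ℝ) < (B : ℝ) + 1 := by positivity
    rw [show (B : ℝ) + 1 = ((B + 1 : ℕ) : ℝ) by push_cast; ring, Nat.ceil_natCast]
    exact div_self (by positivity)
  · have h1 : ∀ B, labLog (D B).m r (D B).lab V = labLog (D B).m r (R B) V := fun B =>
      apx_labLog_proj _ r (hp B _ 0 fun t ht => by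
        simp only [D, zero_mul, zero_add]
        rw [List.getD_eq_getElem _ _ (by simpa using ht)]
        simp) V
    simp only [h1]
    obtain ⟨q, R', hR, hq, hc'⟩ := hc
    have h2 : ∀ B, labLog (D B).m r (R B) V = ∑ u : Λ → Lab.ι, (∏ l, q B (u l)) *
        Real.log (Sys.T (D B).m (r + 1) (Sys.piProd (r + 1) fun l => R' (u l) B)
          (fun L => V L.val)) := fun B => by rw [hR]; rfl
    simp only [h2]
    unfold labLog
    exact tendsto_finsetSum _ fun u _ => (tendsto_finsetProd _ fun l _ => hq _).mul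
      ((apx_T_tendsto hm.pos V hV (r + 1) hlim _ (fun l => R' (u l)) (fun l => hL.2.2 _)
        (fun l => hc' _)).log
        (Sys.T_pos (Sys.prob_piProd fun l => hL.2.2 _) (apx_allAt_of _ _ fun _ => hV _)).ne')

theorem exists_labData {q b : ℝ} {m : ℕ → ℝ} (hm : Exps m) {r : ℕ} {Lab : Sys Bool}
    (hL : Sys.Prob (r + 2) Lab) {K : ℕ} (h : PsatK q b m r Lab K < 0) :
    ∃ D : LabData, Exps D.m ∧ PsatK q b D.m D.r D.lab K < 0 := by
  obtain ⟨D, hr, hE, hlim⟩ := exists_labData_tendsto hm hL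
  have h1 : Filter.Tendsto (fun i => PsatK q b (D i).m r (D i).lab K) Filter.atTop
      (nhds (PsatK q b m r Lab K)) := by
    unfold PsatK siteA edgeB avg
    refine (tendsto_const_nhds.add (tendsto_finsetSum _ fun k _ => Filter.Tendsto.const_mul _
      (Filter.Tendsto.const_mul _ (tendsto_finsetSum _ fun s _ => ?_)))).sub
      (Filter.Tendsto.const_mul _ (Filter.Tendsto.const_mul _
        (tendsto_finsetSum _ fun s _ => ?_)))
    · exact hlim _ _ (siteV_pos _ _)
    · exact hlim _ _ fun _ => Real.exp_pos _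
  obtain ⟨i, hi⟩ := (h1.eventually_lt_const h).exists
  exact ⟨D i, hE i, by rw [hr i]; exact hi⟩

end Crest.Agent.R153
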