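import Crest.Agent.R153.Kill

/-! Row 153, module K: the Bayati-Gamarnik-Tetali interpolation for the satisfiability probability. -/

set_option autoImplicit false

namespace Crest.Agent.R153

open Finset Crest.ProbabilityR.RandomSAT Crest.Agent.R141

/-- A clause on the left or on the right half of the variables. -/
def bgtEmb {n : ℕ} : Clause 3 n ⊕ Clause 3 n → Clause 3 (n + n)
  | Sum.inl c => (⟨fun i => Fin.castAdd n (c.1.1 i),
      fun _ _ h => c.1.2 (Fin.castAdd_injective _ _ h)⟩, c.2)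
  | Sum.inr c => (⟨fun i => Fin.natAdd n (c.1.1 i),
      fun _ _ h => c.1.2 (Fin.natAdd_injective _ _ h)⟩, c.2)

/-- Left half of an assignment. -/
def bgtL {n : ℕ} (σ : Asg (n + n)) : Asg n := fun i => σ (Fin.castAdd n i)

/-- Right half of an assignment. -/
def bgtR {n : ℕ} (σ : Asg (n + n)) : Asg n := fun i => σ (Fin.natAdd n i)

open Classical in
/-- Indicator of nonemptiness. -/
noncomputable def bgtInd {n : ℕ} (S : Set (Asg n)) : ℝ := if S.Nonempty then 1 else 0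

theorem bgt_avg_sum {A : Type} [Fintype A] (φ : A ⊕ A → ℝ) :
    avg φ = (1 - 1 / 2) * avg (fun a => φ (Sum.inl a)) + 1 / 2 * avg (fun a => φ (Sum.inr a)) := by
  simp only [avg, Fintype.card_sum, Fintype.sum_sum_type, Nat.cast_add]
  rw [← two_mul, mul_inv]
  ring

theorem bgt_avg_ind {j n : ℕ} (h : j ≤ n) (S : Set (Asg n)) :
    avg (fun C : Clause j n => bgtInd (S ∩ sol C)) = 1 - kill j S := by
  have := nonempty_clause h
  rw [← avg_const (I := Clause j n) 1, kill, ← avg_sub]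
  congr 1
  funext C
  unfold bgtInd
  split_ifs <;> simp

theorem bgt_frozen {n : ℕ} (S : Set (Asg (n + n))) :
    frozen S = frozen (bgtL '' S) + frozen (bgtR '' S) := by
  classical
  unfold frozen
  simp only [card_filter]
  rw [Fin.sum_univ_add]
  simp [bgtL, bgtR]

theorem bgt_le_kill {n : ℕ} (hn : 3 ≤ n) {S : Set (Asg n)} (hS : S.Nonempty) :
    (((frozen S : ℝ) / n) ^ 3 - 3 / n) / 8 ≤ kill 3 S := by
  rw [kill_eq 3 hS]
  have hn0 : (0 : ℝ) < n := by exact_mod_cast (by omega : 0 < n)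
  have h1 : (0 : ℝ) < n.descFactorial 3 := by exact_mod_cast Nat.descFactorial_pos.2 hn
  have h2 : (n.descFactorial 3 : ℝ) ≤ (n : ℝ) ^ 3 := by
    exact_mod_cast Nat.descFactorial_le_pow n 3
  have hb : (frozen S : ℝ) ≤ n := by exact_mod_cast frozen_le S
  generalize frozen S = b at *
  have h3 : (b : ℝ) ^ 3 - 3 * (b : ℝ) ^ 2 ≤ (b.descFactorial 3 : ℝ) := by
    rcases Nat.lt_or_ge b 3 with h | h
    · have : (b : ℝ) ≤ 3 := by exact_mod_cast h.le
      have h4 : (0 : ℝ) ≤ (b.descFactorial 3 : ℝ) := Nat.cast_nonneg _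
      nlinarith [sq_nonneg (b : ℝ)]
    · obtain ⟨c, rfl⟩ : ∃ c, b = c + 2 := ⟨b - 2, by omega⟩
      simp only [Nat.descFactorial_succ, Nat.descFactorial_zero, Nat.add_sub_cancel,
        show c + 2 - 1 = c + 1 by omega, Nat.sub_zero]
      push_cast
      nlinarith [(Nat.cast_nonneg c : (0 : ℝ) ≤ c)]
  have hb0 : (0 : ℝ) ≤ b := Nat.cast_nonneg b
  calc (((b : ℝ) / n) ^ 3 - 3 / n) / 8 = ((b : ℝ) ^ 3 - 3 * n ^ 2) / (2 ^ 3 * n ^ 3) := by
        field_simp; ring
    _ ≤ (b.descFactorial 3 : ℝ) / (2 ^ 3 * n ^ 3) := by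
        refine div_le_div_of_nonneg_right ?_ (by positivity)
        nlinarith [pow_le_pow_left₀ hb0 hb 2]
    _ ≤ _ := div_le_div_of_nonneg_left (Nat.cast_nonneg _) (by positivity) (by linarith)

theorem bgt_kill_le {n : ℕ} (hn : 3 ≤ n) {S : Set (Asg n)} (hS : S.Nonempty) :
    kill 3 S ≤ 1 / 8 := by
  have hn0 : (0 : ℝ) < n := by exact_mod_cast (by omega : 0 < n)
  have hb : (frozen S : ℝ) ≤ n := by exact_mod_cast frozen_le S
  refine (kill_le_pow 3 hS).trans ?_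
  have : (frozen S : ℝ) / (2 * n) ≤ 1 / 2 := by
    rw [div_le_div_iff₀ (by positivity) (by positivity)]; linarith
  calc _ ≤ (1 / 2 : ℝ) ^ 3 := pow_le_pow_left₀ (by positivity) this 3
    _ = 1 / 8 := by norm_num

theorem bgt_step {n : ℕ} (hn : 3 ≤ n) (S : Set (Asg (n + n))) :
    (1 - 1 / (2 * (n : ℝ))) * avg (fun c => bgtInd (S ∩ sol (bgtEmb c))) ≤
      avg (fun C : Clause 3 (n + n) => bgtInd (S ∩ sol C)) := by
  rcases S.eq_empty_or_nonempty with rfl | hS
  · simp [bgtInd, avg]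
  have hn0 : (0 : ℝ) < n := by exact_mod_cast (by omega : 0 < n)
  have e1 : ∀ c, bgtInd (S ∩ sol (bgtEmb (Sum.inl c))) = bgtInd (bgtL '' S ∩ sol c) := by
    intro c
    unfold bgtInd
    congr 1
    refine propext ⟨fun ⟨σ, h1, h2⟩ => ⟨bgtL σ, ⟨σ, h1, rfl⟩, h2⟩, ?_⟩
    rintro ⟨_, ⟨σ, h1, rfl⟩, h2⟩
    exact ⟨σ, h1, h2⟩
  have e2 : ∀ c, bgtInd (S ∩ sol (bgtEmb (Sum.inr c))) = bgtInd (bgtR '' S ∩ sol c) := by
    intro c
    unfold bgtInd
    congr 1
    refine propext ⟨fun ⟨σ, h1, h2⟩ => ⟨bgtR σ, ⟨σ, h1, rfl⟩, h2⟩, ?_⟩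
    rintro ⟨_, ⟨σ, h1, rfl⟩, h2⟩
    exact ⟨σ, h1, h2⟩
  rw [bgt_avg_sum]
  simp only [e1, e2]
  rw [bgt_avg_ind hn, bgt_avg_ind hn, bgt_avg_ind (by omega)]
  have h1 := bgt_le_kill hn (hS.image bgtL)
  have h2 := bgt_le_kill hn (hS.image bgtR)
  have h3 := bgt_kill_le hn (hS.image bgtL)
  have h4 := bgt_kill_le hn (hS.image bgtR)
  have h5 := kill_le_pow 3 hS
  rw [bgt_frozen] at h5
  set x : ℝ := (frozen (bgtL '' S) : ℝ) / n with hx
  set y : ℝ := (frozen (bgtR '' S) : ℝ) / n with hy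
  have hx0 : 0 ≤ x := by positivity
  have hy0 : 0 ≤ y := by positivity
  have h6 : ((frozen (bgtL '' S) + frozen (bgtR '' S) : ℕ) : ℝ) / (2 * ((n + n : ℕ) : ℝ)) =
      (x + y) / 4 := by
    rw [hx, hy]; push_cast; field_simp; ring
  rw [h6] at h5
  have h7 : ((x + y) / 4) ^ 3 ≤ (x ^ 3 + y ^ 3) / 16 := by
    nlinarith [mul_nonneg (add_nonneg hx0 hy0) (sq_nonneg (x - y))]
  have h8 : 1 / (2 * (n : ℝ)) = (1 / n) / 2 := by field_simp
  have h9 : (3 : ℝ) / n = 3 * (1 / n) := by ring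
  rw [h8]
  rw [h9] at h1 h2
  have h10 : (0 : ℝ) ≤ 1 / n := by positivity
  nlinarith [mul_le_mul_of_nonneg_left h3 h10, mul_le_mul_of_nonneg_left h4 h10]

theorem bgt_solL_map {n : ℕ} (G : List (Clause 3 n ⊕ Clause 3 n)) (σ : Asg (n + n)) :
    σ ∈ solL (G.map bgtEmb) ↔ bgtL σ ∈ solL (lefts G) ∧ bgtR σ ∈ solL (rights G) := by
  induction G with
  | nil => simp [lefts, rights]
  | cons c G ih =>
    rw [List.map_cons, solL_cons, Set.mem_inter_iff, ih]
    rcases c with c | c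
    · have h1 : lefts (Sum.inl c :: G) = c :: lefts G := rfl
      have h2 : rights (Sum.inl c :: G) = rights G := rfl
      rw [h1, h2, solL_cons, Set.mem_inter_iff, ← and_assoc]
      rfl
    · have h1 : lefts (Sum.inr c :: G) = lefts G := rfl
      have h2 : rights (Sum.inr c :: G) = c :: rights G := rfl
      rw [h1, h2, solL_cons, Set.mem_inter_iff, and_left_comm]
      rfl

theorem bgt_ind_map {n : ℕ} (G : List (Clause 3 n ⊕ Clause 3 n)) :
    bgtInd (solL (G.map bgtEmb)) = bgtInd (solL (lefts G)) * bgtInd (solL (rights G)) := by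
  have : (solL (G.map bgtEmb)).Nonempty ↔
      (solL (lefts G)).Nonempty ∧ (solL (rights G)).Nonempty := by
    constructor
    · rintro ⟨σ, h⟩
      rw [bgt_solL_map] at h
      exact ⟨⟨_, h.1⟩, ⟨_, h.2⟩⟩
    · rintro ⟨⟨σ, h1⟩, ⟨τ, h2⟩⟩
      refine ⟨Fin.append σ τ, (bgt_solL_map _ _).2 ⟨?_, ?_⟩⟩
      · convert h1; funext i; simp [bgtL]
      · convert h2; funext i; exact Fin.append_right _ _ _
  unfold bgtInd
  rw [this]
  by_cases h1 : (solL (lefts G)).Nonempty <;> by_cases h2 : (solL (rights G)).Nonempty <;>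
    simp [h1, h2]

/-- The interpolating quantity. -/
noncomputable def bgtI (n a b : ℕ) : ℝ :=
  EL a (fun F : List (Clause 3 (n + n)) => EL b (fun G : List (Clause 3 n ⊕ Clause 3 n) =>
    bgtInd (solL F ∩ solL (G.map bgtEmb))))

theorem bgtI_step {n : ℕ} (hn : 3 ≤ n) (a b : ℕ) :
    (1 - 1 / (2 * (n : ℝ))) * bgtI n a (b + 1) ≤ bgtI n (a + 1) b := by
  unfold bgtI
  rw [EL_succ a, ← EL_avg_comm, ← EL_const_mul]
  refine EL_mono fun F _ => ?_
  rw [EL_succ, ← EL_avg_comm, ← EL_avg_comm, ← EL_const_mul]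
  refine EL_mono fun G _ => ?_
  have := bgt_step hn (solL F ∩ solL (G.map bgtEmb))
  convert this using 4 with c C
  · rw [List.map_cons, solL_cons, Set.inter_assoc, Set.inter_comm (sol _)]
  · rw [solL_cons, Set.inter_assoc, Set.inter_comm]

theorem bgtI_iter {n : ℕ} (hn : 3 ≤ n) (a : ℕ) : ∀ b,
    (1 - 1 / (2 * (n : ℝ))) ^ a * bgtI n 0 (a + b) ≤ bgtI n a b := by
  have hn0 : (3 : ℝ) ≤ n := by exact_mod_cast hn
  have hκ : 0 ≤ 1 - 1 / (2 * (n : ℝ)) := by
    rw [sub_nonneg, div_le_one (by positivity)]; linarith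
  induction a with
  | zero => intro b; simp
  | succ a ih =>
    intro b
    rw [pow_succ', mul_assoc, show a + 1 + b = a + (b + 1) by ring]
    exact (mul_le_mul_of_nonneg_left (ih (b + 1)) hκ).trans (bgtI_step hn a b)

theorem bgt {n : ℕ} (hn : 3 ≤ n) (M : ℕ) :
    (1 - 1 / (2 * (n : ℝ))) ^ M *
        ∑ z ∈ range (M + 1), bin M (1 / 2) z * (satProb 3 n (M - z) * satProb 3 n z) ≤
      satProb 3 (n + n) M := by
  have hsat : ∀ n m, satProb 3 n m = EL m (fun F : List (Clause 3 n) => bgtInd (solL F)) :=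
    fun n m => satProb_eq_EL 3 n m
  have h1 : bgtI n M 0 = satProb 3 (n + n) M := by
    rw [hsat]
    unfold bgtI
    simp [EL_zero]
  have h2 : bgtI n 0 M =
      ∑ z ∈ range (M + 1), bin M (1 / 2) z * (satProb 3 n (M - z) * satProb 3 n z) := by
    have h3 := EL_mixture (α := Clause 3 n ⊕ Clause 3 n) id (1 / 2) bgt_avg_sum M
      (fun G X => bgtInd (solL G) * bgtInd (solL X))
    unfold bgtI
    simp only [EL_zero, solL_nil, Set.univ_inter, bgt_ind_map]
    simp only [List.map_id] at h3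
    rw [h3]
    refine sum_congr rfl fun z _ => ?_
    simp only [EL_const_mul, ← hsat]
    rw [mul_comm (satProb 3 n (M - z)), hsat n (M - z), ← EL_const_mul (M - z) (satProb 3 n z)]
    simp only [mul_comm (satProb 3 n z)]
  have := bgtI_iter hn M 0
  rwa [add_zero, h1, h2] at this

end Crest.Agent.R153
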