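import Crest.Agent.R153.BasicEL

/-! Row 153, module B2: the hitting time, `gs`, `Nsq`, `satProb`. -/

set_option autoImplicit false

namespace Crest.Agent.R153

open Finset Crest.ProbabilityR.RandomSAT Crest.Agent.R141

/-! ### solution sets and the hitting time -/

section hit
variable {k n : ℕ}

@[simp] theorem solL_nil : solL ([] : List (Clause k n)) = Set.univ := by
  ext σ
  simp [solL]

theorem solL_cons (c : Clause k n) (F : List (Clause k n)) : solL (c :: F) = sol c ∩ solL F := by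
  ext σ
  simp [solL, sol]

theorem solL_append (F G : List (Clause k n)) : solL (F ++ G) = solL F ∩ solL G := by
  ext σ
  simp only [solL, List.mem_append, Set.mem_inter_iff, Set.mem_ofPred_eq]
  exact ⟨fun h => ⟨fun c hc => h c (Or.inl hc), fun c hc => h c (Or.inr hc)⟩,
    fun h c hc => hc.elim (h.1 c) (h.2 c)⟩

theorem lt_hit_iff (S : Set (Asg n)) (F : List (Clause k n)) (m : ℕ) :
    m < hit S F ↔ m ≤ F.length ∧ (S ∩ solL (F.take m)).Nonempty := by
  induction F generalizing S m with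
  | nil =>
    by_cases h : S.Nonempty
    · simp [hit, h]
    · simp [hit, h]
  | cons c F ih =>
    by_cases h : S.Nonempty
    · rcases m with _ | m
      · simp [hit, h]
      · simp only [hit, h, if_true, Nat.add_lt_add_iff_right, ih, List.length_cons,
          Nat.add_le_add_iff_right, List.take_succ_cons, solL_cons, Set.inter_assoc]
    · have h' : ¬ (S ∩ solL ((c :: F).take m)).Nonempty := fun h1 => h h1.left
      simp [hit, h, h']

@[simp] theorem hit_empty (F : List (Clause k n)) : hit (∅ : Set (Asg n)) F = 0 := by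
  cases F <;> simp [hit]

theorem hit_cons_of_nonempty {S : Set (Asg n)} (h : S.Nonempty) (c : Clause k n)
    (F : List (Clause k n)) : hit S (c :: F) = hit (S ∩ sol c) F + 1 := by
  simp [hit, h]

theorem hit_nil_of_nonempty {S : Set (Asg n)} (h : S.Nonempty) :
    hit S ([] : List (Clause k n)) = 1 := by
  simp [hit, h]

theorem hit_le (S : Set (Asg n)) (F : List (Clause k n)) : hit S F ≤ F.length + 1 := by
  by_contra h
  have := (lt_hit_iff S F (F.length + 1)).1 (not_le.1 h)
  omega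

theorem hit_mono {S S' : Set (Asg n)} (h : S' ⊆ S) (F : List (Clause k n)) :
    hit S' F ≤ hit S F := by
  refine le_of_forall_lt fun m hm => ?_
  rw [lt_hit_iff] at hm ⊢
  exact ⟨hm.1, hm.2.mono (Set.inter_subset_inter_left _ h)⟩

theorem hit_take_le (S : Set (Asg n)) (F : List (Clause k n)) (L : ℕ) :
    hit S (F.take L) ≤ hit S F := by
  refine le_of_forall_lt fun m hm => ?_
  rw [lt_hit_iff] at hm ⊢
  have h1 := hm.1
  rw [List.length_take] at h1
  have h2 := hm.2
  rw [List.take_take, min_eq_left (h1.trans (min_le_left _ _))] at h2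
  exact ⟨h1.trans (min_le_right _ _), h2⟩

theorem basic_mem_solL_take {L : ℕ} (F : Fin L → Clause k n) (m : ℕ) (σ : Asg n) :
    σ ∈ solL ((List.ofFn F).take m) ↔ ∀ j : Fin L, (j : ℕ) < m → ClauseSat σ (F j) := by
  simp only [solL, Set.mem_ofPred_eq]
  constructor
  · intro h j hj
    refine h _ (List.mem_take_iff_getElem.2 ⟨j, ?_, ?_⟩)
    · simp [hj]
    · simp
  · intro h c hc
    obtain ⟨j, hj, rfl⟩ := List.mem_take_iff_getElem.1 hc
    rw [List.length_ofFn] at hj
    rw [List.getElem_ofFn]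
    exact h _ (lt_of_lt_of_le hj (min_le_left _ _))

theorem basic_succAbove_bounds {L : ℕ} (i : Fin (L + 1)) (j : Fin L) :
    (j : ℕ) ≤ (i.succAbove j : ℕ) ∧ (i.succAbove j : ℕ) ≤ j + 1 := by
  unfold Fin.succAbove
  split_ifs <;> simp

/-- Deleting a clause costs at most one unit of time ... -/
theorem hit_le_removeNth {L : ℕ} (S : Set (Asg n)) (F : Fin (L + 1) → Clause k n)
    (i : Fin (L + 1)) : hit S (List.ofFn F) ≤ hit S (List.ofFn (Fin.removeNth i F)) + 1 := by
  refine le_of_forall_lt fun m hm => ?_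
  rcases m with _ | m
  · omega
  rw [Nat.add_lt_add_iff_right]
  rw [lt_hit_iff] at hm ⊢
  obtain ⟨h1, σ, hσ, h2⟩ := hm
  rw [List.length_ofFn] at h1 ⊢
  refine ⟨by omega, σ, hσ, ?_⟩
  rw [basic_mem_solL_take] at h2 ⊢
  intro j hj
  refine h2 (i.succAbove j) ?_
  have := (basic_succAbove_bounds i j).2
  omega

/-- ... and moving it to the front can only shorten the hitting time. -/
theorem hit_removeNth_le {L : ℕ} (S : Set (Asg n)) (F : Fin (L + 1) → Clause k n)
    (i : Fin (L + 1)) : hit (S ∩ sol (F i)) (List.ofFn (Fin.removeNth i F)) ≤ hit S (List.ofFn F) := by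
  refine le_of_forall_lt fun m hm => ?_
  rw [lt_hit_iff] at hm ⊢
  obtain ⟨h1, σ, ⟨hσ, hσi⟩, h2⟩ := hm
  rw [List.length_ofFn] at h1 ⊢
  refine ⟨by omega, σ, hσ, ?_⟩
  rw [basic_mem_solL_take] at h2 ⊢
  intro j hj
  rcases Fin.eq_self_or_eq_succAbove i j with rfl | ⟨j', rfl⟩
  · exact hσi
  · refine h2 j' ?_
    have := (basic_succAbove_bounds i j').1
    omega

end hit

/-! ### `gs`, `Nsq` -/

theorem gs_zero (θ : ℝ) : gs θ 0 = 0 := by
  simp [gs]

theorem gs_succ' (θ : ℝ) (h : ℕ) : gs θ (h + 1) = 1 + θ * gs θ h := by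
  rw [gs, gs, Finset.sum_range_succ', Finset.mul_sum, pow_zero, add_comm]
  congr 1
  exact Finset.sum_congr rfl fun m _ => pow_succ' θ m

theorem gs_one_left (h : ℕ) : gs 1 h = h := by
  simp [gs]

theorem gs_nonneg {θ : ℝ} (hθ : 0 ≤ θ) (h : ℕ) : 0 ≤ gs θ h := by
  exact Finset.sum_nonneg fun m _ => pow_nonneg hθ m

theorem gs_mono {θ : ℝ} (hθ : 0 ≤ θ) {a b : ℕ} (h : a ≤ b) : gs θ a ≤ gs θ b := by
  exact Finset.sum_le_sum_of_subset_of_nonneg (Finset.range_mono h) fun m _ _ => pow_nonneg hθ m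

theorem gs_le {θ : ℝ} (hθ : 1 ≤ θ) (h : ℕ) : gs θ h ≤ h * θ ^ h := by
  have := Finset.sum_le_card_nsmul (range h) (fun m => θ ^ m) (θ ^ h)
    fun m hm => pow_le_pow_right₀ hθ (mem_range.1 hm).le
  rwa [card_range, nsmul_eq_mul] at this

theorem gs_add_le {θ : ℝ} (hθ : 1 ≤ θ) (a t : ℕ) : gs θ (a + t) ≤ gs θ a + t * θ ^ t * θ ^ a := by
  rw [gs, Finset.sum_range_add, gs]
  have := Finset.sum_le_card_nsmul (range t) (fun m => θ ^ (a + m)) (θ ^ t * θ ^ a)
    fun m hm => by
      rw [← pow_add]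
      exact pow_le_pow_right₀ hθ (by have := mem_range.1 hm; omega)
  rw [card_range, nsmul_eq_mul, ← mul_assoc] at this
  linarith

theorem pow_eq_gs (θ : ℝ) (h : ℕ) : θ ^ h = 1 + (θ - 1) * gs θ h := by
  rw [gs, mul_geom_sum]
  ring

theorem Nsq_nonneg {k n : ℕ} {θ : ℝ} (L : ℕ) (S : Set (Asg n)) : 0 ≤ Nsq k θ L S := by
  refine EL_nonneg fun F _ => ?_
  rw [pow_mul]
  positivity

theorem Nsq_mono {k n : ℕ} {θ : ℝ} (hθ : 1 ≤ θ) (L : ℕ) {S S' : Set (Asg n)} (h : S' ⊆ S) :
    Nsq k θ L S' ≤ Nsq k θ L S := by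
  exact EL_mono fun F _ => pow_le_pow_right₀ hθ (Nat.mul_le_mul_left 2 (hit_mono h F))

theorem Nsq_le_succ {k n : ℕ} (hk : k ≤ n) {θ : ℝ} (hθ : 1 ≤ θ) (L : ℕ) (S : Set (Asg n)) :
    Nsq k θ L S ≤ Nsq k θ (L + 1) S := by
  have := nonempty_clause hk
  rw [Nsq, ← EL_take (Nat.le_succ L)]
  exact EL_mono fun F _ => pow_le_pow_right₀ hθ (Nat.mul_le_mul_left 2 (hit_take_le S F L))

theorem basic_avg_le {I : Type} [Fintype I] {f : I → ℝ} {c : ℝ} (hc : 0 ≤ c) (h : ∀ i, f i ≤ c) :
    avg f ≤ c := by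
  rcases isEmpty_or_nonempty I with hI | hI
  · simpa [avg] using hc
  · exact (avg_mono h).trans (avg_const c).le

/-- The trivial bound. -/
theorem Asq_le_triv {k n : ℕ} {θ : ℝ} (hθ : 1 ≤ θ) (L j : ℕ) (S : Set (Asg n)) :
    Asq k θ L j S ≤ ((L : ℝ) + 1) ^ 2 * Nsq k θ L S := by
  have hθ0 : 0 ≤ θ := zero_le_one.trans hθ
  refine basic_avg_le (mul_nonneg (sq_nonneg _) (Nsq_nonneg L S)) fun C => ?_
  rw [Nsq, ← EL_const_mul]
  refine EL_mono fun F hF => ?_
  have h1 := gs_mono hθ0 (hit_mono (Set.inter_subset_left (s := S) (t := sol C)) F)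
  have h2 := gs_nonneg hθ0 (hit (S ∩ sol C) F)
  have h3 := gs_le hθ (hit S F)
  have h4 : (hit S F : ℝ) ≤ L + 1 := by
    have := hit_le S F
    rw [hF] at this
    exact_mod_cast this
  have h5 : (hit S F : ℝ) * θ ^ hit S F ≤ (L + 1) * θ ^ hit S F :=
    mul_le_mul_of_nonneg_right h4 (pow_nonneg hθ0 _)
  rw [mul_comm 2, pow_mul, ← mul_pow]
  exact pow_le_pow_left₀ (by linarith) (by linarith) 2

/-! ### `satProb` -/

open Classical in
theorem satProb_eq_EL (k n m : ℕ) :
    satProb k n m = EL m (fun F : List (Clause k n) => if (solL F).Nonempty then 1 else 0) := by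
  unfold satProb Crest.FinProb.uniformProb EL avg
  rw [div_eq_inv_mul, Finset.natCast_card_filter]
  congr 1
  refine Finset.sum_congr rfl fun F _ => ?_
  have : F ∈ {F : Fin m → Clause k n | Satisfiable F} ↔ (solL (List.ofFn F)).Nonempty := by
    simp [Satisfiable, solL, Set.Nonempty]
  beta_reduce
  by_cases h : (solL (List.ofFn F)).Nonempty
  · rw [if_pos (this.2 h), if_pos h]
  · rw [if_neg (fun h' => h (this.1 h')), if_neg h]

theorem satProb_nonneg (k n m : ℕ) : 0 ≤ satProb k n m := by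
  unfold satProb Crest.FinProb.uniformProb
  positivity

theorem satProb_le_one (k n m : ℕ) : satProb k n m ≤ 1 := by
  unfold satProb Crest.FinProb.uniformProb
  refine div_le_one_of_le₀ ?_ (Nat.cast_nonneg _)
  exact_mod_cast Finset.card_le_univ _

theorem satProb_zero (k n : ℕ) : satProb k n 0 = 1 := by
  rw [satProb_eq_EL, EL_zero]
  simp

theorem satProb_anti {k n : ℕ} (hk : k ≤ n) {m m' : ℕ} (h : m ≤ m') :
    satProb k n m' ≤ satProb k n m := by
  have := nonempty_clause hk
  rw [satProb_eq_EL, satProb_eq_EL, ← EL_take h]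
  refine EL_mono fun F _ => ?_
  by_cases h1 : (solL F).Nonempty
  · have h2 : (solL (F.take m)).Nonempty := by
      obtain ⟨σ, hσ⟩ := h1
      exact ⟨σ, fun c hc => hσ c (List.mem_of_mem_take hc)⟩
    rw [if_pos h1, if_pos h2]
  · rw [if_neg h1]
    split_ifs <;> norm_num

open Classical in
theorem basic_avg_clauseSat {k n : ℕ} (hk : k ≤ n) (σ : Asg n) :
    avg (fun c : Clause k n => if ClauseSat σ c then (1 : ℝ) else 0) = 1 - 1 / 2 ^ k := by
  have hne : Nonempty {v : Fin k → Fin n // Function.Injective v} :=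
    ⟨(nonempty_clause hk).some.1⟩
  have hV : (Fintype.card {v : Fin k → Fin n // Function.Injective v} : ℝ) ≠ 0 :=
    Nat.cast_ne_zero.2 Fintype.card_ne_zero
  have h1 : ∀ v : {v : Fin k → Fin n // Function.Injective v},
      ∑ s : Fin k → Bool, (if ClauseSat σ ((v, s) : Clause k n) then (1 : ℝ) else 0) =
        2 ^ k - 1 := by
    intro v
    have h2 : ∀ s : Fin k → Bool, (if ClauseSat σ ((v, s) : Clause k n) then (1 : ℝ) else 0) =
        1 - if s = fun i => !σ (v.1 i) then 1 else 0 := by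
      intro s
      by_cases h : s = fun i => !σ (v.1 i)
      · have : ¬ ClauseSat σ ((v, s) : Clause k n) := by
          rintro ⟨i, hi⟩
          subst h
          simp at hi
        rw [if_neg this, if_pos h, sub_self]
      · have : ClauseSat σ ((v, s) : Clause k n) := by
          by_contra h'
          apply h
          ext i
          have : σ (v.1 i) ≠ s i := fun e => h' ⟨i, e⟩
          revert this
          cases σ (v.1 i) <;> cases s i <;> simp
        rw [if_pos this, if_neg h, sub_zero]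
    simp only [h2]
    rw [Finset.sum_sub_distrib, Finset.sum_ite_eq']
    simp
  unfold avg
  rw [Fintype.sum_prod_type]
  simp only [h1]
  rw [Finset.sum_const, card_univ, nsmul_eq_mul, Fintype.card_prod]
  simp only [Fintype.card_pi, Fintype.card_bool, prod_const, card_univ, Fintype.card_fin]
  push_cast
  field_simp

/-- First moment bound. -/
theorem satProb_le_first {k n : ℕ} (hk : k ≤ n) (m : ℕ) :
    satProb k n m ≤ 2 ^ n * (1 - 1 / 2 ^ k) ^ m := by
  classical
  rw [satProb_eq_EL, EL]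
  have h1 : ∀ F : Fin m → Clause k n, (if (solL (List.ofFn F)).Nonempty then (1 : ℝ) else 0) ≤
      ∑ σ : Asg n, ∏ j, (if ClauseSat σ (F j) then (1 : ℝ) else 0) := by
    intro F
    have hnn : ∀ σ : Asg n, 0 ≤ ∏ j, (if ClauseSat σ (F j) then (1 : ℝ) else 0) := fun σ =>
      Finset.prod_nonneg fun j _ => by split_ifs <;> norm_num
    split_ifs with h
    · obtain ⟨σ, hσ⟩ := h
      refine le_trans (le_of_eq ?_) (Finset.single_le_sum (fun σ _ => hnn σ) (mem_univ σ))
      symm
      refine Finset.prod_eq_one fun j _ => if_pos (hσ _ ?_)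
      exact List.mem_ofFn.2 ⟨j, rfl⟩
    · exact Finset.sum_nonneg fun σ _ => hnn σ
  refine le_trans (avg_mono h1) (le_of_eq ?_)
  rw [avg_sum]
  have h2 : ∀ σ : Asg n, avg (fun F : Fin m → Clause k n =>
      ∏ j, (if ClauseSat σ (F j) then (1 : ℝ) else 0)) = (1 - 1 / 2 ^ k) ^ m := by
    intro σ
    rw [avg_pi_prod (fun (_ : Fin m) (c : Clause k n) => if ClauseSat σ c then (1 : ℝ) else 0),
      basic_avg_clauseSat hk, Finset.prod_const, card_univ, Fintype.card_fin]
  simp only [h2]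
  rw [Finset.sum_const, card_univ, nsmul_eq_mul]
  simp

theorem EL_lt_hit {k n : ℕ} (hk : k ≤ n) {m T : ℕ} (h : m ≤ T) :
    EL T (fun F : List (Clause k n) => if m < hit (Set.univ : Set (Asg n)) F then 1 else 0) =
      satProb k n m := by
  have := nonempty_clause hk
  rw [satProb_eq_EL, ← EL_take h]
  refine EL_congr fun F hF => ?_
  have : m < hit (Set.univ : Set (Asg n)) F ↔ (solL (F.take m)).Nonempty := by
    rw [lt_hit_iff, Set.univ_inter, hF]
    exact ⟨fun h => h.2, fun h' => ⟨h, h'⟩⟩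
  by_cases h1 : (solL (F.take m)).Nonempty
  · rw [if_pos (this.2 h1), if_pos h1]
  · rw [if_neg (fun h' => h1 (this.1 h')), if_neg h1]

theorem basic_sum_ite (f : ℕ → ℝ) {h T : ℕ} (hT : h ≤ T) :
    ∑ m ∈ range T, f m * (if m < h then 1 else 0) = ∑ m ∈ range h, f m := by
  symm
  rw [← Finset.sum_subset (Finset.range_mono hT)
    (f := fun m => f m * (if m < h then 1 else 0))]
  · exact Finset.sum_congr rfl fun m hm => by rw [if_pos (mem_range.1 hm), mul_one]
  · intro m _ hm
    rw [if_neg (fun h' => hm (mem_range.2 h')), mul_zero]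

theorem EL_hit {k n : ℕ} (hk : k ≤ n) (T : ℕ) :
    EL T (fun F : List (Clause k n) => (hit (Set.univ : Set (Asg n)) F : ℝ)) =
      ∑ m ∈ range (T + 1), satProb k n m := by
  rw [← Finset.sum_congr rfl fun m hm => EL_lt_hit hk (Nat.lt_succ_iff.1 (mem_range.1 hm)),
    ← EL_sum]
  refine EL_congr fun F hF => ?_
  have h := hit_le (Set.univ : Set (Asg n)) F
  rw [hF] at h
  have := basic_sum_ite (fun _ => (1 : ℝ)) h
  simp only [one_mul] at this
  rw [this]
  simp

theorem EL_hit_sq {k n : ℕ} (hk : k ≤ n) (T : ℕ) :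
    EL T (fun F : List (Clause k n) => (hit (Set.univ : Set (Asg n)) F : ℝ) ^ 2) =
      ∑ m ∈ range (T + 1), (2 * (m : ℝ) + 1) * satProb k n m := by
  have e : ∀ m ∈ range (T + 1), (2 * (m : ℝ) + 1) * satProb k n m =
      EL T (fun F : List (Clause k n) => (2 * (m : ℝ) + 1) *
        if m < hit (Set.univ : Set (Asg n)) F then 1 else 0) := fun m hm => by
    rw [EL_const_mul, EL_lt_hit hk (Nat.lt_succ_iff.1 (mem_range.1 hm))]
  rw [Finset.sum_congr rfl e, ← EL_sum]
  refine EL_congr fun F hF => ?_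
  have h := hit_le (Set.univ : Set (Asg n)) F
  rw [hF] at h
  rw [basic_sum_ite (fun m => 2 * (m : ℝ) + 1) h]
  generalize hit (Set.univ : Set (Asg n)) F = h
  induction h with
  | zero => simp
  | succ h ih =>
    rw [Finset.sum_range_succ, ← ih]
    push_cast
    ring

theorem threshold_nonneg {k : ℕ} {α : ℝ} (hα : IsSharpThreshold (satProb k) α) : 0 ≤ α := by
  by_contra h
  have h1 := (hα 0 le_rfl).2 (not_le.1 h)
  simp only [zero_mul, Nat.floor_zero, satProb_zero] at h1
  exact one_ne_zero (tendsto_nhds_unique tendsto_const_nhds h1)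

end Crest.Agent.R153
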