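import Crest.Agent.R153.Defs

/-! Row 153, module B1: list averages and binomial weights. -/

set_option autoImplicit false

namespace Crest.Agent.R153

open Finset Crest.ProbabilityR.RandomSAT Crest.Agent.R141

theorem nonempty_clause {j n : ℕ} (h : j ≤ n) : Nonempty (Clause j n) := by
  exact ⟨(⟨Fin.castLE h, Fin.castLE_injective h⟩, fun _ => true)⟩

theorem el_avg_prod_equiv {I J K : Type} [Fintype I] [Fintype J] [Fintype K] (e : I × J ≃ K)
    (f : K → ℝ) : avg (fun i => avg (fun j => f (e (i, j)))) = avg f := by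
  unfold avg
  rw [← Fintype.card_congr e, Fintype.card_prod, ← e.sum_comp, Fintype.sum_prod_type,
    ← Finset.mul_sum, Nat.cast_mul, mul_inv, mul_assoc]

theorem el_sum_bin_succ (L : ℕ) (ρ : ℝ) (g : ℕ → ℝ) :
    ∑ z ∈ range (L + 1 + 1), bin (L + 1) ρ z * g z =
      (1 - ρ) * ∑ z ∈ range (L + 1), bin L ρ z * g z +
        ρ * ∑ z ∈ range (L + 1), bin L ρ z * g (z + 1) := by
  have h1 : ∑ z ∈ range (L + 1), bin L ρ z * g z = ∑ z ∈ range (L + 1 + 1), bin L ρ z * g z := by
    rw [sum_range_succ _ (L + 1)]; simp [bin]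
  rw [h1, sum_range_succ' _ (L + 1), sum_range_succ' _ (L + 1), mul_add, mul_sum, mul_sum,
    add_right_comm, ← sum_add_distrib]
  congr 1
  · refine sum_congr rfl fun z hz => ?_
    unfold bin
    rcases (Nat.lt_succ_iff.1 (mem_range.1 hz)).eq_or_lt with rfl | hlt
    · simp; ring
    · obtain ⟨t, rfl⟩ := Nat.exists_eq_add_of_lt hlt
      rw [Nat.choose_succ_succ', show z + t + 1 + 1 - (z + 1) = t + 1 by omega,
        show z + t + 1 - (z + 1) = t by omega, show z + t + 1 - z = t + 1 by omega]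
      push_cast
      ring
  · simp [bin]; ring

/-! ### `EL` -/

section EL
variable {α β : Type} [Fintype α] [Fintype β]

theorem EL_zero (φ : List α → ℝ) : EL 0 φ = φ [] := by
  simp [EL, avg]

theorem EL_succ (L : ℕ) (φ : List α → ℝ) :
    EL (L + 1) φ = avg (fun a => EL L (fun F => φ (a :: F))) := by
  unfold EL
  rw [← el_avg_prod_equiv (Fin.consEquiv fun _ : Fin (L + 1) => α)]
  simp [Fin.consEquiv, List.ofFn_succ]

theorem EL_append (a b : ℕ) (φ : List α → ℝ) :
    EL (a + b) φ = EL a (fun F => EL b (fun F' => φ (F ++ F'))) := by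
  induction a generalizing φ with
  | zero => simp [EL_zero]
  | succ a ih =>
    rw [Nat.add_right_comm, EL_succ, EL_succ]
    simp only [ih, List.cons_append]

theorem EL_one (φ : List α → ℝ) : EL 1 φ = avg (fun a => φ [a]) := by
  simp only [EL_succ, EL_zero]

theorem EL_congr {L : ℕ} {φ ψ : List α → ℝ} (h : ∀ F, F.length = L → φ F = ψ F) :
    EL L φ = EL L ψ := by
  unfold EL
  congr 1
  funext F
  exact h _ (List.length_ofFn)

theorem EL_mono {L : ℕ} {φ ψ : List α → ℝ} (h : ∀ F, F.length = L → φ F ≤ ψ F) :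
    EL L φ ≤ EL L ψ := by
  exact avg_mono fun F => h _ (List.length_ofFn)

theorem EL_nonneg {L : ℕ} {φ : List α → ℝ} (h : ∀ F, F.length = L → 0 ≤ φ F) : 0 ≤ EL L φ := by
  exact avg_nonneg fun F => h _ (List.length_ofFn)

theorem EL_add (L : ℕ) (φ ψ : List α → ℝ) : EL L (fun F => φ F + ψ F) = EL L φ + EL L ψ := by
  exact avg_add _ _

theorem EL_sub (L : ℕ) (φ ψ : List α → ℝ) : EL L (fun F => φ F - ψ F) = EL L φ - EL L ψ := by
  exact avg_sub _ _

theorem EL_const_mul (L : ℕ) (c : ℝ) (φ : List α → ℝ) : EL L (fun F => c * φ F) = c * EL L φ := by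
  exact avg_const_mul _ _

theorem EL_sum {J : Type} (s : Finset J) (L : ℕ) (φ : J → List α → ℝ) :
    EL L (fun F => ∑ j ∈ s, φ j F) = ∑ j ∈ s, EL L (φ j) := by
  exact avg_sum s (fun j (F : Fin L → α) => φ j (List.ofFn F))

theorem EL_const [Nonempty α] (L : ℕ) (c : ℝ) : EL L (fun _ : List α => c) = c := by
  exact avg_const c

theorem EL_avg_comm {I : Type} [Fintype I] (L : ℕ) (φ : I → List α → ℝ) :
    EL L (fun F => avg (fun i => φ i F)) = avg (fun i => EL L (φ i)) := by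
  exact avg_comm (fun (F : Fin L → α) i => φ i (List.ofFn F))

theorem EL_comm (a b : ℕ) (φ : List α → List β → ℝ) :
    EL a (fun F => EL b (fun G => φ F G)) = EL b (fun G => EL a (fun F => φ F G)) := by
  exact avg_comm (fun (F : Fin a → α) (G : Fin b → β) => φ (List.ofFn F) (List.ofFn G))

theorem EL_take [Nonempty α] {L L' : ℕ} (h : L' ≤ L) (φ : List α → ℝ) :
    EL L (fun F => φ (F.take L')) = EL L' φ := by
  obtain ⟨b, rfl⟩ := Nat.exists_eq_add_of_le h
  rw [EL_append]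
  refine EL_congr fun F hF => ?_
  simp only [← hF, List.take_left', EL_const]

/-- One coordinate of a uniform tuple and the others are independent and uniform. -/
theorem avg_removeNth {L : ℕ} (i : Fin (L + 1)) (ψ : α → (Fin L → α) → ℝ) :
    avg (fun F : Fin (L + 1) → α => ψ (F i) (Fin.removeNth i F)) =
      avg (fun a => avg (fun F' : Fin L → α => ψ a F')) := by
  rw [← el_avg_prod_equiv (Fin.insertNthEquiv (fun _ : Fin (L + 1) => α) i)]
  simp [Fin.insertNthEquiv]

/-- A list of independent draws from a two-component mixture. -/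
theorem EL_mixture {A B : Type} [Fintype A] [Fintype B] (dec : α → A ⊕ B) (ρ : ℝ)
    (h : ∀ φ : A ⊕ B → ℝ, avg (fun c => φ (dec c)) =
      (1 - ρ) * avg (fun a => φ (Sum.inl a)) + ρ * avg (fun b => φ (Sum.inr b)))
    (L : ℕ) (Ψ : List A → List B → ℝ) :
    EL L (fun F => Ψ (lefts (F.map dec)) (rights (F.map dec))) =
      ∑ z ∈ range (L + 1), bin L ρ z * EL (L - z) (fun G => EL z (fun X => Ψ G X)) := by
  induction L generalizing Ψ with
  | zero => simp [EL_zero, bin, lefts, rights]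
  | succ L ih =>
    rw [EL_succ, el_sum_bin_succ]
    have h1 := h (Sum.elim
      (fun a => EL L (fun F => Ψ (a :: lefts (F.map dec)) (rights (F.map dec))))
      (fun b => EL L (fun F => Ψ (lefts (F.map dec)) (b :: rights (F.map dec)))))
    simp only [Sum.elim_inl, Sum.elim_inr] at h1
    refine Eq.trans ?_ (h1.trans ?_)
    · congr 1
      funext c
      rw [show (fun F : List α => Ψ (lefts ((c :: F).map dec)) (rights ((c :: F).map dec))) =
        fun F => Ψ (lefts (dec c :: F.map dec)) (rights (dec c :: F.map dec)) from rfl]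
      cases dec c <;> simp [lefts, rights]
    · congr 2
      · simp only [fun a => ih (fun G X => Ψ (a :: G) X)]
        rw [avg_sum]
        refine sum_congr rfl fun z hz => ?_
        rw [avg_const_mul, Nat.succ_sub (Nat.lt_succ_iff.1 (mem_range.1 hz)), EL_succ]
      · simp only [fun b => ih (fun G X => Ψ G (b :: X))]
        rw [avg_sum]
        refine sum_congr rfl fun z _ => ?_
        rw [avg_const_mul, Nat.add_sub_add_right, ← EL_avg_comm]
        simp only [EL_succ]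

end EL

/-! ### binomial weights -/

theorem bin_nonneg {ρ : ℝ} (h0 : 0 ≤ ρ) (h1 : ρ ≤ 1) (L z : ℕ) : 0 ≤ bin L ρ z := by
  have : 0 ≤ 1 - ρ := by linarith
  unfold bin
  positivity

theorem sum_bin_mul_pow (L : ℕ) (ρ w : ℝ) :
    ∑ z ∈ range (L + 1), bin L ρ z * w ^ z = (1 - ρ + ρ * w) ^ L := by
  rw [add_comm (1 - ρ), add_pow]
  refine sum_congr rfl fun z _ => ?_
  unfold bin
  ring

theorem sum_bin (L : ℕ) (ρ : ℝ) : ∑ z ∈ range (L + 1), bin L ρ z = 1 := by
  simpa using sum_bin_mul_pow L ρ 1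

theorem el_sum_bin_id (L : ℕ) (ρ : ℝ) : ∑ z ∈ range (L + 1), bin L ρ z * (z : ℝ) = L * ρ := by
  induction L with
  | zero => simp
  | succ L ih =>
    rw [el_sum_bin_succ L ρ (fun z => (z : ℝ))]
    simp only [Nat.cast_add, Nat.cast_one, mul_add, mul_one, sum_add_distrib, ih, sum_bin]
    ring

theorem el_sum_bin_sq (L : ℕ) (ρ : ℝ) :
    ∑ z ∈ range (L + 1), bin L ρ z * (z : ℝ) ^ 2 = L * ρ * (1 - ρ) + (L * ρ) ^ 2 := by
  induction L with
  | zero => simp
  | succ L ih =>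
    rw [el_sum_bin_succ L ρ (fun z => (z : ℝ) ^ 2)]
    have h : ∀ z : ℕ, bin L ρ z * ((z + 1 : ℕ) : ℝ) ^ 2 =
        bin L ρ z * (z : ℝ) ^ 2 + 2 * (bin L ρ z * z) + bin L ρ z := fun z => by push_cast; ring
    simp only [h, sum_add_distrib, ← mul_sum, ih, sum_bin, el_sum_bin_id]
    push_cast
    ring

theorem sum_bin_mul_pow_le {ρ w : ℝ} (h0 : 0 ≤ ρ) (hw : 1 ≤ w) (L : ℕ) :
    ∑ z ∈ range (L + 1), bin L ρ z * w ^ z ≤ Real.exp (L * ρ * (w - 1)) := by
  rw [sum_bin_mul_pow, mul_assoc, Real.exp_nat_mul]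
  have h1 : 0 ≤ ρ * (w - 1) := mul_nonneg h0 (by linarith)
  exact pow_le_pow_left₀ (by linarith) (by linarith [Real.add_one_le_exp (ρ * (w - 1))]) L

theorem sum_bin_one_le {ρ : ℝ} (h0 : 0 ≤ ρ) (h1 : ρ ≤ 1) (L : ℕ) :
    ∑ z ∈ range (L + 1), bin L ρ z * (if 1 ≤ z then 1 else 0) ≤ L * ρ := by
  rw [← el_sum_bin_id]
  refine sum_le_sum fun z _ => mul_le_mul_of_nonneg_left ?_ (bin_nonneg h0 h1 L z)
  split_ifs with h
  · exact_mod_cast h
  · exact z.cast_nonneg

theorem sum_bin_two_le {ρ : ℝ} (h0 : 0 ≤ ρ) (h1 : ρ ≤ 1) (L : ℕ) :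
    ∑ z ∈ range (L + 1), bin L ρ z * (if 2 ≤ z then 1 else 0) ≤ (L * ρ) ^ 2 := by
  have h2 : ∑ z ∈ range (L + 1), bin L ρ z * (if 2 ≤ z then 1 else 0) ≤
      ∑ z ∈ range (L + 1), (bin L ρ z * (z : ℝ) ^ 2 - bin L ρ z * z) := by
    refine sum_le_sum fun z _ => ?_
    rw [← mul_sub]
    refine mul_le_mul_of_nonneg_left ?_ (bin_nonneg h0 h1 L z)
    split_ifs with h
    · have : (2 : ℝ) ≤ z := by exact_mod_cast h
      nlinarith
    · have : z = 0 ∨ z = 1 := by omega
      rcases this with rfl | rfl <;> simp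
  rw [sum_sub_distrib, el_sum_bin_id, el_sum_bin_sq] at h2
  have h3 : 0 ≤ (L : ℝ) * ρ ^ 2 := by positivity
  nlinarith

theorem sum_bin_sq (L : ℕ) (ρ : ℝ) :
    ∑ z ∈ range (L + 1), bin L ρ z * ((z : ℝ) - L * ρ) ^ 2 = L * ρ * (1 - ρ) := by
  have h : ∀ z : ℕ, bin L ρ z * ((z : ℝ) - L * ρ) ^ 2 =
      bin L ρ z * (z : ℝ) ^ 2 - 2 * (L * ρ) * (bin L ρ z * z) + (L * ρ) ^ 2 * bin L ρ z :=
    fun z => by ring
  simp only [h, sum_add_distrib, sum_sub_distrib, ← mul_sum, el_sum_bin_id, el_sum_bin_sq, sum_bin]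
  ring

end Crest.Agent.R153
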