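import Crest.Agent.R153.SatDefs

/-! Row 153, module M: the diluted-spin-glass quantities for soft 3-SAT as finite sums. -/

set_option autoImplicit false

namespace Crest.Agent.R153

open Finset MeasureTheory Crest.ProbabilityR.RandomSAT Crest.ProbabilityR.Diluted Crest.Agent.R141

section general

variable {Ω Y : Type} [Fintype Ω] [MeasurableSpace Ω] [MeasurableSingletonClass Ω]
  [MeasurableSpace Y]

theorem md_map_eq (P : Measure Ω) (g : Ω → Y) :
    P.map g = ∑ w, P {w} • Measure.dirac (g w) := by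
  have hg : Measurable g := measurable_of_finite g
  conv_lhs => rw [← Measure.sum_smul_dirac P, Measure.sum_fintype]
  rw [Measure.map_finset_sum' hg.aemeasurable]
  refine sum_congr rfl fun w _ => ?_
  rw [Measure.map_smul, Measure.map_dirac' hg]

theorem md_integrable_map [MeasurableSingletonClass Y] (P : Measure Ω) [IsFiniteMeasure P]
    (g : Ω → Y) (φ : Y → ℝ) : Integrable φ (P.map g) := by
  rw [md_map_eq, integrable_finsetSum_measure]
  exact fun w _ => (integrable_dirac (by simp)).smul_measure (measure_ne_top _ _)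

theorem md_integral_map [MeasurableSingletonClass Y] (P : Measure Ω) [IsFiniteMeasure P]
    (g : Ω → Y) (φ : Y → ℝ) : ∫ y, φ y ∂(P.map g) = ∑ w, (P {w}).toReal * φ (g w) := by
  rw [md_map_eq, integral_finsetSum_measure
    fun w _ => (integrable_dirac (by simp)).smul_measure (measure_ne_top _ _)]
  refine sum_congr rfl fun w _ => ?_
  rw [integral_smul_measure, integral_dirac, smul_eq_mul]

theorem md_integral_map_avg [MeasurableSingletonClass Y] (P : Measure Ω) [IsFiniteMeasure P]
    (hP : ∀ w, (P {w}).toReal = (Fintype.card Ω : ℝ)⁻¹) (g : Ω → Y) (φ : Y → ℝ) :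
    ∫ y, φ y ∂(P.map g) = avg (fun w => φ (g w)) := by
  rw [md_integral_map, avg, mul_sum]
  exact sum_congr rfl fun w _ => by rw [hP]

end general

/-- The law of the three fair signs. -/
noncomputable def mdSigns : Measure (Fin 3 → Bool) :=
  Measure.pi fun _ : Fin 3 => (ProbabilityTheory.uniformOn Set.univ : Measure Bool)

instance : IsProbabilityMeasure mdSigns := by
  unfold mdSigns
  infer_instance

theorem md_muSat (b : ℝ) : muSat b = mdSigns.map (satInter b) := rfl

theorem md_signs_singleton (s : Fin 3 → Bool) :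
    (mdSigns {s}).toReal = (Fintype.card (Fin 3 → Bool) : ℝ)⁻¹ := by
  unfold mdSigns
  rw [Measure.pi_singleton]
  simp only [ProbabilityTheory.uniformOn_univ, Measure.count_singleton, prod_const, card_univ,
    Fintype.card_fin, Fintype.card_bool, Fintype.card_fun, ENNReal.toReal_pow, ENNReal.toReal_div,
    ENNReal.toReal_one, ENNReal.toReal_natCast]
  norm_num

theorem integral_muSat (b : ℝ) (φ : Inter 3 → ℝ) :
    ∫ θ, φ θ ∂(muSat b) = avg (fun s : Fin 3 → Bool => φ (satInter b s)) :=
  md_integral_map_avg mdSigns md_signs_singleton _ _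

theorem integral_pi_muSat (b : ℝ) (k : ℕ) (φ : (Fin k → Inter 3) → ℝ) :
    ∫ θs, φ θs ∂(Measure.pi fun _ : Fin k => muSat b) =
      avg (fun s : Fin k → Fin 3 → Bool => φ (fun j => satInter b (s j))) := by
  have h : (Measure.pi fun _ : Fin k => muSat b) =
      (Measure.pi fun _ : Fin k => mdSigns).map (fun s j => satInter b (s j)) :=
    (Measure.pi_map_pi (μ := fun _ : Fin k => mdSigns) (f := fun _ => satInter b)
      (hμ := fun _ => inferInstanceAs (SigmaFinite (muSat b)))
      fun _ => (measurable_of_finite _).aemeasurable).symm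
  rw [h]
  refine md_integral_map_avg _ (fun s => ?_) _ _
  rw [Measure.pi_singleton, ENNReal.toReal_prod]
  simp only [md_signs_singleton, prod_const, card_univ, Fintype.card_fin]
  rw [Fintype.card_fun (α := Fin k), Fintype.card_fin, Nat.cast_pow, inv_pow]

theorem integrable_muSat (b : ℝ) : Integrable (fun θ : Inter 3 => ‖θ‖) (muSat b) :=
  md_integrable_map mdSigns _ _

theorem md_prod_ite (w s : Fin 3 → Bool) :
    ∏ l, (if s l ≠ w l then (1 : ℝ) else 0) = if ∀ l, s l ≠ w l then 1 else 0 := by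
  rw [Finset.prod_ite_zero]
  simp

theorem hasFac_muSat {b : ℝ} (h0 : 0 ≤ b) (h1 : b < 1) : HasFac 3 (muSat b) := by
  refine ⟨Fin 3 → Bool, inferInstance, mdSigns, inferInstance, fun _ => 1, fun _ => -b,
    fun l w s => if s ≠ w l then 1 else 0, measurable_const, measurable_const,
    fun _ => measurable_of_finite _, ?_, fun l => ?_, ProbabilityTheory.indepFun_const_left _ _,
    Filter.Eventually.of_forall fun w => ⟨one_pos, fun s => ?_⟩, fun n _ => ⟨?_, ?_⟩, ?_,
    Or.inr fun l w s => ?_⟩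
  · exact ProbabilityTheory.iIndepFun_pi
      (μ := fun _ : Fin 3 => (ProbabilityTheory.uniformOn Set.univ : Measure Bool))
      (X := fun _ (c : Bool) (s : Bool) => if s ≠ c then (1 : ℝ) else 0)
      fun _ => (measurable_of_finite _).aemeasurable
  · have key : ∀ l : Fin 3, mdSigns.map (fun w (s : Bool) => if s ≠ w l then (1 : ℝ) else 0) =
        (ProbabilityTheory.uniformOn Set.univ : Measure Bool).map
          (fun c (s : Bool) => if s ≠ c then (1 : ℝ) else 0) := fun l => by
      have h := (measurePreserving_eval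
        (fun _ : Fin 3 => (ProbabilityTheory.uniformOn Set.univ : Measure Bool)) l).map_eq
      rw [← h, Measure.map_map (measurable_of_finite _) (measurable_of_finite _)]
      rfl
    exact ⟨(measurable_of_finite _).aemeasurable, (measurable_of_finite _).aemeasurable,
      (key l).trans (key _).symm⟩
  · rw [md_prod_ite]
    split_ifs
    · rw [mul_one, abs_neg, abs_of_nonneg h0]
      exact h1
    · simp
  · exact integrable_const _
  · exact integral_nonneg fun _ => by simpa using pow_nonneg h0 n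
  · rw [md_muSat]
    congr 1
    funext w s
    rw [md_prod_ite, satInter]
    split_ifs
    · rw [one_mul, mul_one, ← sub_eq_add_neg]
    · simp
  · dsimp only
    split_ifs
    · exact zero_le_one
    · exact le_rfl

theorem md_exp_satInter {b : ℝ} (h1 : b < 1) (s σ : Fin 3 → Bool) :
    Real.exp (satInter b s σ) = if ∀ l, σ l ≠ s l then 1 - b else 1 := by
  rw [satInter]
  split_ifs
  · exact Real.exp_log (by linarith)
  · exact Real.exp_zero

theorem md_avg_prod_equiv {I J K : Type} [Fintype I] [Fintype J] [Fintype K] (e : I × J ≃ K)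
    (f : K → ℝ) : avg (fun i => avg (fun j => f (e (i, j)))) = avg f := by
  unfold avg
  rw [← Fintype.card_congr e, Fintype.card_prod, ← e.sum_comp, Fintype.sum_prod_type,
    ← Finset.mul_sum, Nat.cast_mul, mul_inv, mul_assoc]

theorem pressure_muSat (q : ℝ) {b : ℝ} (h1 : b < 1) (N : ℕ) :
    pressure 3 q (muSat b) (Measure.dirac 0) N =
      (1 / (N : ℝ)) * ∑' M : ℕ, poissonWeight (q * N) M * eRaw b N M := by
  unfold pressure
  congr 1
  refine tsum_congr fun M => ?_
  congr 1
  have hd : (Measure.pi fun _ : Fin N => (Measure.dirac 0 : Measure ℝ)) =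
      Measure.dirac (fun _ => 0) := by
    rw [← Measure.infinitePi_eq_pi, Measure.infinitePi_dirac]
  rw [hd]
  simp only [integral_dirac]
  rw [integral_pi_muSat, eRaw, ← md_avg_prod_equiv (Equiv.arrowProdEquivProdArrow (Fin M)
    (fun _ => Fin 3 → Fin N) (fun _ => Fin 3 → Bool)).symm, avg_comm]
  congr 1
  funext s
  unfold avg
  congr 1
  refine sum_congr rfl fun idx _ => ?_
  unfold logPartition logZ
  congr 1
  refine sum_congr rfl fun σ _ => ?_
  simp only [zero_mul, sum_const_zero, add_zero]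
  rw [Real.exp_sum]
  exact prod_congr rfl fun j _ => md_exp_satInter h1 _ _

theorem Pfin_muSat (q b : ℝ) (m : ℕ → ℝ) (r : ℕ) (Lab : Sys Bool) :
    Pfin 3 q (muSat b) (Measure.dirac 0) m r Lab =
      Real.log 2 + (∑' k : ℕ, poissonWeight (q * 3) k * siteA b m r Lab k) -
        2 * q * edgeB b m r Lab := by
  unfold Pfin
  simp only [integral_dirac]
  rw [integral_muSat]
  simp only [integral_pi_muSat, Nat.cast_ofNat]
  congr 1
  unfold edgeB
  ring

theorem md_satInter_nonpos {b : ℝ} (h0 : 0 ≤ b) (h1 : b < 1) (s σ : Fin 3 → Bool) :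
    satInter b s σ ≤ 0 := by
  rw [satInter]
  split_ifs
  · exact Real.log_nonpos (by linarith) (by linarith)
  · exact le_rfl

theorem md_norm_satInter_le (b : ℝ) (s : Fin 3 → Bool) :
    ‖satInter b s‖ ≤ |Real.log (1 - b)| := by
  refine (pi_norm_le_iff_of_nonneg (abs_nonneg _)).2 fun σ => ?_
  rw [satInter, Real.norm_eq_abs]
  split_ifs
  · exact le_rfl
  · simp

theorem siteA_nonpos {b : ℝ} (h0 : 0 ≤ b) (h1 : b < 1) {m : ℕ → ℝ} (hm : Exps m) {r : ℕ}
    {Lab : Sys Bool} (hL : Sys.Prob (r + 2) Lab) (k : ℕ) : siteA b m r Lab k ≤ 0 := by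
  unfold siteA
  refine (avg_mono (g := fun _ => 0) fun s => ?_).trans (avg_const 0).le
  unfold labLog
  refine sum_nonpos fun u _ => mul_nonpos_of_nonneg_of_nonpos
    (prod_nonneg fun l _ => (hL.1 _).le) ?_
  have hP : Sys.Prob (r + 1) (Sys.piProd (r + 1) fun l => Lab.ch (u l)) :=
    Sys.prob_piProd fun l => hL.2.2 _
  have hV : ∀ x : Fin k × Fin (3 - 1) → Bool,
      siteV (p := 3) (k := k) 0 (fun j => satInter b (s j)) x ≤ 1 := fun x => by
    unfold siteV
    have h2 : ∀ ε : Bool, Real.exp (0 * spinVal ε + ∑ j : Fin k,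
        satInter b (s j) (ext (fun l => x (j, l)) ε)) ≤ 1 := fun ε => by
      rw [zero_mul, zero_add]
      exact Real.exp_le_one_iff.2 (sum_nonpos fun j _ => md_satInter_nonpos h0 h1 _ _)
    rw [Fintype.sum_bool]
    linarith [h2 true, h2 false]
  refine Real.log_nonpos (Sys.T_pos hP (Sys.allAt_of_forall _ _ fun Q => siteV_pos _ _ _)).le ?_
  have h3 := Sys.T_mono hm.pos hP (Ψ := fun _ => 1)
    (Φ := fun L => siteV (p := 3) (k := k) 0 (fun j => satInter b (s j)) L.val)
    (Sys.allAt_of_forall _ _ fun Q => ⟨siteV_pos _ _ _, hV _⟩)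
  rwa [Sys.T_const hm.pos hP one_pos] at h3

theorem md_abs_siteA_le (b : ℝ) {m : ℕ → ℝ} (hm : Exps m) {r : ℕ}
    {Lab : Sys Bool} (hL : Sys.Prob (r + 2) Lab) (k : ℕ) :
    |siteA b m r Lab k| ≤ 0 + |Real.log (1 - b)| * k := by
  unfold siteA
  refine (abs_avg_le _).trans ((avg_mono (g := fun _ => 0 + |Real.log (1 - b)| * k)
    fun s => ?_).trans (avg_const _).le)
  refine abs_labLog_le hm.pos hL (siteV_pos _ _) fun x => (abs_log_siteV_le _ _ _).trans ?_
  rw [abs_zero]
  refine add_le_add_right ?_ _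
  calc ∑ j : Fin k, ‖satInter b (s j)‖ ≤ ∑ _j : Fin k, |Real.log (1 - b)| :=
        sum_le_sum fun j _ => md_norm_satInter_le b _
    _ = _ := by rw [sum_const, card_univ, Fintype.card_fin, nsmul_eq_mul, mul_comm]

theorem md_summable_siteA {q : ℝ} (hq : 0 ≤ q) (b : ℝ) {m : ℕ → ℝ} (hm : Exps m) {r : ℕ}
    {Lab : Sys Bool} (hL : Sys.Prob (r + 2) Lab) :
    Summable fun k => poissonWeight (q * 3) k * siteA b m r Lab k :=
  summable_poissonWeight_mul (by positivity) (md_abs_siteA_le b hm hL)

theorem Pfin_le_PsatK {q b : ℝ} (hq : 0 ≤ q) (h0 : 0 ≤ b) (h1 : b < 1) {m : ℕ → ℝ} (hm : Exps m)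
    {r : ℕ} {Lab : Sys Bool} (hL : Sys.Prob (r + 2) Lab) (K : ℕ) :
    Pfin 3 q (muSat b) (Measure.dirac 0) m r Lab ≤ PsatK q b m r Lab K := by
  rw [Pfin_muSat, PsatK, ← (md_summable_siteA hq b hm hL).sum_add_tsum_nat_add K]
  have h2 : ∑' k, poissonWeight (q * 3) (k + K) * siteA b m r Lab (k + K) ≤ 0 :=
    tsum_nonpos fun k => mul_nonpos_of_nonneg_of_nonpos (poissonWeight_nonneg (by positivity) _)
      (siteA_nonpos h0 h1 hm hL _)
  linarith [Real.log_two_lt_d9]

theorem exists_PsatK_neg {q b : ℝ} (hq : 0 ≤ q) (h0 : 0 ≤ b) (h1 : b < 1) {m : ℕ → ℝ}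
    (hm : Exps m) {r : ℕ} {Lab : Sys Bool} (hL : Sys.Prob (r + 2) Lab)
    (h : Pfin 3 q (muSat b) (Measure.dirac 0) m r Lab < -1 / 2) :
    ∃ K, PsatK q b m r Lab K < 0 := by
  have _ := h0
  have _ := h1
  rw [Pfin_muSat] at h
  have h2 := (md_summable_siteA hq b hm hL).hasSum.tendsto_sum_nat
  have h3 : (∑' k, poissonWeight (q * 3) k * siteA b m r Lab k) < 2 * q * edgeB b m r Lab - 1 := by
    linarith [Real.log_two_gt_d9]
  obtain ⟨K, hK⟩ := (h2.eventually (gt_mem_nhds h3)).exists
  refine ⟨K, ?_⟩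
  rw [PsatK]
  linarith

end Crest.Agent.R153
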