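import Crest.Agent.R153.LabApx
import Crest.Agent.R153.Model

/-! Row 153, module R: negativity of the truncated functional on finite data is semidecidable. -/

set_option autoImplicit false

namespace Crest.Agent.R153

open Finset Crest.ProbabilityR.Diluted Crest.Agent.R141 Crest.Agent.Lib.Computability

theorem cert_primrec_sum {α : Type} [Primcodable α] {n : α → ℕ} {f : α → ℕ → ℚ}
    (hn : Primrec n) (hf : Primrec₂ f) : Primrec fun a => ∑ i ∈ range (n a), f a i := by
  refine (rat_list_sum.comp (Primrec.list_map (Primrec.list_range.comp hn) hf)).of_eq fun a => ?_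
  generalize n a = m
  induction m with
  | zero => simp
  | succ m ih => rw [List.range_succ, List.map_append, List.sum_append, ih, Finset.sum_range_succ]; simp

theorem cert_list_prod : Primrec (fun l : List ℚ => l.prod) := by
  have h := Primrec.list_foldr (α := List ℚ) (β := ℚ) (σ := ℚ) (f := fun l => l) (g := fun _ => 1)
    (h := fun _ p => p.1 * p.2) Primrec.id (Primrec.const 1)
    (rat_mul.comp (Primrec.fst.comp Primrec.snd) (Primrec.snd.comp Primrec.snd)).to₂
  refine h.of_eq fun l => ?_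
  induction l with
  | nil => rfl
  | cons a l ih => simp only [List.foldr_cons, List.prod_cons, ih]

theorem cert_primrec_prod {α : Type} [Primcodable α] {n : α → ℕ} {f : α → ℕ → ℚ}
    (hn : Primrec n) (hf : Primrec₂ f) : Primrec fun a => ∏ i ∈ range (n a), f a i := by
  refine (cert_list_prod.comp (Primrec.list_map (Primrec.list_range.comp hn) hf)).of_eq fun a => ?_
  generalize n a = m
  induction m with
  | zero => simp
  | succ m ih =>
    rw [List.range_succ, List.map_append, List.prod_append, ih, Finset.prod_range_succ]; simp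

theorem cert_testBit : Primrec₂ Nat.testBit := by
  have h : PrimrecPred fun p : ℕ × ℕ => p.1 / 2 ^ p.2 % 2 = 1 :=
    Primrec.eq.comp (Primrec.nat_mod.comp (Primrec.nat_div.comp Primrec.fst
      (nat_pow.comp (Primrec.const 2) Primrec.snd)) (Primrec.const 2)) (Primrec.const 1)
  exact (h.decide.of_eq fun p => (Nat.testBit_eq_decide_div_mod_eq).symm).to₂

/-- The weight of one soft clause. -/
def certW (b : ℚ) (x y z x' y' z' : Bool) : ℚ := if x ≠ x' ∧ y ≠ y' ∧ z ≠ z' then 1 - b else 1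

theorem certW_primrec {α : Type} [Primcodable α] {b : α → ℚ} {x y z x' y' z' : α → Bool}
    (hb : Primrec b) (hx : Primrec x) (hy : Primrec y) (hz : Primrec z) (hx' : Primrec x')
    (hy' : Primrec y') (hz' : Primrec z') :
    Primrec fun a => certW (b a) (x a) (y a) (z a) (x' a) (y' a) (z' a) :=
  Primrec.ite (PrimrecPred.and (PrimrecPred.not (Primrec.eq.comp hx hx'))
    (PrimrecPred.and (PrimrecPred.not (Primrec.eq.comp hy hy'))
      (PrimrecPred.not (Primrec.eq.comp hz hz'))))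
    (rat_sub.comp (Primrec.const 1) hb) (Primrec.const 1)

theorem certW_bounds {b : ℝ} (h0 : 0 < b) (h1 : b < 1) (s σ : Fin 3 → Bool) :
    1 - b ≤ Real.exp (satInter b s σ) ∧ Real.exp (satInter b s σ) ≤ 1 := by
  unfold satInter
  split_ifs
  · rw [Real.exp_log (by linarith)]
    constructor <;> linarith
  · rw [Real.exp_zero]
    constructor <;> linarith

theorem certW_eq {b : ℚ} (h1 : b < 1) (s σ : Fin 3 → Bool) :
    Real.exp (satInter b s σ) = certW b (σ 0) (σ 1) (σ 2) (s 0) (s 1) (s 2) := by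
  have h1' : (b : ℝ) < 1 := by exact_mod_cast h1
  have e : (∀ l, σ l ≠ s l) ↔ σ 0 ≠ s 0 ∧ σ 1 ≠ s 1 ∧ σ 2 ≠ s 2 :=
    ⟨fun h => ⟨h 0, h 1, h 2⟩, fun h l => by
      fin_cases l
      exacts [h.1, h.2.1, h.2.2]⟩
  unfold satInter certW
  by_cases h : ∀ l, σ l ≠ s l
  · rw [if_pos h, if_pos (e.1 h), Real.exp_log (by linarith)]
    push_cast
    ring
  · rw [if_neg h, if_neg (fun h' => h (e.2 h')), Real.exp_zero]
    simp

/-- The product over the clauses at a site. -/
def certProd (x : ℚ × ℕ × ℕ) (L : List Bool) (ε : Bool) : ℚ :=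
  ∏ j ∈ range x.2.1, certW x.1 (L.getD (2 * j) false) (L.getD (2 * j + 1) false) ε
    (x.2.2.testBit (3 * j)) (x.2.2.testBit (3 * j + 1)) (x.2.2.testBit (3 * j + 2))

theorem certProd_primrec (ε : Bool) : Primrec₂ fun x L => certProd x L ε := by
  have hj : Primrec fun p : ((ℚ × ℕ × ℕ) × List Bool) × ℕ => p.2 := Primrec.snd
  have hL : Primrec fun p : ((ℚ × ℕ × ℕ) × List Bool) × ℕ => p.1.2 := Primrec.snd.comp Primrec.fst
  have hg : Primrec fun p : ((ℚ × ℕ × ℕ) × List Bool) × ℕ => p.1.1.2.2 :=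
    Primrec.snd.comp (Primrec.snd.comp (Primrec.fst.comp Primrec.fst))
  have hb : Primrec fun p : ((ℚ × ℕ × ℕ) × List Bool) × ℕ => p.1.1.1 :=
    Primrec.fst.comp (Primrec.fst.comp Primrec.fst)
  have h2 : Primrec fun p : ((ℚ × ℕ × ℕ) × List Bool) × ℕ => 2 * p.2 :=
    Primrec.nat_mul.comp (Primrec.const 2) hj
  have h3 : Primrec fun p : ((ℚ × ℕ × ℕ) × List Bool) × ℕ => 3 * p.2 :=
    Primrec.nat_mul.comp (Primrec.const 3) hj
  have hW := certW_primrec hb ((Primrec.list_getD false).comp hL h2)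
    ((Primrec.list_getD false).comp hL (Primrec.nat_add.comp h2 (Primrec.const 1)))
    (Primrec.const ε) (cert_testBit.comp hg h3)
    (cert_testBit.comp hg (Primrec.nat_add.comp h3 (Primrec.const 1)))
    (cert_testBit.comp hg (Primrec.nat_add.comp h3 (Primrec.const 2)))
  exact cert_primrec_prod (α := (ℚ × ℕ × ℕ) × List Bool) (n := fun p => p.1.2.1)
    (f := fun p j => certW p.1.1 (p.2.getD (2 * j) false) (p.2.getD (2 * j + 1) false) ε
      (p.1.2.2.testBit (3 * j)) (p.1.2.2.testBit (3 * j + 1)) (p.1.2.2.testBit (3 * j + 2)))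
    (Primrec.fst.comp (Primrec.snd.comp Primrec.fst)) hW.to₂

/-- The site leaf function. -/
def certSite (x : ℚ × ℕ × ℕ) (L : List Bool) : ℚ := (certProd x L true + certProd x L false) / 2

theorem certSite_primrec : Primrec₂ certSite :=
  (rat_div.comp (rat_add.comp (certProd_primrec true) (certProd_primrec false))
    (Primrec.const 2)).to₂

/-- The edge leaf function. -/
def certEdge (x : ℚ × ℕ) (L : List Bool) : ℚ :=
  certW x.1 (L.getD 0 false) (L.getD 1 false) (L.getD 2 false)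
    (x.2.testBit 0) (x.2.testBit 1) (x.2.testBit 2)

theorem certEdge_primrec : Primrec₂ certEdge := by
  have hL : Primrec fun p : (ℚ × ℕ) × List Bool => p.2 := Primrec.snd
  have hg : Primrec fun p : (ℚ × ℕ) × List Bool => p.1.2 := Primrec.snd.comp Primrec.fst
  have hb : Primrec fun p : (ℚ × ℕ) × List Bool => p.1.1 := Primrec.fst.comp Primrec.fst
  exact (certW_primrec hb ((Primrec.list_getD false).comp hL (Primrec.const 0))
    ((Primrec.list_getD false).comp hL (Primrec.const 1))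
    ((Primrec.list_getD false).comp hL (Primrec.const 2)) (cert_testBit.comp hg (Primrec.const 0))
    (cert_testBit.comp hg (Primrec.const 1)) (cert_testBit.comp hg (Primrec.const 2))).to₂

/-- The signs coded by a number. -/
def certSigns (k g : ℕ) : Fin k → Fin 3 → Bool := fun j l => g.testBit (3 * j + l)

theorem cert_avg_signs (k : ℕ) (φ : (Fin k → Fin 3 → Bool) → ℝ) :
    avg φ = (∑ g ∈ range (8 ^ k), φ (certSigns k g)) / 8 ^ k := by
  have hbij : Function.Bijective (fun g : Fin (8 ^ k) => certSigns k g) := by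
    rw [Fintype.bijective_iff_injective_and_card]
    refine ⟨fun g g' h => Fin.ext (Nat.eq_of_testBit_eq fun i => ?_), by simp⟩
    by_cases hi : i < 3 * k
    · have := congrFun (congrFun h ⟨i / 3, by omega⟩) ⟨i % 3, Nat.mod_lt _ (by norm_num)⟩
      simpa only [certSigns, Nat.div_add_mod] using this
    · have h8 : 8 ^ k ≤ 2 ^ i := by
        calc 8 ^ k = 2 ^ (3 * k) := by rw [pow_mul]; rfl
          _ ≤ 2 ^ i := Nat.pow_le_pow_right (by norm_num) (not_lt.1 hi)
      rw [Nat.testBit_lt_two_pow (g.2.trans_le h8), Nat.testBit_lt_two_pow (g'.2.trans_le h8)]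
  unfold avg
  rw [← hbij.sum_comp φ, Fin.sum_univ_eq_sum_range (fun g => φ (certSigns k g)) (8 ^ k),
    div_eq_inv_mul]
  simp

theorem cert_avg_signs_one (φ : (Fin 3 → Bool) → ℝ) :
    avg φ = (∑ g ∈ range 8, φ (fun l => g.testBit l)) / 8 := by
  have h := cert_avg_signs 1 (fun s => φ (s 0))
  have h2 : avg (fun s : Fin 1 → Fin 3 → Bool => φ (s 0)) = avg φ := by
    unfold avg
    rw [← (Equiv.funUnique (Fin 1) (Fin 3 → Bool)).sum_comp φ]
    simp
  rw [← h2, h, pow_one, pow_one]
  congr 1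
  refine Finset.sum_congr rfl fun g _ => ?_
  congr 1
  funext l
  simp [certSigns]

/-- Indexing of the labels at a site. -/
def certE (k : ℕ) : Fin (k * 2) ≃ Fin k × Fin (3 - 1) := (finProdFinEquiv (m := k) (n := 2)).symm

theorem certSite_eq {b : ℚ} (h1 : b < 1) (k g : ℕ) (s : Fin k × Fin (3 - 1) → Bool) :
    siteV (p := 3) (k := k) 0 (fun j => satInter b (certSigns k g j)) s =
      certSite (b, k, g) (List.ofFn fun i : Fin (k * 2) => s (certE k i)) := by
  have hget : ∀ (j : Fin k) (l : Fin 2),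
      (List.ofFn fun i : Fin (k * 2) => s (certE k i)).getD (2 * j + l) false =
        s (j, l) := by
    intro j l
    have hlt : 2 * (j : ℕ) + l < k * 2 := by omega
    rw [List.getD_eq_getElem _ _ (by simpa using hlt), List.getElem_ofFn]
    congr 1
    refine (Equiv.symm_apply_eq (finProdFinEquiv (m := k) (n := 2))).2 ?_
    ext
    simp [finProdFinEquiv, add_comm]
  have hprod : ∀ ε : Bool, Real.exp (0 * spinVal ε + ∑ j : Fin k,
      satInter b (certSigns k g j) (ext (p := 3) (fun l => s (j, l)) ε)) =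
      certProd (b, k, g) (List.ofFn fun i : Fin (k * 2) => s (certE k i)) ε := by
    intro ε
    rw [zero_mul, zero_add, Real.exp_sum, certProd, Finset.prod_range]
    push_cast
    refine Finset.prod_congr rfl fun j _ => ?_
    rw [certW_eq h1]
    have e0 := hget j 0
    have e1 := hget j 1
    simp only [Fin.val_zero, add_zero, Fin.val_one] at e0 e1
    rw [e0, e1]
    rfl
  rw [siteV, Fintype.sum_bool, hprod, hprod, certSite]
  push_cast
  ring

theorem certSite_bounds {b : ℝ} (h0 : 0 < b) (h1 : b < 1) (k : ℕ) (t : Fin k → Fin 3 → Bool)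
    (s : Fin k × Fin (3 - 1) → Bool) :
    (1 - b) ^ k ≤ siteV (p := 3) (k := k) 0 (fun j => satInter b (t j)) s ∧
      siteV (p := 3) (k := k) 0 (fun j => satInter b (t j)) s ≤ 1 := by
  have key : ∀ ε : Bool, (1 - b) ^ k ≤ Real.exp (0 * spinVal ε + ∑ j : Fin k,
      satInter b (t j) (ext (p := 3) (fun l => s (j, l)) ε)) ∧ Real.exp (0 * spinVal ε +
        ∑ j : Fin k, satInter b (t j) (ext (p := 3) (fun l => s (j, l)) ε)) ≤ 1 := by
    intro ε
    rw [zero_mul, zero_add, Real.exp_sum]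
    constructor
    · calc (1 - b) ^ k = ∏ _j : Fin k, (1 - b) := by simp
        _ ≤ _ := Finset.prod_le_prod (fun _ _ => by linarith)
          fun j _ => (certW_bounds h0 h1 _ _).1
    · exact Finset.prod_le_one (fun _ _ => (Real.exp_pos _).le)
        fun j _ => (certW_bounds h0 h1 _ _).2
  rw [siteV, Fintype.sum_bool]
  constructor
  · linarith [(key true).1, (key false).1]
  · linarith [(key true).2, (key false).2]

theorem cert_site_apx : ∃ up : ((ℚ × ℕ) × LabData) × ℕ → ℚ, Primrec up ∧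
    ∀ (b : ℚ) (k : ℕ) (D : LabData), 0 < b → b < 1 → Exps D.m →
      (∀ P, siteA b D.m D.r D.lab k ≤ up (((b, k), D), P)) ∧
      Filter.Tendsto (fun P => (up (((b, k), D), P) : ℝ)) Filter.atTop
        (nhds (siteA b D.m D.r D.lab k)) := by
  obtain ⟨up, dn, hup, -, h⟩ := exists_labApx (π := ℚ × ℕ × ℕ) (ell := fun x => x.2.1 * 2)
    (Primrec.nat_mul.comp (Primrec.fst.comp Primrec.snd) (Primrec.const 2)) certSite_primrec
    (lo := fun x => (1 - x.1) ^ x.2.1)
    (rat_pow.comp (rat_sub.comp (Primrec.const 1) Primrec.fst) (Primrec.fst.comp Primrec.snd))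
  refine ⟨fun y => (∑ g ∈ range (8 ^ y.1.1.2), up (((y.1.1.1, y.1.1.2, g), y.1.2), y.2)) /
    8 ^ y.1.1.2, ?_, fun b k D h0 h1 hm => ?_⟩
  · have hk : Primrec fun y : ((ℚ × ℕ) × LabData) × ℕ => y.1.1.2 :=
      Primrec.snd.comp (Primrec.fst.comp Primrec.fst)
    have hf : Primrec fun p : (((ℚ × ℕ) × LabData) × ℕ) × ℕ =>
        up (((p.1.1.1.1, p.1.1.1.2, p.2), p.1.1.2), p.1.2) :=
      hup.comp ((((Primrec.fst.comp (Primrec.fst.comp (Primrec.fst.comp Primrec.fst))).pair
        ((hk.comp Primrec.fst).pair Primrec.snd)).pair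
        (Primrec.snd.comp (Primrec.fst.comp Primrec.fst))).pair (Primrec.snd.comp Primrec.fst))
    exact rat_div.comp (cert_primrec_sum (α := ((ℚ × ℕ) × LabData) × ℕ)
      (n := fun y => 8 ^ y.1.1.2)
      (f := fun y g => up (((y.1.1.1, y.1.1.2, g), y.1.2), y.2))
      (nat_pow.comp (Primrec.const 8) hk) hf.to₂) (rat_pow.comp (Primrec.const 8) hk)
  · have h0' : (0 : ℝ) < b := by exact_mod_cast h0
    have h1' : (b : ℝ) < 1 := by exact_mod_cast h1
    have hg := fun g : ℕ => h (b, k, g) D hm (pow_pos (by linarith) _) (Fin k × Fin (3 - 1))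
      (certE k)
      (siteV (p := 3) (k := k) 0 (fun j => satInter b (certSigns k g j)))
      (fun s => certSite_eq h1 k g s) (fun s => by
        push_cast
        exact certSite_bounds h0' h1' k _ s)
    rw [siteA, cert_avg_signs]
    constructor
    · intro P
      push_cast
      exact div_le_div_of_nonneg_right (Finset.sum_le_sum fun g _ => ((hg g).1 P).2)
        (by positivity)
    · push_cast
      exact (tendsto_finsetSum _ fun g _ => (hg g).2.1).div_const _

theorem cert_edge_apx : ∃ dn : (ℚ × LabData) × ℕ → ℚ, Primrec dn ∧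
    ∀ (b : ℚ) (D : LabData), 0 < b → b < 1 → Exps D.m →
      (∀ P, (dn ((b, D), P) : ℝ) ≤ edgeB b D.m D.r D.lab) ∧
      Filter.Tendsto (fun P => (dn ((b, D), P) : ℝ)) Filter.atTop
        (nhds (edgeB b D.m D.r D.lab)) := by
  obtain ⟨up, dn, -, hdn, h⟩ := exists_labApx (π := ℚ × ℕ) (ell := fun _ => 3)
    (Primrec.const 3) certEdge_primrec (lo := fun x => 1 - x.1)
    (rat_sub.comp (Primrec.const 1) Primrec.fst)
  refine ⟨fun y => (∑ g ∈ range 8, dn (((y.1.1, g), y.1.2), y.2)) / 8, ?_,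
    fun b D h0 h1 hm => ?_⟩
  · have hf : Primrec fun p : ((ℚ × LabData) × ℕ) × ℕ =>
        dn (((p.1.1.1, p.2), p.1.1.2), p.1.2) :=
      hdn.comp ((((Primrec.fst.comp (Primrec.fst.comp Primrec.fst)).pair Primrec.snd).pair
        (Primrec.snd.comp (Primrec.fst.comp Primrec.fst))).pair (Primrec.snd.comp Primrec.fst))
    exact rat_div.comp (cert_primrec_sum (α := (ℚ × LabData) × ℕ) (n := fun _ => 8)
      (f := fun y g => dn (((y.1.1, g), y.1.2), y.2)) (Primrec.const 8) hf.to₂) (Primrec.const 8)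
  · have h0' : (0 : ℝ) < b := by exact_mod_cast h0
    have h1' : (b : ℝ) < 1 := by exact_mod_cast h1
    have hg := fun g : ℕ => h (b, g) D hm (by simp only; linarith) (Fin 3) (Equiv.refl _)
      (fun σ : Fin 3 → Bool => Real.exp (satInter b (fun l => g.testBit l) σ))
      (fun s => by
        rw [certW_eq h1]
        rfl) (fun s => by
        push_cast
        exact certW_bounds h0' h1' _ s)
    rw [edgeB, cert_avg_signs_one]
    constructor
    · intro P
      push_cast
      exact div_le_div_of_nonneg_right (Finset.sum_le_sum fun g _ => ((hg g).1 P).1)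
        (by positivity)
    · push_cast
      exact (tendsto_finsetSum _ fun g _ => (hg g).2.2).div_const _

/-- A rational lower approximation of `exp (-t)`. -/
def certExp (t : ℚ) (P : ℕ) : ℚ := if t ≤ P then (1 - t / P) ^ P else 0

theorem certExp_primrec : Primrec₂ certExp :=
  (Primrec.ite (rat_le.comp Primrec.fst (rat_natCast.comp Primrec.snd))
    (rat_pow.comp (rat_sub.comp (Primrec.const 1)
      (rat_div.comp Primrec.fst (rat_natCast.comp Primrec.snd))) Primrec.snd)
    (Primrec.const 0)).to₂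

theorem certExp_le (t : ℚ) (P : ℕ) : (certExp t P : ℝ) ≤ Real.exp (-t) := by
  unfold certExp
  split_ifs with h
  · push_cast
    exact Real.one_sub_div_pow_le_exp_neg (by exact_mod_cast h)
  · simpa using (Real.exp_pos _).le

theorem certExp_tendsto (t : ℚ) :
    Filter.Tendsto (fun P => (certExp t P : ℝ)) Filter.atTop (nhds (Real.exp (-t))) := by
  refine (Real.tendsto_one_add_div_pow_exp (-t)).congr' ?_
  filter_upwards [Filter.eventually_ge_atTop ⌈t⌉₊] with P hP
  have : t ≤ P := (Nat.le_ceil t).trans (by exact_mod_cast hP)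
  rw [certExp, if_pos this]
  push_cast
  rw [neg_div, ← sub_eq_add_neg]

theorem exists_PsatK_up : ∃ U : (ℚ × ℚ × LabData × ℕ) × ℕ → ℚ, Primrec U ∧
    ∀ (q b : ℚ) (D : LabData) (K : ℕ), 0 ≤ q → 0 < b → b < 1 → Exps D.m →
      (∀ P, PsatK q b D.m D.r D.lab K ≤ U ((q, b, D, K), P)) ∧
      Filter.Tendsto (fun P => (U ((q, b, D, K), P) : ℝ)) Filter.atTop
        (nhds (PsatK q b D.m D.r D.lab K)) := by
  obtain ⟨up, hup, hs⟩ := cert_site_apx
  obtain ⟨dn, hdn, he⟩ := cert_edge_apx
  refine ⟨fun y => 1 + ∑ k ∈ range y.1.2.2.2, certExp (y.1.1 * 3) y.2 * (y.1.1 * 3) ^ k /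
      (k.factorial : ℚ) * min 0 (up (((y.1.2.1, k), y.1.2.2.1), y.2)) -
      2 * y.1.1 * dn ((y.1.2.1, y.1.2.2.1), y.2), ?_, fun q b D K hq h0 h1 hm => ?_⟩
  · have hq : Primrec fun y : (ℚ × ℚ × LabData × ℕ) × ℕ => y.1.1 := Primrec.fst.comp Primrec.fst
    have hb : Primrec fun y : (ℚ × ℚ × LabData × ℕ) × ℕ => y.1.2.1 :=
      Primrec.fst.comp (Primrec.snd.comp Primrec.fst)
    have hD : Primrec fun y : (ℚ × ℚ × LabData × ℕ) × ℕ => y.1.2.2.1 :=
      Primrec.fst.comp (Primrec.snd.comp (Primrec.snd.comp Primrec.fst))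
    have hK : Primrec fun y : (ℚ × ℚ × LabData × ℕ) × ℕ => y.1.2.2.2 :=
      Primrec.snd.comp (Primrec.snd.comp (Primrec.snd.comp Primrec.fst))
    have hq3 : Primrec fun y : (ℚ × ℚ × LabData × ℕ) × ℕ => y.1.1 * 3 :=
      rat_mul.comp hq (Primrec.const 3)
    have hE : Primrec fun y : (ℚ × ℚ × LabData × ℕ) × ℕ => certExp (y.1.1 * 3) y.2 :=
      certExp_primrec.comp hq3 Primrec.snd
    have hu : Primrec fun p : ((ℚ × ℚ × LabData × ℕ) × ℕ) × ℕ =>
        up (((p.1.1.2.1, p.2), p.1.1.2.2.1), p.1.2) :=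
      hup.comp ((((hb.comp Primrec.fst).pair Primrec.snd).pair (hD.comp Primrec.fst)).pair
        (Primrec.snd.comp Primrec.fst))
    have hw : Primrec fun p : ((ℚ × ℚ × LabData × ℕ) × ℕ) × ℕ =>
        certExp (p.1.1.1 * 3) p.1.2 * (p.1.1.1 * 3) ^ p.2 / (p.2.factorial : ℚ) :=
      rat_div.comp (rat_mul.comp (hE.comp Primrec.fst)
        (rat_pow.comp (hq3.comp Primrec.fst) Primrec.snd))
        (rat_natCast.comp (nat_factorial.comp Primrec.snd))
    have hf : Primrec fun p : ((ℚ × ℚ × LabData × ℕ) × ℕ) × ℕ =>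
        certExp (p.1.1.1 * 3) p.1.2 * (p.1.1.1 * 3) ^ p.2 / (p.2.factorial : ℚ) *
          min 0 (up (((p.1.1.2.1, p.2), p.1.1.2.2.1), p.1.2)) :=
      rat_mul.comp hw (rat_min.comp (Primrec.const 0) hu)
    have hsum := cert_primrec_sum (α := (ℚ × ℚ × LabData × ℕ) × ℕ) (n := fun y => y.1.2.2.2)
      (f := fun y k => certExp (y.1.1 * 3) y.2 * (y.1.1 * 3) ^ k / (k.factorial : ℚ) *
        min 0 (up (((y.1.2.1, k), y.1.2.2.1), y.2))) hK hf.to₂
    have hd : Primrec fun y : (ℚ × ℚ × LabData × ℕ) × ℕ => dn ((y.1.2.1, y.1.2.2.1), y.2) :=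
      hdn.comp ((hb.pair hD).pair Primrec.snd)
    exact rat_sub.comp (rat_add.comp (Primrec.const 1) hsum)
      (rat_mul.comp (rat_mul.comp (Primrec.const 2) hq) hd)
  · have hq' : (0 : ℝ) ≤ q := by exact_mod_cast hq
    have h0' : (0 : ℝ) < b := by exact_mod_cast h0
    have h1' : (b : ℝ) < 1 := by exact_mod_cast h1
    have hA : ∀ k, siteA b D.m D.r D.lab k ≤ 0 := siteA_nonpos h0'.le h1' hm D.prob
    unfold PsatK
    constructor
    · intro P
      push_cast
      have a1 := mul_le_mul_of_nonneg_left ((he b D h0 h1 hm).1 P) (by positivity : (0 : ℝ) ≤ 2 * q)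
      have a2 : ∑ k ∈ range K, poissonWeight (q * 3) k * siteA b D.m D.r D.lab k ≤
          ∑ k ∈ range K, (certExp (q * 3) P : ℝ) * ((q : ℝ) * 3) ^ k / (k.factorial : ℝ) *
            min 0 (up (((b, k), D), P) : ℝ) := by
        refine Finset.sum_le_sum fun k _ => ?_
        have b1 : siteA b D.m D.r D.lab k ≤ min 0 (up (((b, k), D), P) : ℝ) :=
          le_min (hA k) ((hs b k D h0 h1 hm).1 P)
        have b2 : (certExp (q * 3) P : ℝ) * ((q : ℝ) * 3) ^ k / (k.factorial : ℝ) ≤
            poissonWeight (q * 3) k := by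
          unfold poissonWeight
          have := certExp_le (q * 3) P
          push_cast at this
          gcongr
        have b3 : 0 ≤ poissonWeight ((q : ℝ) * 3) k := by
          unfold poissonWeight
          positivity
        exact (mul_le_mul_of_nonneg_left b1 b3).trans
          (mul_le_mul_of_nonpos_right b2 (min_le_left _ _))
      linarith
    · push_cast
      refine Filter.Tendsto.sub (Filter.Tendsto.const_add _ (tendsto_finsetSum _ fun k _ => ?_))
        (((he b D h0 h1 hm).2).const_mul _)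
      have c1 := certExp_tendsto (q * 3)
      push_cast at c1
      have c2 := (tendsto_const_nhds (x := (0 : ℝ))).min (hs b k D h0 h1 hm).2
      rw [min_eq_right (hA k)] at c2
      exact ((c1.mul_const _).div_const _).mul c2

theorem exists_cert : ∃ chk : ℚ × ((ℚ × LabData × ℕ) × ℕ) → Bool, Primrec chk ∧
    (∀ (q b : ℚ) (D : LabData) (K P : ℕ), chk (q, (b, D, K), P) = true →
      0 ≤ q ∧ 0 < b ∧ b < 1 ∧ Exps D.m ∧ PsatK q b D.m D.r D.lab K < 0) ∧
    ∀ (q b : ℚ) (D : LabData) (K : ℕ), 0 ≤ q → 0 < b → b < 1 → Exps D.m →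
      PsatK q b D.m D.r D.lab K < 0 → ∃ P, chk (q, (b, D, K), P) = true := by
  obtain ⟨U, hU, h⟩ := exists_PsatK_up
  obtain ⟨ex, hex, hex'⟩ := primrec_exps
  have hq : Primrec fun y : ℚ × ((ℚ × LabData × ℕ) × ℕ) => y.1 := Primrec.fst
  have hb : Primrec fun y : ℚ × ((ℚ × LabData × ℕ) × ℕ) => y.2.1.1 :=
    Primrec.fst.comp (Primrec.fst.comp Primrec.snd)
  have hD : Primrec fun y : ℚ × ((ℚ × LabData × ℕ) × ℕ) => y.2.1.2.1 :=
    Primrec.fst.comp (Primrec.snd.comp (Primrec.fst.comp Primrec.snd))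
  have hUy : Primrec fun y : ℚ × ((ℚ × LabData × ℕ) × ℕ) => U ((y.1, y.2.1), y.2.2) :=
    hU.comp ((hq.pair (Primrec.fst.comp Primrec.snd)).pair (Primrec.snd.comp Primrec.snd))
  have hP : PrimrecPred fun y : ℚ × ((ℚ × LabData × ℕ) × ℕ) =>
      0 ≤ y.1 ∧ 0 < y.2.1.1 ∧ y.2.1.1 < 1 ∧ ex y.2.1.2.1 = true ∧ U ((y.1, y.2.1), y.2.2) < 0 :=
    PrimrecPred.and (rat_le.comp (Primrec.const 0) hq)
      (PrimrecPred.and (rat_lt.comp (Primrec.const 0) hb)
        (PrimrecPred.and (rat_lt.comp hb (Primrec.const 1))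
          (PrimrecPred.and (Primrec.eq.comp (hex.comp hD) (Primrec.const true))
            (rat_lt.comp hUy (Primrec.const 0)))))
  refine ⟨fun y => decide (0 ≤ y.1 ∧ 0 < y.2.1.1 ∧ y.2.1.1 < 1 ∧ ex y.2.1.2.1 = true ∧
    U ((y.1, y.2.1), y.2.2) < 0), hP.decide, fun q b D K P hc => ?_,
    fun q b D K h1 h2 h3 h4 h5 => ?_⟩
  · obtain ⟨h1, h2, h3, h4, h5⟩ := of_decide_eq_true hc
    have hm := (hex' D).1 h4
    refine ⟨h1, h2, h3, hm, ((h q b D K h1 h2 h3 hm).1 P).trans_lt ?_⟩
    exact_mod_cast h5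
  · obtain ⟨P, hP'⟩ := (((h q b D K h1 h2 h3 h4).2).eventually_lt_const h5).exists
    refine ⟨P, decide_eq_true ⟨h1, h2, h3, (hex' D).2 h4, ?_⟩⟩
    exact_mod_cast hP'

end Crest.Agent.R153
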