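import Crest.Agent.Lib.Computability.RatPrimrec

/-! Row 153, module S: a real number with semidecidable cuts is computable. -/

set_option autoImplicit false

namespace Crest.Agent.R153

open Crest.Agent.Lib.Computability

theorem computable_of_cert {α : ℝ} (hα : 0 ≤ α) {γ₁ γ₂ : Type} [Primcodable γ₁] [Primcodable γ₂]
    {L : ℚ × γ₁ → Bool} {U : ℚ × γ₂ → Bool} (hL : Primrec L) (hU : Primrec U)
    (hL1 : ∀ q c, L (q, c) = true → (q : ℝ) ≤ α) (hL2 : ∀ q : ℚ, (q : ℝ) < α → ∃ c, L (q, c) = true)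
    (hU1 : ∀ q c, U (q, c) = true → α ≤ q) (hU2 : ∀ q : ℚ, α < q → ∃ c, U (q, c) = true) :
    ∃ f : ℕ → ℕ, Computable f ∧ ∀ r : ℕ, |(f r : ℝ) / 2 ^ r - α| ≤ 1 / 2 ^ r := by
  let ok : ℕ × (ℕ × γ₁ × γ₂) → Bool := fun p =>
    L (((p.2.1 : ℚ) - 1) / 2 ^ p.1, p.2.2.1) && U (((p.2.1 : ℚ) + 1) / 2 ^ p.1, p.2.2.2)
  have hj : Primrec fun p : ℕ × (ℕ × γ₁ × γ₂) => (p.2.1 : ℚ) :=
    rat_natCast.comp (Primrec.fst.comp Primrec.snd)
  have hpow : Primrec fun p : ℕ × (ℕ × γ₁ × γ₂) => (2 : ℚ) ^ p.1 :=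
    rat_pow.comp (Primrec.const 2) Primrec.fst
  have hok : Primrec ok :=
    Primrec.and.comp
      (hL.comp ((rat_div.comp (rat_sub.comp hj (Primrec.const 1)) hpow).pair
        (Primrec.fst.comp (Primrec.snd.comp Primrec.snd))))
      (hU.comp ((rat_div.comp (rat_add.comp hj (Primrec.const 1)) hpow).pair
        (Primrec.snd.comp (Primrec.snd.comp Primrec.snd))))
  let g : ℕ → ℕ → Option ℕ := fun r e =>
    (Encodable.decode (α := ℕ × γ₁ × γ₂) e).bind fun t => bif ok (r, t) then some t.1 else none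
  have hg : Primrec₂ g := by
    refine Primrec.option_bind (Primrec.decode.comp Primrec.snd) ?_
    exact (Primrec.cond (hok.comp ((Primrec.fst.comp Primrec.fst).pair Primrec.snd))
      (Primrec.option_some.comp (Primrec.fst.comp Primrec.snd)) (Primrec.const none)).to₂
  have hpart : Partrec fun r => Nat.rfindOpt (g r) := Partrec.rfindOpt hg.to_comp
  have hdom : ∀ r, (Nat.rfindOpt (g r)).Dom := by
    intro r
    have h2 : (0 : ℝ) < 2 ^ r := by positivity
    set j := ⌊α * 2 ^ r⌋₊ with hjdef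
    have a1 : (j : ℝ) ≤ α * 2 ^ r := Nat.floor_le (by positivity)
    have a2 : α * 2 ^ r < j + 1 := Nat.lt_floor_add_one _
    obtain ⟨c₁, hc₁⟩ := hL2 (((j : ℚ) - 1) / 2 ^ r) (by
      push_cast
      rw [div_lt_iff₀ h2]
      linarith)
    obtain ⟨c₂, hc₂⟩ := hU2 (((j : ℚ) + 1) / 2 ^ r) (by
      push_cast
      rw [lt_div_iff₀ h2]
      linarith)
    refine Nat.rfindOpt_dom.2 ⟨Encodable.encode ((j, c₁, c₂) : ℕ × γ₁ × γ₂), j, ?_⟩
    simp [g, ok, hc₁, hc₂]
  refine ⟨fun r => (Nat.rfindOpt (g r)).get (hdom r), hpart.of_eq_tot fun r => Part.get_mem _,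
    fun r => ?_⟩
  obtain ⟨e, he⟩ := Nat.rfindOpt_spec (Part.get_mem (hdom r))
  beta_reduce
  generalize (Nat.rfindOpt (g r)).get (hdom r) = j at he ⊢
  obtain ⟨t, -, ht⟩ := Option.mem_bind_iff.1 he
  have hok' : ok (r, t) = true := by
    by_contra h
    rw [Bool.not_eq_true] at h
    simp [h] at ht
  have hjt : t.1 = j := by simpa [hok'] using ht
  obtain ⟨b1, b2⟩ := Bool.and_eq_true_iff.1 hok'
  have c1 := hL1 _ _ b1
  have c2 := hU1 _ _ b2
  simp only [hjt] at c1 c2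
  push_cast at c1 c2
  rw [sub_div] at c1
  rw [add_div] at c2
  rw [abs_le]
  constructor <;> linarith

end Crest.Agent.R153
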