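import Crest.Agent.R153.BasicEL

/-! Row 153, module H: Efron-Stein, tensorisation of entropy, Herbst's argument. -/

set_option autoImplicit false

namespace Crest.Agent.R153

open Finset Crest.Agent.R141

theorem tens_removeNth_succ {α : Type} {L : ℕ} (i : Fin (L + 1)) (a : α) (F : Fin (L + 1) → α) :
    Fin.removeNth (α := fun _ => α) i.succ (Fin.cons a F : Fin (L + 1 + 1) → α) =
      (Fin.cons a (Fin.removeNth (α := fun _ => α) i F) : Fin (L + 1) → α) := by
  funext j
  cases j using Fin.cases with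
  | zero => simp [Fin.removeNth]
  | succ j => simp [Fin.removeNth]

theorem tens_avg_cons {α : Type} [Fintype α] {L : ℕ} (h : (Fin (L + 1) → α) → ℝ) :
    avg h = avg (fun F : Fin L → α => avg (fun a : α => h (Fin.cons a F))) := by
  rw [← el_avg_prod_equiv (Fin.consEquiv fun _ : Fin (L + 1) => α), avg_comm]
  rfl

/-- Tensorisation of a `Φ`-entropy. -/
theorem tens_gen {α : Type} [Fintype α] (P : ℝ → Prop) (Φ : ℝ → ℝ) (ψ : ℝ → ℝ → ℝ)
    (hP : ∀ g : α → ℝ, (∀ a, P (g a)) → P (avg g))
    (h1 : ∀ (g : α → ℝ) (c : ℝ), (∀ a, P (g a)) → P c →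
      avg (fun a => Φ (g a)) - Φ (avg g) ≤ avg (fun a => ψ (g a) c))
    (h2 : ∀ g c : α → ℝ, (∀ a, P (g a)) → (∀ a, P (c a)) →
      ψ (avg g) (avg c) ≤ avg (fun a => ψ (g a) (c a)))
    (L : ℕ) (g : (Fin (L + 1) → α) → ℝ) (hg : ∀ F, P (g F))
    (c : Fin (L + 1) → (Fin L → α) → ℝ) (hc : ∀ i F, P (c i F)) :
    avg (fun F => Φ (g F)) - Φ (avg g) ≤ ∑ i, avg (fun F => ψ (g F) (c i (Fin.removeNth i F))) := by
  have key : ∀ (L : ℕ) (g : (Fin (L + 1) → α) → ℝ), (∀ F, P (g F)) →
      ∀ c : (Fin L → α) → ℝ, (∀ F, P (c F)) →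
      avg (fun F => Φ (g F)) - avg (fun F : Fin L → α => Φ (avg fun a => g (Fin.cons a F))) ≤
        avg (fun F => ψ (g F) (c (Fin.removeNth 0 F))) := by
    intro L g hg c hc
    rw [tens_avg_cons (fun F => Φ (g F)), tens_avg_cons (fun F => ψ (g F) (c (Fin.removeNth 0 F))),
      ← avg_sub]
    refine avg_mono fun F => ?_
    have := h1 (fun a => g (Fin.cons a F)) (c F) (fun a => hg _) (hc F)
    simpa [Fin.removeNth_zero] using this
  induction L with
  | zero =>
    have h3 := key 0 g hg (c 0) (hc 0)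
    rw [Fin.sum_univ_one]
    have h4 : ∀ h : (Fin 0 → α) → ℝ, avg h = h Fin.elim0 := by
      intro h
      simp only [avg, Fintype.card_unique, Nat.cast_one, inv_one, one_mul, Fintype.sum_unique]
      exact congrArg h (Subsingleton.elim _ _)
    rw [h4] at h3
    rw [tens_avg_cons g, h4]
    exact h3
  | succ L ih =>
    have h3 := key (L + 1) g hg (c 0) (hc 0)
    have h4 := ih (fun F => avg fun a => g (Fin.cons a F)) (fun F => hP _ fun a => hg _)
      (fun i F => avg fun a => c i.succ (Fin.cons a F)) (fun i F => hP _ fun a => hc _ _)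
    rw [← tens_avg_cons g] at h4
    rw [Fin.sum_univ_succ]
    have h5 : ∀ i : Fin (L + 1), avg (fun F : Fin (L + 1) → α =>
        ψ (avg fun a => g (Fin.cons a F)) (avg fun a => c i.succ (Fin.cons a (Fin.removeNth i F))))
        ≤ avg (fun F => ψ (g F) (c i.succ (Fin.removeNth i.succ F))) := by
      intro i
      rw [tens_avg_cons (fun F => ψ (g F) (c i.succ (Fin.removeNth i.succ F)))]
      refine avg_mono fun F => ?_
      simp only [tens_removeNth_succ]
      exact h2 _ _ (fun a => hg _) (fun a => hc _ _)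
    have h6 := Finset.sum_le_sum fun i (_ : i ∈ Finset.univ) => h5 i
    linarith

theorem tens_avg_pos {Ω : Type} [Fintype Ω] [Nonempty Ω] (g : Ω → ℝ) (hg : ∀ a, 0 < g a) :
    0 < avg g := by
  have : (0 : ℝ) < Fintype.card Ω := Nat.cast_pos.2 Fintype.card_pos
  exact mul_pos (inv_pos.2 this) (Finset.sum_pos (fun a _ => hg a) Finset.univ_nonempty)

/-- `x t - c (e^t - 1) ≤ x log (x / c) - x + c`. -/
theorem tens_dual {x c : ℝ} (hx : 0 < x) (hc : 0 < c) {r : ℝ} (hr : 0 < r) :
    x * Real.log r - c * (r - 1) ≤ x * Real.log (x / c) - x + c := by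
  have h1 : Real.log (r * c / x) ≤ r * c / x - 1 := Real.log_le_sub_one_of_pos (by positivity)
  rw [Real.log_div (by positivity) hx.ne', Real.log_mul hr.ne' hc.ne'] at h1
  rw [Real.log_div hx.ne' hc.ne']
  have h2 := mul_le_mul_of_nonneg_left h1 hx.le
  have h3 : x * (r * c / x - 1) = r * c - x := by field_simp
  rw [h3] at h2
  nlinarith

theorem efron_stein {α : Type} [Fintype α] [Nonempty α] (L : ℕ) (f : (Fin (L + 1) → α) → ℝ)
    (Z : Fin (L + 1) → (Fin L → α) → ℝ) :
    avg (fun F => f F ^ 2) - avg f ^ 2 ≤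
      ∑ i, avg (fun F => (f F - Z i (Fin.removeNth i F)) ^ 2) := by
  refine tens_gen (fun _ => True) (fun x => x ^ 2) (fun x c => (x - c) ^ 2) (fun _ _ => trivial)
    ?_ ?_ L f (fun _ => trivial) Z (fun _ _ => trivial)
  · intro g c _ _
    have h : avg (fun a => (g a - c) ^ 2) = avg (fun a => g a ^ 2) - 2 * c * avg g + c ^ 2 := by
      rw [← avg_const_mul, ← avg_sub, ← avg_const (I := α) (c ^ 2), ← avg_add]
      congr 1
      funext a
      ring
    rw [h]
    nlinarith [sq_nonneg (avg g - c)]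
  · intro g c _ _
    rw [← avg_sub]
    exact sq_avg_le _

theorem ent_tensor {α : Type} [Fintype α] [Nonempty α] (L : ℕ) (g : (Fin (L + 1) → α) → ℝ)
    (hg : ∀ F, 0 < g F) (c : Fin (L + 1) → (Fin L → α) → ℝ) (hc : ∀ i F, 0 < c i F) :
    Ent g ≤ ∑ i, avg (fun F => g F * Real.log (g F / c i (Fin.removeNth i F)) - g F +
      c i (Fin.removeNth i F)) := by
  refine tens_gen (fun x => 0 < x) (fun x => x * Real.log x)
    (fun x c => x * Real.log (x / c) - x + c) (fun g hg => tens_avg_pos g hg) ?_ ?_ L g hg c hc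
  · intro g c hg hc
    have hm := tens_avg_pos g hg
    have h : avg (fun a => g a * Real.log (g a / c) - g a + c) =
        avg (fun a => g a * Real.log (g a)) - (Real.log c + 1) * avg g + c := by
      rw [← avg_const_mul, ← avg_sub]
      conv_rhs => rw [← avg_const (I := α) c]
      rw [← avg_add]
      congr 1
      funext a
      rw [Real.log_div (hg a).ne' hc.ne', avg_const]
      ring
    rw [h]
    have h1 := tens_dual hm hc one_pos
    rw [Real.log_div hm.ne' hc.ne', Real.log_one] at h1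
    nlinarith
  · intro g c hg hc
    have hm := tens_avg_pos g hg
    have hm' := tens_avg_pos c hc
    have h := avg_mono (I := α)
      (f := fun a => Real.log (avg g / avg c) * g a - (avg g / avg c - 1) * c a)
      (g := fun a => g a * Real.log (g a / c a) - g a + c a) fun a => by
        have := tens_dual (hg a) (hc a) (div_pos hm hm')
        linarith
    rw [avg_sub, avg_const_mul, avg_const_mul] at h
    have h3 : (avg g / avg c - 1) * avg c = avg g - avg c := by field_simp
    rw [h3] at h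
    linarith

theorem ent_sq_le {α : Type} [Fintype α] [Nonempty α] (L : ℕ) (f : (Fin (L + 1) → α) → ℝ)
    (hf : ∀ F, 0 < f F) (Z : Fin (L + 1) → (Fin L → α) → ℝ)
    (hZ : ∀ i F, f F ≤ Z i (Fin.removeNth i F)) :
    Ent (fun F => f F ^ 2) ≤ 4 * ∑ i, avg (fun F => (Z i (Fin.removeNth i F) - f F) ^ 2) := by
  have hZ0 : ∀ i F, 0 < Z i F := by
    intro i F
    have := hZ i (Fin.insertNth i (Classical.arbitrary α) F)
    rw [Fin.removeNth_insertNth] at this
    exact (hf _).trans_le this
  refine (ent_tensor L (fun F => f F ^ 2) (fun F => pow_pos (hf F) 2) (fun i F => Z i F ^ 2)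
    (fun i F => pow_pos (hZ0 i F) 2)).trans ?_
  rw [Finset.mul_sum]
  refine Finset.sum_le_sum fun i _ => ?_
  rw [← avg_const_mul]
  refine avg_mono fun F => ?_
  have hx := hf F
  have hxz := hZ i F
  have hz := hZ0 i (Fin.removeNth i F)
  generalize Z i (Fin.removeNth i F) = z at hxz hz ⊢
  generalize f F = x at hx hxz ⊢
  have h1 : Real.log (x ^ 2 / z ^ 2) ≤ 2 * (x / z - 1) := by
    rw [← div_pow, Real.log_pow]
    have := Real.log_le_sub_one_of_pos (div_pos hx hz)
    push_cast
    linarith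
  have h2 := mul_le_mul_of_nonneg_left h1 (sq_nonneg x)
  have h3 : x ^ 2 * (2 * (x / z - 1)) - x ^ 2 + z ^ 2 ≤ 4 * (z - x) ^ 2 := by
    have h4 : x ^ 2 * (2 * (x / z - 1)) - x ^ 2 + z ^ 2 = (z - x) ^ 2 * (1 + 2 * (x / z)) := by
      field_simp
      ring
    have h5 : x / z ≤ 1 := (div_le_one hz).2 hxz
    rw [h4]
    nlinarith [sq_nonneg (z - x)]
  linarith

theorem herbst {Ω : Type} [Fintype Ω] [Nonempty Ω] (H : Ω → ℝ) {K l₀ : ℝ}
    (h : ∀ l, 0 < l → l ≤ l₀ →
      Ent (fun ω => Real.exp (l * H ω)) ≤ K * l ^ 2 * avg (fun ω => Real.exp (l * H ω)))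
    {l : ℝ} (hl : 0 < l) (hl₀ : l ≤ l₀) :
    Real.log (avg (fun ω => Real.exp (l * H ω))) ≤ l * avg H + K * l ^ 2 := by
  set M : ℝ → ℝ := fun s => avg (fun ω => Real.exp (s * H ω)) with hM
  set M' : ℝ → ℝ := fun s => avg (fun ω => Real.exp (s * H ω) * H ω) with hM'
  have hpos : ∀ s, 0 < M s := fun s => tens_avg_pos _ fun ω => Real.exp_pos _
  have hd : ∀ s, HasDerivAt M (M' s) s := by
    intro s
    refine HasDerivAt.const_mul _ (HasDerivAt.fun_sum fun ω _ => ?_)
    simpa using ((hasDerivAt_id s).mul_const (H ω)).exp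
  have hlog : ∀ s, HasDerivAt (fun s => Real.log (M s)) (M' s / M s) s :=
    fun s => (hd s).log (hpos s).ne'
  have hφ : ∀ s, 0 < s → HasDerivAt (fun s => Real.log (M s) / s - K * s)
      ((M' s / M s * s - Real.log (M s) * 1) / s ^ 2 - K * 1) s :=
    fun s hs => ((hlog s).div (hasDerivAt_id s) hs.ne').sub ((hasDerivAt_id s).const_mul K)
  have hanti : AntitoneOn (fun s => Real.log (M s) / s - K * s) (Set.Ioc 0 l₀) := by
    refine antitoneOn_of_deriv_nonpos (convex_Ioc 0 l₀)
      (fun s hs => (hφ s hs.1).continuousAt.continuousWithinAt)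
      (fun s hs => (hφ s (interior_subset hs).1).differentiableAt.differentiableWithinAt) ?_
    intro s hs
    obtain ⟨hs0, hs1⟩ := interior_subset hs
    rw [(hφ s hs0).deriv]
    have h1 := h s hs0 hs1
    have h2 : Ent (fun ω => Real.exp (s * H ω)) = s * M' s - M s * Real.log (M s) := by
      unfold Ent
      congr 1
      rw [← avg_const_mul]
      congr 1
      funext ω
      rw [Real.log_exp]
      ring
    rw [h2] at h1
    have h3 : (M' s / M s * s - Real.log (M s) * 1) / s ^ 2 =
        (s * M' s - M s * Real.log (M s)) / (s ^ 2 * M s) := by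
      have := (hpos s).ne'
      field_simp
    rw [h3, mul_one, sub_nonpos, div_le_iff₀ (mul_pos (pow_pos hs0 2) (hpos s))]
    change s * M' s - M s * Real.log (M s) ≤ K * s ^ 2 * M s at h1
    linarith
  have hM0 : M 0 = 1 := by simp [hM, avg_const]
  have hM'0 : M' 0 = avg H := by simp [hM']
  have hlim : Filter.Tendsto (fun s => Real.log (M s) / s - K * s) (nhdsWithin 0 (Set.Ioi 0))
      (nhds (avg H - K * 0)) := by
    refine Filter.Tendsto.sub ?_
      (((continuous_const.mul continuous_id).tendsto 0).mono_left nhdsWithin_le_nhds)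
    have := (hlog 0).tendsto_slope_zero_right
    rw [hM0, hM'0, div_one] at this
    refine this.congr fun s => ?_
    simp [div_eq_inv_mul]
  have hle : Real.log (M l) / l - K * l ≤ avg H - K * 0 := by
    refine ge_of_tendsto hlim ?_
    filter_upwards [Ioc_mem_nhdsGT hl] with s hs
    exact hanti ⟨hs.1, hs.2.trans hl₀⟩ ⟨hl, hl₀⟩ hs.2
  rw [mul_zero, sub_zero, sub_le_iff_le_add, div_le_iff₀ hl] at hle
  change Real.log (M l) ≤ _
  nlinarith

end Crest.Agent.R153
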