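import Crest.Agent.R153.Delay
import Crest.Agent.R153.Tensor

/-! Row 153, module I: variance and Laplace transform of the truncated hitting time. -/

set_option autoImplicit false

namespace Crest.Agent.R153

open Finset Crest.ProbabilityR.RandomSAT Crest.Agent.R141

theorem conc_step {k n L : ℕ} (hk : k ≤ n) {θ : ℝ} (hθ : 1 ≤ θ) (i : Fin (L + 1)) :
    avg (fun F : Fin (L + 1) → Clause k n =>
      (gs θ (hit (Set.univ : Set (Asg n)) (List.ofFn (Fin.removeNth i F)) + 1) -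
        gs θ (hit (Set.univ : Set (Asg n)) (List.ofFn F))) ^ 2) ≤
      2 * Nsq k θ L (Set.univ : Set (Asg n)) + 2 * Asq k θ L k (Set.univ : Set (Asg n)) := by
  have := nonempty_clause hk
  have hθ0 : 0 ≤ θ := by linarith
  have h1 := avg_removeNth i (fun (c : Clause k n) (F' : Fin L → Clause k n) =>
    2 * θ ^ (2 * hit (Set.univ : Set (Asg n)) (List.ofFn F')) +
      2 * (gs θ (hit (Set.univ : Set (Asg n)) (List.ofFn F')) -
        gs θ (hit ((Set.univ : Set (Asg n)) ∩ sol c) (List.ofFn F'))) ^ 2)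
  refine le_trans (avg_mono fun F => ?_) (le_of_eq (h1.trans ?_))
  rotate_left
  · simp only [avg_add, avg_const_mul, avg_const]; rfl
  · have h2 := gs_mono hθ0 (hit_le_removeNth (Set.univ : Set (Asg n)) F i)
    have h3 := gs_mono hθ0 (hit_removeNth_le (Set.univ : Set (Asg n)) F i)
    have h4 : ∀ a : ℕ, gs θ (a + 1) = gs θ a + θ ^ a := fun a => sum_range_succ _ _
    rw [h4] at h2 ⊢
    rw [mul_comm 2 (hit _ _), pow_mul]
    generalize gs θ (hit (Set.univ : Set (Asg n)) (List.ofFn F)) = x at *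
    generalize gs θ (hit (Set.univ ∩ sol (F i)) (List.ofFn (Fin.removeNth i F))) = y at *
    generalize gs θ (hit (Set.univ : Set (Asg n)) (List.ofFn (Fin.removeNth i F))) = z at *
    generalize θ ^ (hit (Set.univ : Set (Asg n)) (List.ofFn (Fin.removeNth i F))) = w at *
    have h5 : (z + w - x) ^ 2 ≤ (w + (z - y)) ^ 2 :=
      pow_le_pow_left₀ (by linarith) (by linarith) 2
    nlinarith [sq_nonneg (w - (z - y))]

theorem conc_first {k n C₀ m : ℕ} (hk : k ≤ n) (hm : C₀ * n ≤ m) :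
    satProb k n m ≤ (2 * (1 - 1 / 2 ^ k) ^ C₀) ^ n * (1 - 1 / 2 ^ k) ^ (m - C₀ * n) := by
  refine (satProb_le_first hk m).trans (le_of_eq ?_)
  rw [mul_pow, ← pow_mul, mul_assoc, ← pow_add, Nat.add_sub_cancel' hm]

theorem conc_q (k : ℕ) : (0 : ℝ) ≤ 1 - 1 / 2 ^ k ∧ (1 - 1 / 2 ^ k : ℝ) < 1 := by
  have h1 : (1 : ℝ) ≤ 2 ^ k := one_le_pow₀ (by norm_num)
  constructor
  · rw [sub_nonneg, div_le_one (by positivity)]; exact h1
  · have : (0 : ℝ) < 1 / 2 ^ k := by positivity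
    linarith

theorem var_hit (k C₀ : ℕ) (hk : 3 ≤ k) : ∃ C : ℝ, 0 ≤ C ∧ ∀ n, k ≤ n →
    EL (C₀ * n + 1) (fun F : List (Clause k n) => (hit (Set.univ : Set (Asg n)) F : ℝ) ^ 2) -
      EL (C₀ * n + 1) (fun F : List (Clause k n) => (hit (Set.univ : Set (Asg n)) F : ℝ)) ^ 2 ≤
      C * n := by
  obtain ⟨B, θ₀, hB, h1, -, h⟩ := delay k C₀ hk
  refine ⟨(C₀ + 1) * (2 + 2 * B), by positivity, fun n hn => ?_⟩
  have := nonempty_clause hn
  have hN : Nsq k 1 (C₀ * n) (Set.univ : Set (Asg n)) = 1 := by simp [Nsq, EL_const]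
  have h2 := h 1 le_rfl h1.le n hn
  have h3 := efron_stein (C₀ * n)
    (fun F : Fin (C₀ * n + 1) → Clause k n => (hit (Set.univ : Set (Asg n)) (List.ofFn F) : ℝ))
    (fun _ F' => (hit (Set.univ : Set (Asg n)) (List.ofFn F') : ℝ) + 1)
  refine h3.trans ((sum_le_sum (g := fun _ => 2 + 2 * B) fun i _ => ?_).trans ?_)
  · have h4 := conc_step (L := C₀ * n) hn (le_refl (1 : ℝ)) i
    simp only [gs_one_left] at h4
    rw [hN] at h2 h4
    refine le_trans (le_of_eq ?_) (h4.trans (by linarith))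
    congr 1; ext F; push_cast; ring
  · have h5 : (1 : ℝ) ≤ n := by exact_mod_cast (by omega : 1 ≤ n)
    simp only [sum_const, card_univ, Fintype.card_fin, nsmul_eq_mul]
    push_cast
    nlinarith

theorem laplace_hit (k C₀ : ℕ) (hk : 3 ≤ k) : ∃ K l₀ : ℝ, 0 ≤ K ∧ 0 < l₀ ∧ ∀ n, k ≤ n →
    ∀ l, 0 < l → l ≤ l₀ →
      Real.log (EL (C₀ * n + 1) (fun F : List (Clause k n) =>
          Real.exp (l * (hit (Set.univ : Set (Asg n)) F : ℝ)))) ≤
        l * EL (C₀ * n + 1) (fun F : List (Clause k n) => (hit (Set.univ : Set (Asg n)) F : ℝ)) +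
          K * n * l ^ 2 := by
  obtain ⟨B, θ₀, hB, h1, h1', h⟩ := delay k C₀ hk
  refine ⟨4 * ((C₀ + 1) * (2 + 2 * B)), θ₀ - 1, by positivity, by linarith, fun n hn l hl hl' => ?_⟩
  have := nonempty_clause hn
  refine herbst (fun F : Fin (C₀ * n + 1) → Clause k n =>
    (hit (Set.univ : Set (Asg n)) (List.ofFn F) : ℝ)) (fun l hl hl' => ?_) hl hl'
  set θ := Real.exp (l / 2) with hθ
  have hθ1 : 1 ≤ θ := Real.one_le_exp (by linarith)
  have hθ2 : θ - 1 ≤ l := by
    have := Real.abs_exp_sub_one_le (x := l / 2) (by rw [abs_of_pos (by linarith)]; linarith)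
    rw [abs_of_pos (by linarith : 0 < l / 2)] at this
    linarith [le_abs_self (Real.exp (l / 2) - 1)]
  have he : ∀ h : ℕ, Real.exp (l * h) = (θ ^ h) ^ 2 := fun h => by
    rw [hθ, ← pow_mul, ← Real.exp_nat_mul]; congr 1; push_cast; ring
  have h2 := h θ hθ1 (by linarith) n hn
  have h3 := ent_sq_le (C₀ * n)
    (fun F : Fin (C₀ * n + 1) → Clause k n => θ ^ hit (Set.univ : Set (Asg n)) (List.ofFn F))
    (fun F => by positivity) (fun _ F' => θ ^ (hit (Set.univ : Set (Asg n)) (List.ofFn F') + 1))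
    (fun i F => pow_le_pow_right₀ hθ1 (hit_le_removeNth _ F i))
  have h6 := Nsq_le_succ hn hθ1 (C₀ * n) (Set.univ : Set (Asg n))
  have h7 := Nsq_nonneg (k := k) (θ := θ) (C₀ * n) (Set.univ : Set (Asg n))
  have h8 : avg (fun F : Fin (C₀ * n + 1) → Clause k n =>
      (θ ^ hit (Set.univ : Set (Asg n)) (List.ofFn F)) ^ 2) =
      Nsq k θ (C₀ * n + 1) (Set.univ : Set (Asg n)) := by
    unfold Nsq EL; congr 1; ext F; rw [← pow_mul, mul_comm]
  simp only [he]
  rw [h8]
  refine h3.trans ?_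
  have h9 : ∀ i : Fin (C₀ * n + 1), avg (fun F : Fin (C₀ * n + 1) → Clause k n =>
      (θ ^ (hit (Set.univ : Set (Asg n)) (List.ofFn (Fin.removeNth i F)) + 1) -
        θ ^ hit (Set.univ : Set (Asg n)) (List.ofFn F)) ^ 2) ≤
      l ^ 2 * ((2 + 2 * B) * Nsq k θ (C₀ * n + 1) (Set.univ : Set (Asg n))) := fun i => by
    have h4 := conc_step (L := C₀ * n) hn hθ1 i
    have h5 := mul_le_mul_of_nonneg_left h4 (sq_nonneg (θ - 1))
    rw [← avg_const_mul] at h5
    refine le_trans (le_of_eq ?_) (h5.trans (mul_le_mul (pow_le_pow_left₀ (by linarith) hθ2 2)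
      (by nlinarith) (le_trans (avg_nonneg fun F => sq_nonneg _) h4) (by positivity)))
    congr 1; ext F; rw [pow_eq_gs θ (_ + 1), pow_eq_gs θ (hit _ (List.ofFn F))]; ring
  have h10 := sum_le_sum fun i (_ : i ∈ univ) => h9 i
  simp only [sum_const, card_univ, Fintype.card_fin, nsmul_eq_mul] at h10
  push_cast at h10
  have h5 : (1 : ℝ) ≤ n := by exact_mod_cast (by omega : 1 ≤ n)
  have h11 : 0 ≤ l ^ 2 * ((2 + 2 * B) * Nsq k θ (C₀ * n + 1) (Set.univ : Set (Asg n))) :=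
    mul_nonneg (by positivity) (mul_nonneg (by positivity) (h7.trans h6))
  nlinarith

/-- S0217. -/
theorem variance_main (k : ℕ) (hk : 3 ≤ k) :
    ∃ C : ℝ, ∀ n : ℕ, k ≤ n →
      Summable (fun m : ℕ => satProb k n m) ∧
      Summable (fun m : ℕ => (2 * (m : ℝ) + 1) * satProb k n m) ∧
      (∑' m : ℕ, (2 * (m : ℝ) + 1) * satProb k n m) - (∑' m : ℕ, satProb k n m) ^ 2 ≤ C * n := by
  obtain ⟨hq0, hq1⟩ := conc_q k
  set q : ℝ := 1 - 1 / 2 ^ k with hq
  obtain ⟨C₀, hC₀⟩ := exists_pow_lt_of_lt_one (by norm_num : (0 : ℝ) < 1 / 2) hq1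
  obtain ⟨C, hC, hv⟩ := var_hit k C₀ hk
  have hs0 : Summable (fun m : ℕ => q ^ m) := summable_geometric_of_lt_one hq0 hq1
  have hs1 : Summable (fun m : ℕ => (2 * (m : ℝ) + 1) * q ^ m) := by
    have := summable_pow_mul_geometric_of_norm_lt_one (R := ℝ) 1
      (r := q) (by rw [Real.norm_eq_abs, abs_of_nonneg hq0]; exact hq1)
    refine ((this.mul_left 2).add hs0).congr fun m => by ring
  set S0 := ∑' m : ℕ, q ^ m with hS0
  set S1 := ∑' m : ℕ, (2 * (m : ℝ) + 1) * q ^ m with hS1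
  have hS00 : 0 ≤ S0 := tsum_nonneg fun m => by positivity
  have hS10 : 0 ≤ S1 := tsum_nonneg fun m => by positivity
  refine ⟨C + (S1 + (2 * C₀ + 4) * S0), fun n hn => ?_⟩
  have hp0 := satProb_nonneg k n
  have h1 : Summable (fun m : ℕ => satProb k n m) :=
    Summable.of_nonneg_of_le hp0 (satProb_le_first hn) (hs0.mul_left _)
  have h2 : Summable (fun m : ℕ => (2 * (m : ℝ) + 1) * satProb k n m) :=
    Summable.of_nonneg_of_le (fun m => mul_nonneg (by positivity) (hp0 m)) (fun m => by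
      have := mul_le_mul_of_nonneg_left (satProb_le_first hn m) (by positivity : 0 ≤ 2 * (m : ℝ) + 1)
      rw [mul_left_comm] at this
      exact this) (hs1.mul_left _)
  refine ⟨h1, h2, ?_⟩
  have h3 := hv n hn
  rw [EL_hit hn, EL_hit_sq hn] at h3
  have h4 : ∑ m ∈ range (C₀ * n + 1 + 1), satProb k n m ≤ ∑' m : ℕ, satProb k n m :=
    h1.sum_le_tsum _ fun m _ => hp0 m
  have h5 := pow_le_pow_left₀ (sum_nonneg fun m _ => hp0 m) h4 2
  rw [← h2.sum_add_tsum_nat_add (C₀ * n + 1 + 1)]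
  have h6 : ∑' j : ℕ, (2 * ((j + (C₀ * n + 1 + 1) : ℕ) : ℝ) + 1) *
      satProb k n (j + (C₀ * n + 1 + 1)) ≤ S1 + (2 * C₀ * n + 4) * S0 := by
    rw [hS0, hS1, ← tsum_mul_left, ← hs1.tsum_add (hs0.mul_left _)]
    refine ((summable_nat_add_iff _).mpr h2).tsum_le_tsum (fun j => ?_) (hs1.add (hs0.mul_left _))
    have k1 := conc_first (C₀ := C₀) (m := j + (C₀ * n + 1 + 1)) hn (by omega)
    have k2 : (2 * q ^ C₀) ^ n ≤ 1 := pow_le_one₀ (by positivity) (by linarith)
    have k3 : q ^ (j + (C₀ * n + 1 + 1) - C₀ * n) ≤ q ^ j :=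
      pow_le_pow_of_le_one hq0 hq1.le (by omega)
    have k4 : satProb k n (j + (C₀ * n + 1 + 1)) ≤ q ^ j := by
      exact k1.trans ((mul_le_mul k2 k3 (by positivity) zero_le_one).trans_eq (one_mul _))
    refine (mul_le_mul_of_nonneg_left k4 (by positivity)).trans (le_of_eq ?_)
    push_cast; ring
  have h7 : (1 : ℝ) ≤ n := by exact_mod_cast (by omega : 1 ≤ n)
  nlinarith

/-- The scaling window has width `O(√n)`. -/
theorem window (k : ℕ) (hk : 3 ≤ k) {η : ℝ} (hη : 0 < η) : ∃ K : ℝ, 0 ≤ K ∧ ∀ n m m' : ℕ, k ≤ n →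
    η ≤ satProb k n m → (m' : ℝ) + K * Real.sqrt n ≤ m → 1 - η ≤ satProb k n m' := by
  obtain ⟨hq0, hq1⟩ := conc_q k
  set q : ℝ := 1 - 1 / 2 ^ k with hq
  obtain ⟨C₀, hC₀⟩ := exists_pow_lt_of_lt_one (by positivity : (0 : ℝ) < min η 1 / 2) hq1
  obtain ⟨C, hC, hv⟩ := var_hit k C₀ hk
  set κ := Real.sqrt ((C + 1) / η) with hκ
  refine ⟨2 * κ, by positivity, fun n m m' hn h1 h2 => ?_⟩
  have := nonempty_clause hn
  have hn1 : (1 : ℝ) ≤ n := by exact_mod_cast (by omega : 1 ≤ n)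
  have hm : m ≤ C₀ * n + 1 := by
    by_contra hm
    have k1 := conc_first (C₀ := C₀) (m := m) hn (by omega)
    have k2 : (2 * q ^ C₀) ^ n ≤ (2 * q ^ C₀) ^ 1 :=
      pow_le_pow_of_le_one (by positivity) (by linarith [min_le_right η 1]) (by omega)
    have k3 : q ^ (m - C₀ * n) ≤ 1 := pow_le_one₀ hq0 hq1.le
    have k4 := mul_le_mul k2 k3 (by positivity) (by positivity)
    linarith [min_le_left η 1]
  set t := κ * Real.sqrt n with ht
  have ht0 : 0 < t := mul_pos (Real.sqrt_pos.mpr (by positivity)) (Real.sqrt_pos.mpr (by linarith))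
  have ht2 : η * t ^ 2 = (C + 1) * n := by
    rw [ht, hκ, mul_pow, Real.sq_sqrt (by positivity), Real.sq_sqrt (by positivity)]; field_simp
  have hm' : m' ≤ C₀ * n + 1 := by
    have : (m' : ℝ) ≤ m := by nlinarith
    exact (Nat.cast_le.mp this).trans hm
  have h3 := hv n hn
  set μ := EL (C₀ * n + 1) (fun F : List (Clause k n) => (hit (Set.univ : Set (Asg n)) F : ℝ))
    with hμ
  have h4 : EL (C₀ * n + 1)
      (fun F : List (Clause k n) => ((hit (Set.univ : Set (Asg n)) F : ℝ) - μ) ^ 2) ≤ C * n := by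
    refine le_trans (le_of_eq ?_) h3
    have e : ∀ F : List (Clause k n), ((hit (Set.univ : Set (Asg n)) F : ℝ) - μ) ^ 2 =
        (hit (Set.univ : Set (Asg n)) F : ℝ) ^ 2 - (2 * μ) * (hit (Set.univ : Set (Asg n)) F : ℝ) +
          μ ^ 2 := fun F => by ring
    simp only [e, EL_add, EL_sub, EL_const_mul, EL_const]
    rw [← hμ]; ring
  have h5 : (m : ℝ) ≤ μ + t := by
    by_contra h5
    push Not at h5
    have k1 : t ^ 2 * satProb k n m ≤ C * n := by
      rw [← EL_lt_hit hn hm, ← EL_const_mul]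
      refine le_trans (EL_mono fun F _ => ?_) h4
      split_ifs with k2
      · have k3 : (m : ℝ) < hit (Set.univ : Set (Asg n)) F := by exact_mod_cast k2
        rw [mul_one]
        exact pow_le_pow_left₀ ht0.le (by linarith) 2
      · rw [mul_zero]; positivity
    nlinarith [mul_le_mul_of_nonneg_left h1 (sq_nonneg t)]
  have k1 : t ^ 2 * (1 - satProb k n m') ≤ C * n := by
    rw [← EL_lt_hit hn hm', ← EL_const (α := Clause k n) (C₀ * n + 1) 1, ← EL_sub, ← EL_const_mul]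
    refine le_trans (EL_mono fun F _ => ?_) h4
    simp only [EL_const]
    split_ifs with k2
    · rw [sub_self, mul_zero]; positivity
    · have k3 : (hit (Set.univ : Set (Asg n)) F : ℝ) ≤ m' := by exact_mod_cast not_lt.mp k2
      rw [sub_zero, mul_one, ← neg_sub, neg_sq]
      exact pow_le_pow_left₀ ht0.le (by linarith) 2
  by_contra h6
  push Not at h6
  nlinarith [mul_pos (by linarith : 0 < 1 - η - satProb k n m') (pow_pos ht0 2)]

/-- Exponential decay above the threshold. -/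
theorem exp_decay {k : ℕ} (hk : 3 ≤ k) {α : ℝ} (hα : IsSharpThreshold (satProb k) α) {a : ℝ}
    (ha : α < a) : ∃ c : ℝ, 0 < c ∧
      ∀ᶠ n : ℕ in Filter.atTop, satProb k n ⌊a * n⌋₊ ≤ Real.exp (-(c * n)) := by
  have hα0 := threshold_nonneg hα
  set δ := (a - α) / 2 with hδ
  have hδ0 : 0 < δ := by linarith
  set C₀ := ⌈a⌉₊ with hC₀
  have haC : a ≤ C₀ := Nat.le_ceil a
  obtain ⟨K, l₀, hK, hl₀, hL⟩ := laplace_hit k C₀ hk
  set l := min l₀ (δ / (4 * (K + 1))) with hl
  have hl0 : 0 < l := lt_min hl₀ (by positivity)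
  have hl1 : 4 * (K + 1) * l ≤ δ := by
    have := min_le_right l₀ (δ / (4 * (K + 1)))
    rw [← hl, le_div_iff₀ (by positivity)] at this; linarith
  refine ⟨l * δ / 4, by positivity, ?_⟩
  have h1 := ((hα (α + δ) (by linarith)).2 (by linarith)).eventually
    (gt_mem_nhds (by positivity : (0 : ℝ) < δ / (2 * (C₀ + 2))))
  filter_upwards [h1, Filter.eventually_ge_atTop k] with n h2 hn
  have := nonempty_clause hn
  have hn1 : (1 : ℝ) ≤ n := by exact_mod_cast (by omega : 1 ≤ n)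
  have h3 := hL n hn l hl0 (min_le_left _ _)
  set M1 := ⌊(α + δ) * n⌋₊ with hM1
  set M := ⌊a * n⌋₊ with hM
  have hM1' : (M1 : ℝ) ≤ (α + δ) * n := Nat.floor_le (by positivity)
  have hM' : a * n < M + 1 := Nat.lt_floor_add_one _
  have hM'' : M ≤ C₀ * n + 1 := by
    have k1 : (M : ℝ) ≤ a * n := Nat.floor_le (by nlinarith)
    have k2 : (M : ℝ) ≤ (C₀ * n + 1 : ℕ) := by push_cast; nlinarith
    exact_mod_cast k2
  have h4 : ∑ m ∈ range (C₀ * n + 1 + 1), satProb k n m ≤ (α + δ) * n + δ * n / 2 := by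
    have k1 : ∀ m, satProb k n m ≤ (if m ∈ range M1 then 1 else 0) + satProb k n M1 := fun m => by
      split_ifs with k2
      · linarith [satProb_le_one k n m, satProb_nonneg k n M1]
      · rw [zero_add]; exact satProb_anti hn (by simpa using k2)
    refine (sum_le_sum fun m _ => k1 m).trans ?_
    rw [sum_add_distrib, sum_ite_mem, sum_const, sum_const, card_range, nsmul_eq_mul, nsmul_eq_mul]
    have k2 : (#(range (C₀ * n + 1 + 1) ∩ range M1) : ℝ) ≤ M1 := by
      have := card_le_card (inter_subset_right (s₁ := range (C₀ * n + 1 + 1)) (s₂ := range M1))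
      rw [card_range] at this
      exact_mod_cast this
    have k3 : ((C₀ * n + 1 + 1 : ℕ) : ℝ) ≤ (C₀ + 2) * n := by push_cast; nlinarith
    have k4 := mul_le_mul k3 h2.le (satProb_nonneg _ _ _) (by positivity)
    have k5 : ((C₀ : ℝ) + 2) * n * (δ / (2 * (C₀ + 2))) = δ * n / 2 := by field_simp
    linarith
  rw [EL_hit hn] at h3
  have h5 : Real.exp (l * (a * n)) * satProb k n M ≤ EL (C₀ * n + 1) (fun F : List (Clause k n) =>
      Real.exp (l * (hit (Set.univ : Set (Asg n)) F : ℝ))) := by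
    rw [← EL_lt_hit hn hM'', ← EL_const_mul]
    refine EL_mono fun F _ => ?_
    split_ifs with k2
    · have k3 : (M : ℝ) + 1 ≤ hit (Set.univ : Set (Asg n)) F := by exact_mod_cast k2
      rw [mul_one]
      exact Real.exp_le_exp.mpr (mul_le_mul_of_nonneg_left (by linarith) hl0.le)
    · rw [mul_zero]; positivity
  have h6 := h5.trans ((Real.le_exp_log _).trans (Real.exp_le_exp.mpr h3))
  rw [← le_div_iff₀' (Real.exp_pos _), ← Real.exp_sub] at h6
  refine h6.trans (Real.exp_le_exp.mpr ?_)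
  have k1 := mul_le_mul_of_nonneg_left h4 hl0.le
  have k2 := mul_le_mul_of_nonneg_left hl1 (by positivity : 0 ≤ l * n)
  have k3 : a = α + 2 * δ := by linarith
  have k4 : 0 ≤ l * n * l := by positivity
  rw [k3]
  nlinarith

end Crest.Agent.R153
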