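import Crest.Agent.R153.Lower
import Crest.Agent.Lib.Computability.RatPrimrec

/-! Row 153, module O: lower certificates. -/

set_option autoImplicit false

namespace Crest.Agent.R153

open Finset Crest.ProbabilityR.RandomSAT Crest.Agent.R141

/-- All lists of a given length with entries in `L`. -/
def cntTuples {α : Type} (L : List α) : ℕ → List (List α)
  | 0 => [[]]
  | m + 1 => L.flatMap (fun a => (cntTuples L m).map (fun F => a :: F))

theorem cnt_mem_tuples {α : Type} (L : List α) (hL : ∀ a, a ∈ L) (F : List α) :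
    F ∈ cntTuples L F.length := by
  induction F with
  | nil => simp [cntTuples]
  | cons a F ih =>
    simp only [List.length_cons, cntTuples, List.mem_flatMap, List.mem_map]
    exact ⟨a, hL a, F, ih, rfl⟩

theorem cnt_primrec_tuples {α : Type} [Primcodable α] :
    Primrec₂ (fun (L : List α) (m : ℕ) => cntTuples L m) := by
  have h := Primrec.nat_rec (α := List α) (β := List (List α)) (f := fun _ => [[]])
    (g := fun L p => L.flatMap (fun a => p.2.map (fun F => a :: F))) (Primrec.const _)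
    (Primrec.list_flatMap Primrec.fst
      (Primrec.list_map (Primrec.snd.comp (Primrec.snd.comp Primrec.fst))
        (Primrec.list_cons.comp (Primrec.snd.comp Primrec.fst) Primrec.snd).to₂).to₂).to₂
  refine h.of_eq fun L m => ?_
  induction m with
  | zero => rfl
  | succ m ih => simp only [cntTuples, ← ih]

theorem cnt_primrec_product {α β : Type} [Primcodable α] [Primcodable β] :
    Primrec₂ (fun (L : List α) (L' : List β) => L ×ˢ L') :=
  (Primrec.list_flatMap Primrec.fst
    (Primrec.list_map (Primrec.snd.comp Primrec.fst)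
      (Primrec.pair (Primrec.snd.comp Primrec.fst) Primrec.snd).to₂).to₂).to₂.of_eq
    fun _ _ => rfl

/-- Clauses as plain data. -/
abbrev CntCl : Type := (ℕ × ℕ × ℕ) × (Bool × Bool × Bool)

/-- The triples of distinct variables. -/
def cntVars (n : ℕ) : List (ℕ × ℕ × ℕ) :=
  (List.range n ×ˢ (List.range n ×ˢ List.range n)).filter
    (fun v => decide (¬ v.1 = v.2.1 ∧ ¬ v.1 = v.2.2 ∧ ¬ v.2.1 = v.2.2))

/-- The sign patterns. -/
def cntSigns : List (Bool × Bool × Bool) := [true, false] ×ˢ ([true, false] ×ˢ [true, false])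

/-- All clauses. -/
def cntCl (n : ℕ) : List CntCl := cntVars n ×ˢ cntSigns

/-- The data of a clause. -/
def cntEnc {n : ℕ} (c : Clause 3 n) : CntCl :=
  (((c.1.1 0 : ℕ), (c.1.1 1 : ℕ), (c.1.1 2 : ℕ)), (c.2 0, c.2 1, c.2 2))

/-- Satisfaction of a clause. -/
def cntSat (c : CntCl) (σ : List Bool) : Prop :=
  σ.getD c.1.1 false = c.2.1 ∨ σ.getD c.1.2.1 false = c.2.2.1 ∨ σ.getD c.1.2.2 false = c.2.2.2

/-- Satisfiability of a formula. -/
def cntSatF (F : List CntCl) (n : ℕ) : Prop :=
  ∃ σ ∈ cntTuples [true, false] n, ∀ c ∈ F, cntSat c σ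

theorem cnt_primrec_cl : Primrec cntCl := by
  have hp : PrimrecPred (fun v : ℕ × ℕ × ℕ => ¬ v.1 = v.2.1 ∧ ¬ v.1 = v.2.2 ∧ ¬ v.2.1 = v.2.2) :=
    PrimrecPred.and (PrimrecPred.not (Primrec.eq.comp Primrec.fst (Primrec.fst.comp Primrec.snd)))
      (PrimrecPred.and
        (PrimrecPred.not (Primrec.eq.comp Primrec.fst (Primrec.snd.comp Primrec.snd)))
        (PrimrecPred.not (Primrec.eq.comp (Primrec.fst.comp Primrec.snd)
          (Primrec.snd.comp Primrec.snd))))
  have hv : Primrec cntVars :=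
    (Primrec.listFilter hp).comp (cnt_primrec_product.comp Primrec.list_range
      (cnt_primrec_product.comp Primrec.list_range Primrec.list_range))
  exact cnt_primrec_product.comp hv (Primrec.const _)

theorem cnt_primrec_sat : PrimrecRel cntSat :=
  PrimrecPred.or
    (Primrec.eq.comp ((Primrec.list_getD false).comp Primrec.snd
      (Primrec.fst.comp (Primrec.fst.comp Primrec.fst)))
      (Primrec.fst.comp (Primrec.snd.comp Primrec.fst)))
    (PrimrecPred.or
      (Primrec.eq.comp ((Primrec.list_getD false).comp Primrec.snd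
        (Primrec.fst.comp (Primrec.snd.comp (Primrec.fst.comp Primrec.fst))))
        (Primrec.fst.comp (Primrec.snd.comp (Primrec.snd.comp Primrec.fst))))
      (Primrec.eq.comp ((Primrec.list_getD false).comp Primrec.snd
        (Primrec.snd.comp (Primrec.snd.comp (Primrec.fst.comp Primrec.fst))))
        (Primrec.snd.comp (Primrec.snd.comp (Primrec.snd.comp Primrec.fst)))))

theorem cnt_primrec_satF : PrimrecRel cntSatF := by
  have h1 : PrimrecRel (fun (σ : List Bool) (F : List CntCl) => ∀ c ∈ F, cntSat c σ) :=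
    (PrimrecRel.forall_mem_list cnt_primrec_sat).comp Primrec.snd Primrec.fst
  exact (PrimrecRel.exists_mem_list h1).comp
    (cnt_primrec_tuples.comp (Primrec.const [true, false]) Primrec.snd) Primrec.fst

theorem cnt_nodup (n : ℕ) : (cntCl n).Nodup :=
  List.Nodup.product ((List.nodup_range.product (List.nodup_range.product List.nodup_range)).filter _)
    (by decide)

theorem cnt_sum (n : ℕ) (ψ : CntCl → ℝ) :
    ∑ c : Clause 3 n, ψ (cntEnc c) = ((cntCl n).map ψ).sum := by
  classical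
  rw [← List.sum_toFinset ψ (cnt_nodup n)]
  refine Finset.sum_nbij cntEnc ?_ ?_ ?_ (fun _ _ => rfl)
  · rintro ⟨⟨v, hv⟩, s⟩ -
    simp only [List.mem_toFinset, cntCl, cntEnc, List.mem_product, cntVars, List.mem_filter,
      List.mem_range, Fin.is_lt, true_and, decide_eq_true_eq, Fin.val_inj, hv.eq_iff, cntSigns]
    refine ⟨by decide, ?_, ?_, ?_⟩
    · cases s 0 <;> simp
    · cases s 1 <;> simp
    · cases s 2 <;> simp
  · rintro ⟨⟨v, hv⟩, s⟩ - ⟨⟨v', hv'⟩, s'⟩ - h
    simp only [cntEnc, Prod.mk.injEq, Fin.val_inj] at h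
    obtain ⟨⟨h0, h1, h2⟩, h3, h4, h5⟩ := h
    have e1 : v = v' := by
      funext i
      fin_cases i
      exacts [h0, h1, h2]
    have e2 : s = s' := by
      funext i
      fin_cases i
      exacts [h3, h4, h5]
    subst e1 e2
    rfl
  · rintro ⟨⟨a, b, c⟩, s, t, u⟩ h
    simp only [List.coe_toFinset, cntCl, List.mem_product, cntVars, List.mem_filter,
      List.mem_range, decide_eq_true_eq, Set.mem_ofPred_eq] at h
    obtain ⟨⟨⟨ha, hb, hc⟩, h1, h2, h3⟩, -⟩ := h
    refine ⟨(⟨![⟨a, ha⟩, ⟨b, hb⟩, ⟨c, hc⟩], ?_⟩, ![s, t, u]), by simp, rfl⟩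
    intro i j hij
    fin_cases i <;> fin_cases j <;> simp_all [eq_comm]

theorem cnt_card (n : ℕ) : (Fintype.card (Clause 3 n) : ℝ) = (cntCl n).length := by
  simpa using cnt_sum n (fun _ => 1)

theorem cnt_sum_flatMap {α β : Type} (L : List α) (g : α → List β) (φ : β → ℝ) :
    ((L.flatMap g).map φ).sum = (L.map (fun a => ((g a).map φ).sum)).sum := by
  induction L with
  | nil => simp
  | cons a L ih => simp [ih]

theorem cnt_EL (n m : ℕ) (φ : List CntCl → ℝ) :
    EL m (fun F : List (Clause 3 n) => φ (F.map cntEnc)) =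
      (((cntCl n).length : ℝ) ^ m)⁻¹ * ((cntTuples (cntCl n) m).map φ).sum := by
  induction m generalizing φ with
  | zero => simp [EL_zero, cntTuples]
  | succ m ih =>
    rw [EL_succ]
    simp only [List.map_cons, fun a => ih (fun G => φ (a :: G))]
    rw [avg_const_mul, avg, cnt_card,
      cnt_sum n (fun a => ((cntTuples (cntCl n) m).map (fun G => φ (a :: G))).sum), cntTuples,
      cnt_sum_flatMap, pow_succ, mul_inv, mul_assoc]
    simp only [List.map_map, Function.comp_def]

theorem cnt_satF_iff {n : ℕ} (F : List (Clause 3 n)) :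
    cntSatF (F.map cntEnc) n ↔ (solL F).Nonempty := by
  constructor
  · rintro ⟨σ, -, hσ⟩
    refine ⟨fun i => σ.getD i false, fun c hc => ?_⟩
    rcases hσ _ (List.mem_map_of_mem hc) with h | h | h
    exacts [⟨0, h⟩, ⟨1, h⟩, ⟨2, h⟩]
  · rintro ⟨σ, hσ⟩
    refine ⟨List.ofFn σ, ?_, fun c hc => ?_⟩
    · have := cnt_mem_tuples [true, false] (fun a => by cases a <;> simp) (List.ofFn σ)
      rwa [List.length_ofFn] at this
    · obtain ⟨c, hc', rfl⟩ := List.mem_map.1 hc
      obtain ⟨i, hi⟩ := hσ c hc'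
      have e : ∀ j : Fin n, (List.ofFn σ).getD j false = σ j := fun j => by simp
      simp only [cntSat, cntEnc, e]
      fin_cases i
      exacts [Or.inl hi, Or.inr (Or.inl hi), Or.inr (Or.inr hi)]

theorem cnt_sum_ite {α : Type} (p : α → Prop) [DecidablePred p] (T : List α) :
    (T.map (fun F => if p F then (1 : ℝ) else 0)).sum = (T.filter (fun F => p F)).length := by
  induction T with
  | nil => simp
  | cons a T ih =>
    by_cases h : p a
    · simp [h, ih, add_comm]
    · simp [h, ih]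

open Classical in
theorem cnt_satProb (n m : ℕ) : satProb 3 n m =
    (((cntCl n).length : ℝ) ^ m)⁻¹ *
      ((cntTuples (cntCl n) m).filter (fun F => cntSatF F n)).length := by
  rw [satProb_eq_EL, ← cnt_sum_ite, ← cnt_EL]
  simp only [cnt_satF_iff]

theorem primrec_half : ∃ chk : ℕ × ℕ → Bool, Primrec chk ∧
    ∀ n m, chk (n, m) = true ↔ 1 / 2 ≤ satProb 3 n m := by
  classical
  have hT : Primrec (fun p : ℕ × ℕ => (cntCl p.1).length ^ p.2) :=
    Lib.Computability.nat_pow.comp (Primrec.list_length.comp (cnt_primrec_cl.comp Primrec.fst))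
      Primrec.snd
  have hC : Primrec (fun p : ℕ × ℕ =>
      ((cntTuples (cntCl p.1) p.2).filter (fun F => cntSatF F p.1)).length) :=
    Primrec.list_length.comp ((PrimrecRel.listFilter cnt_primrec_satF).comp
      (cnt_primrec_tuples.comp (cnt_primrec_cl.comp Primrec.fst) Primrec.snd) Primrec.fst)
  have h := PrimrecPred.and (Primrec.nat_lt.comp (Primrec.const 0) hT)
    (Primrec.nat_le.comp hT (Primrec.nat_double.comp hC))
  refine ⟨_, h.decide, fun n m => ?_⟩
  rw [decide_eq_true_eq, cnt_satProb, ← Nat.cast_pow]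
  generalize (cntCl n).length ^ m = T
  generalize ((cntTuples (cntCl n) m).filter (fun F => cntSatF F n)).length = C
  rcases Nat.eq_zero_or_pos T with rfl | hT0
  · simp
  · have hT1 : (0 : ℝ) < T := by exact_mod_cast hT0
    rw [← div_eq_inv_mul, div_le_div_iff₀ (by norm_num) hT1, one_mul]
    simp only [hT0, true_and]
    rw [mul_comm 2 C]
    exact_mod_cast Iff.rfl

theorem lower_cert {α : ℝ} (hα : IsSharpThreshold (satProb 3) α) :
    ∃ chk : ℚ × (ℕ × ℕ) → Bool, Primrec chk ∧ (∀ q c, chk (q, c) = true → (q : ℝ) ≤ α) ∧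
      ∀ q : ℚ, (q : ℝ) < α → ∃ c, chk (q, c) = true := by
  classical
  obtain ⟨half, hh, hh'⟩ := primrec_half
  obtain ⟨K, hK⟩ := lower_sound hα
  have hn : Primrec (fun p : ℚ × (ℕ × ℕ) => (p.2.1 : ℚ)) :=
    Lib.Computability.rat_natCast.comp (Primrec.fst.comp Primrec.snd)
  have hm : Primrec (fun p : ℚ × (ℕ × ℕ) => (p.2.2 : ℚ)) :=
    Lib.Computability.rat_natCast.comp (Primrec.snd.comp Primrec.snd)
  have hd : Primrec (fun p : ℚ × (ℕ × ℕ) => (p.2.2 : ℚ) - p.1 * p.2.1) :=
    Lib.Computability.rat_sub.comp hm (Lib.Computability.rat_mul.comp Primrec.fst hn)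
  have h := PrimrecPred.and
    (Primrec.nat_le.comp (Primrec.const 3) (Primrec.fst.comp (Primrec.snd (α := ℚ) (β := ℕ × ℕ))))
    (PrimrecPred.and (Primrec.eq.comp (hh.comp Primrec.snd) (Primrec.const true))
      (PrimrecPred.and (Lib.Computability.rat_le.comp (Primrec.const 0) hd)
        (Lib.Computability.rat_le.comp
          (Lib.Computability.rat_mul.comp (Primrec.const ((K : ℚ) * K)) hn)
          (Lib.Computability.rat_mul.comp hd hd))))
  refine ⟨_, h.decide, ?_, fun q hq => ?_⟩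
  · rintro q ⟨n, m⟩ hc
    rw [decide_eq_true_eq] at hc
    obtain ⟨h1, h2, h3, h4⟩ := hc
    simp only at h1 h2 h3 h4
    refine le_trans ?_ (hK n m h1 ((hh' n m).1 h2))
    have hn' : (3 : ℝ) ≤ n := by exact_mod_cast h1
    have h3' : (0 : ℝ) ≤ (m : ℝ) - q * n := by exact_mod_cast h3
    have h4' : (K : ℝ) * K * n ≤ ((m : ℝ) - q * n) * ((m : ℝ) - q * n) := by exact_mod_cast h4
    have hs0 : 0 < Real.sqrt n := Real.sqrt_pos.2 (by linarith)
    have hs2 : Real.sqrt n * Real.sqrt n = n := Real.mul_self_sqrt (by linarith)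
    have h5 : K * Real.sqrt n ≤ (m : ℝ) - q * n := by
      refine abs_le_of_sq_le_sq' ?_ h3' |>.2
      nlinarith
    have e : (K : ℝ) / Real.sqrt n = K * Real.sqrt n / n := by
      rw [div_eq_div_iff hs0.ne' (by linarith), mul_assoc, hs2]
    rw [e, ← sub_div, le_div_iff₀ (by linarith)]
    linarith
  · have hex : ∃ a : ℝ, 0 ≤ a ∧ (q : ℝ) < a ∧
        ∀ᶠ n : ℕ in Filter.atTop, 1 / 2 ≤ satProb 3 n ⌊a * n⌋₊ := by
      rcases (threshold_nonneg hα).eq_or_lt with h0 | h0
      · refine ⟨0, le_rfl, h0 ▸ hq, Filter.Eventually.of_forall fun n => ?_⟩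
        rw [zero_mul, Nat.floor_zero, satProb_zero]
        norm_num
      · obtain ⟨a, ha1, ha2⟩ := exists_between (max_lt hq h0)
        have ha0 : 0 ≤ a := (le_max_right _ _).trans ha1.le
        exact ⟨a, ha0, (le_max_left _ _).trans_lt ha1,
          ((hα a ha0).1 ha2).eventually (le_mem_nhds (by norm_num))⟩
    obtain ⟨a, ha0, hqa, hev⟩ := hex
    have hδ : 0 < a - q := by linarith
    have hev2 : ∀ᶠ n : ℕ in Filter.atTop, ((K + 1) / (a - q)) ^ 2 ≤ (n : ℝ) :=
      tendsto_natCast_atTop_atTop.eventually_ge_atTop _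
    obtain ⟨n, ⟨h1, h2⟩, h3⟩ := ((hev.and hev2).and (Filter.eventually_ge_atTop 3)).exists
    refine ⟨(n, ⌊a * n⌋₊), ?_⟩
    rw [decide_eq_true_eq]
    have hn' : (3 : ℝ) ≤ n := by exact_mod_cast h3
    have hs0 : 0 < Real.sqrt n := Real.sqrt_pos.2 (by linarith)
    have hs2 : Real.sqrt n * Real.sqrt n = n := Real.mul_self_sqrt (by linarith)
    have hs1 : 1 ≤ Real.sqrt n := by nlinarith
    have h4 : (K + 1) / (a - q) ≤ Real.sqrt n := Real.le_sqrt_of_sq_le h2
    rw [div_le_iff₀ hδ] at h4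
    have h5 := Nat.lt_floor_add_one (a * n)
    have h6 : K * Real.sqrt n ≤ (⌊a * n⌋₊ : ℝ) - q * n := by nlinarith
    have h7 : 0 ≤ K * Real.sqrt n := by positivity
    refine ⟨h3, (hh' _ _).2 h1, ?_, ?_⟩
    · have : (0 : ℝ) ≤ (⌊a * n⌋₊ : ℝ) - q * n := h7.trans h6
      exact_mod_cast this
    · have : (K : ℝ) * K * n ≤ ((⌊a * n⌋₊ : ℝ) - q * n) * ((⌊a * n⌋₊ : ℝ) - q * n) := by
        nlinarith [mul_self_le_mul_self h7 h6]
      exact_mod_cast this

end Crest.Agent.R153
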