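import Crest.Agent.R153.BasicEL

/-! Row 153, module E: removing a variable from a uniform clause. -/

set_option autoImplicit false

namespace Crest.Agent.R153

open Finset Crest.ProbabilityR.RandomSAT Crest.Agent.R141

theorem dec_avg_equiv {I J : Type} [Fintype I] [Fintype J] (e : I ≃ J) (f : J → ℝ) :
    avg (fun i => f (e i)) = avg f := by
  unfold avg
  rw [Fintype.card_congr e, Equiv.sum_comp e f]

theorem dec_avg_prod {I J : Type} [Fintype I] [Fintype J] (f : I × J → ℝ) :
    avg f = avg (fun i => avg (fun j => f (i, j))) := by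
  unfold avg
  rw [Fintype.card_prod, Fintype.sum_prod_type, ← Finset.mul_sum]
  push_cast
  rw [mul_inv, mul_assoc]

/-- Injective tuples. -/
abbrev DecInj (k n : ℕ) : Type := {v : Fin k → Fin n // Function.Injective v}

/-- A permutation acts on injective tuples. -/
def decAct {k n : ℕ} (τ : Equiv.Perm (Fin n)) : DecInj k n ≃ DecInj k n where
  toFun v := ⟨τ ∘ v.1, τ.injective.comp v.2⟩
  invFun v := ⟨τ.symm ∘ v.1, τ.symm.injective.comp v.2⟩
  left_inv v := by ext i; simp
  right_inv v := by ext i; simp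

/-- Restriction of an injective tuple. -/
def decRes {j k n : ℕ} (h : j ≤ k) (v : DecInj k n) : DecInj j n :=
  ⟨v.1 ∘ Fin.castLE h, v.2.comp (Fin.castLE_injective h)⟩

theorem dec_avg_res {j k n : ℕ} (h : j ≤ k) (hkn : k ≤ n) (ψ : DecInj j n → ℝ) :
    avg (fun v : DecInj k n => ψ (decRes h v)) = avg ψ := by
  have : Nonempty (DecInj k n) := ⟨⟨Fin.castLE hkn, Fin.castLE_injective hkn⟩⟩
  let w₀ : DecInj j n := ⟨Fin.castLE (h.trans hkn), Fin.castLE_injective _⟩
  have : Nonempty (DecInj j n) := ⟨w₀⟩
  have hconst : ∀ w : DecInj j n, avg (fun τ : Equiv.Perm (Fin n) => ψ (decAct τ w)) =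
      avg (fun τ : Equiv.Perm (Fin n) => ψ (decAct τ w₀)) := by
    intro w
    obtain ⟨τ₀, hτ₀⟩ := Equiv.Perm.exists_extending_pair _ _ w₀.2 w.2
    rw [← dec_avg_equiv (Equiv.mulRight τ₀) (fun τ => ψ (decAct τ w₀))]
    congr 1
    funext τ
    congr 1
    ext i
    simp [decAct, hτ₀]
  have h1 : avg ψ = avg (fun τ : Equiv.Perm (Fin n) => ψ (decAct τ w₀)) := by
    rw [← avg_const (I := Equiv.Perm (Fin n)) (avg ψ),
      ← avg_const (I := DecInj j n) (avg fun τ : Equiv.Perm (Fin n) => ψ (decAct τ w₀))]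
    conv_rhs => rw [show (fun _ : DecInj j n => avg fun τ : Equiv.Perm (Fin n) =>
      ψ (decAct τ w₀)) = fun w => avg fun τ : Equiv.Perm (Fin n) => ψ (decAct τ w) from
      funext fun w => (hconst w).symm]
    rw [avg_comm (I := DecInj j n)]
    congr 1
    funext τ
    exact (dec_avg_equiv (decAct τ) ψ).symm
  rw [h1, ← avg_const (I := Equiv.Perm (Fin n)) (avg fun v : DecInj k n => ψ (decRes h v)),
    ← avg_const (I := DecInj k n) (avg fun τ : Equiv.Perm (Fin n) => ψ (decAct τ w₀))]
  conv_rhs => rw [show (fun _ : DecInj k n => avg fun τ : Equiv.Perm (Fin n) =>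
      ψ (decAct τ w₀)) = fun v => avg fun τ : Equiv.Perm (Fin n) => ψ (decAct τ (decRes h v)) from
      funext fun v => (hconst _).symm]
  rw [avg_comm (I := DecInj k n)]
  congr 1
  funext τ
  exact (dec_avg_equiv (decAct τ) (fun v => ψ (decRes h v))).symm

/-- Restriction of a clause to its first literals. -/
def decResC {j k n : ℕ} (h : j ≤ k) (c : Clause k n) : Clause j n :=
  (decRes h c.1, fun i => c.2 (Fin.castLE h i))

theorem dec_avg_resC {j k n : ℕ} (h : j ≤ k) (hkn : k ≤ n) (ψ : Clause j n → ℝ) :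
    avg (fun c : Clause k n => ψ (decResC h c)) = avg ψ := by
  rw [dec_avg_prod, dec_avg_prod ψ, ← dec_avg_res h hkn]
  congr 1
  funext v
  exact avg_comp_injective (Fin.castLE h) (Fin.castLE_injective h) (fun s => ψ (decRes h v, s))

theorem dec_card_clause (k n : ℕ) : Fintype.card (Clause k n) = n.descFactorial k * 2 ^ k := by
  rw [Fintype.card_prod, Fintype.card_congr (Equiv.subtypeInjectiveEquivEmbedding _ _),
    Fintype.card_embedding_eq]
  simp

theorem dec_ins_injective {k n : ℕ} (x : Fin (n + 1)) (i₀ : Fin (k + 1)) (v : DecInj k n) :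
    Function.Injective (Fin.insertNth (α := fun _ => Fin (n + 1)) i₀ x
      (fun i => x.succAbove (v.1 i))) := by
  intro a b hab
  rcases Fin.eq_self_or_eq_succAbove i₀ a with ha | ⟨a, ha⟩ <;>
    rcases Fin.eq_self_or_eq_succAbove i₀ b with hb | ⟨b, hb⟩ <;> rw [ha, hb] at hab ⊢
  · simp only [Fin.insertNth_apply_same, Fin.insertNth_apply_succAbove] at hab
    exact absurd hab.symm (Fin.succAbove_ne _ _)
  · simp only [Fin.insertNth_apply_same, Fin.insertNth_apply_succAbove] at hab
    exact absurd hab (Fin.succAbove_ne _ _)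
  · simp only [Fin.insertNth_apply_succAbove] at hab
    rw [v.2 (Fin.succAbove_right_injective hab)]

/-- Building a clause on `n + 1` variables. -/
def decBuild {k n : ℕ} (x : Fin (n + 1)) :
    Clause (k + 1) n ⊕ (Fin (k + 1) × Bool) × Clause k n → Clause (k + 1) (n + 1)
  | Sum.inl c => (⟨fun i => x.succAbove (c.1.1 i), Fin.succAbove_right_injective.comp c.1.2⟩, c.2)
  | Sum.inr t => (⟨_, dec_ins_injective x t.1.1 t.2.1⟩,
      Fin.insertNth (α := fun _ => Bool) t.1.1 t.1.2 t.2.2)

theorem decBuild_bijective {k n : ℕ} (hkn : k ≤ n) (x : Fin (n + 1)) :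
    Function.Bijective (decBuild (k := k) x) := by
  rw [Fintype.bijective_iff_surjective_and_card]
  constructor
  · rintro ⟨⟨v, hv⟩, s⟩
    by_cases h : ∃ i, v i = x
    · obtain ⟨i₀, hi₀⟩ := h
      have h1 : ∀ i, ∃ y, x.succAbove y = v (i₀.succAbove i) := fun i =>
        Fin.exists_succAbove_eq fun h => Fin.succAbove_ne _ _ (hv (h.trans hi₀.symm))
      choose w hw using h1
      refine ⟨Sum.inr ((i₀, s i₀), ⟨w, fun a b hab => ?_⟩, fun i => s (i₀.succAbove i)), ?_⟩
      · exact Fin.succAbove_right_injective (hv (by rw [← hw, ← hw, hab]))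
      · simp only [decBuild, hw]
        refine Prod.ext (Subtype.ext ?_) ?_
        · simp only [← hi₀]
          exact Fin.insertNth_self_removeNth i₀ v
        · exact Fin.insertNth_self_removeNth i₀ s
    · push Not at h
      choose w hw using fun i => Fin.exists_succAbove_eq (h i)
      refine ⟨Sum.inl (⟨w, fun a b hab => hv (by rw [← hw, ← hw, hab])⟩, s), ?_⟩
      simp only [decBuild, hw]
  · rw [Fintype.card_sum, Fintype.card_prod (Fin (k + 1) × Bool), dec_card_clause,
      dec_card_clause, dec_card_clause, Nat.succ_descFactorial_succ, Nat.descFactorial_succ]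
    obtain ⟨m, rfl⟩ := Nat.exists_eq_add_of_le hkn
    simp only [Fintype.card_prod, Fintype.card_fin, Fintype.card_bool, Nat.add_sub_cancel_left]
    ring

/-- A uniform `k`-clause on `n+1` variables either avoids `x` (and is then a uniform `k`-clause on
the other variables) or contains `x` (and then `j` of its other literals form a uniform
`j`-clause on the other variables). -/
theorem exists_dec {k j n : ℕ} (hjk : j < k) (hkn : k ≤ n) (x : Fin (n + 1)) :
    ∃ dec : Clause k (n + 1) → Clause k n ⊕ Clause j n,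
      (∀ c c', dec c = Sum.inl c' → ∀ σ : Asg (n + 1),
        ClauseSat σ c ↔ ClauseSat (fun i => σ (x.succAbove i)) c') ∧
      (∀ c e, dec c = Sum.inr e → ∀ σ : Asg (n + 1),
        ClauseSat (fun i => σ (x.succAbove i)) e → ClauseSat σ c) ∧
      ∀ φ : Clause k n ⊕ Clause j n → ℝ, avg (fun c => φ (dec c)) =
        (1 - (k : ℝ) / (n + 1)) * avg (fun a => φ (Sum.inl a)) +
          (k : ℝ) / (n + 1) * avg (fun b => φ (Sum.inr b)) := by
  obtain ⟨k, rfl⟩ : ∃ k', k = k' + 1 := ⟨k - 1, by omega⟩
  have hjk' : j ≤ k := by omega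
  have hkn' : k ≤ n := by omega
  let E := Equiv.ofBijective _ (decBuild_bijective hkn' x)
  let r : Clause (k + 1) n ⊕ (Fin (k + 1) × Bool) × Clause k n → Clause (k + 1) n ⊕ Clause j n :=
    Sum.map id fun t => decResC hjk' t.2
  refine ⟨fun c => r (E.symm c), ?_, ?_, fun φ => ?_⟩
  · intro c c' h σ
    obtain ⟨t, rfl⟩ := E.surjective c
    simp only [Equiv.symm_apply_apply] at h
    rcases t with t | t
    · obtain rfl : t = c' := Sum.inl.inj h
      rfl
    · exact absurd h (by simp [r])
  · intro c e h σ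
    obtain ⟨t, rfl⟩ := E.surjective c
    simp only [Equiv.symm_apply_apply] at h
    rcases t with t | t
    · exact absurd h (by simp [r])
    · obtain rfl : decResC hjk' t.2 = e := Sum.inr.inj h
      rintro ⟨i, hi⟩
      refine ⟨t.1.1.succAbove (Fin.castLE hjk' i), ?_⟩
      simp only [E, Equiv.ofBijective_apply, decBuild, Fin.insertNth_apply_succAbove]
      exact hi
  · rw [← dec_avg_resC hjk' hkn' (fun b => φ (Sum.inr b)),
      ← dec_avg_equiv E (fun c => φ (r (E.symm c)))]
    simp only [Equiv.symm_apply_apply]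
    unfold avg
    rw [Fintype.card_congr E, Fintype.sum_sum_type, Fintype.sum_prod_type (α₁ := Fin (k + 1) × Bool),
      dec_card_clause, dec_card_clause, dec_card_clause, Nat.succ_descFactorial_succ,
      Nat.descFactorial_succ]
    simp only [r, Sum.map_inl, Sum.map_inr, id, sum_const, card_univ, Fintype.card_prod,
      Fintype.card_fin, Fintype.card_bool, nsmul_eq_mul]
    have h1 : (0 : ℝ) < n.descFactorial k := by
      exact_mod_cast Nat.descFactorial_pos.2 hkn'
    obtain ⟨m, rfl⟩ := Nat.exists_eq_add_of_le hkn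
    rw [show k + 1 + m - k = m + 1 by omega]
    push_cast
    field_simp
    ring

end Crest.Agent.R153
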