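import Crest.Agent.R141.BasicProj
import Crest.Prelude.Def_RandomSAT

/-!
Row 153 (S0217, S0218). Definitions: solution sets, averages over random lists, the truncated
hitting time, kill probabilities and the delay functionals.
-/

set_option autoImplicit false

namespace Crest.Agent.R153

open Finset Crest.ProbabilityR.RandomSAT Crest.Agent.R141

/-- Assignments. -/
abbrev Asg (n : ℕ) : Type := Fin n → Bool

/-- The solutions of a clause. -/
def sol {k n : ℕ} (c : Clause k n) : Set (Asg n) := {σ | ClauseSat σ c}

/-- The solutions of a list of clauses. -/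
def solL {k n : ℕ} (F : List (Clause k n)) : Set (Asg n) := {σ | ∀ c ∈ F, ClauseSat σ c}

/-- Average over lists of `L` independent uniform elements. -/
noncomputable def EL {α : Type} [Fintype α] (L : ℕ) (φ : List α → ℝ) : ℝ :=
  avg (fun F : Fin L → α => φ (List.ofFn F))

open Classical in
/-- The number of `m ≤ F.length` such that `S` meets the solutions of the first `m` clauses. -/
noncomputable def hit {k n : ℕ} : Set (Asg n) → List (Clause k n) → ℕ
  | S, [] => if S.Nonempty then 1 else 0
  | S, c :: F => if S.Nonempty then hit (S ∩ sol c) F + 1 else 0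

/-- `∑_{m < h} θ^m`. -/
noncomputable def gs (θ : ℝ) (h : ℕ) : ℝ := ∑ m ∈ range h, θ ^ m

open Classical in
/-- The probability that a uniform `j`-clause has no solution in `S`. -/
noncomputable def kill (j : ℕ) {n : ℕ} (S : Set (Asg n)) : ℝ :=
  avg (fun C : Clause j n => if (S ∩ sol C).Nonempty then 0 else 1)

/-- Mean square delay caused by a uniform `j`-clause, started from the solution set `S`. -/
noncomputable def Asq (k : ℕ) (θ : ℝ) (L j : ℕ) {n : ℕ} (S : Set (Asg n)) : ℝ :=
  avg (fun C : Clause j n => EL L (fun F : List (Clause k n) =>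
    (gs θ (hit S F) - gs θ (hit (S ∩ sol C) F)) ^ 2))

/-- The normalisation `E θ^(2H)`. -/
noncomputable def Nsq (k : ℕ) (θ : ℝ) (L : ℕ) {n : ℕ} (S : Set (Asg n)) : ℝ :=
  EL L (fun F : List (Clause k n) => θ ^ (2 * hit S F))

/-- Mean square delay in the system with `s` extra uniform 2-clauses. -/
noncomputable def Dsq (k : ℕ) (θ : ℝ) (L j n s : ℕ) : ℝ :=
  EL s (fun Φ : List (Clause 2 n) => Asq k θ L j (solL Φ))

/-- Binomial weights. -/
noncomputable def bin (L : ℕ) (ρ : ℝ) (z : ℕ) : ℝ := (L.choose z : ℝ) * ρ ^ z * (1 - ρ) ^ (L - z)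

/-- The left entries of a list of a sum type. -/
def lefts {A B : Type} (F : List (A ⊕ B)) : List A := F.filterMap Sum.getLeft?

/-- The right entries of a list of a sum type. -/
def rights {A B : Type} (F : List (A ⊕ B)) : List B := F.filterMap Sum.getRight?

/-- Entropy functional for the uniform measure. -/
noncomputable def Ent {Ω : Type} [Fintype Ω] (g : Ω → ℝ) : ℝ :=
  avg (fun ω => g ω * Real.log (g ω)) - avg g * Real.log (avg g)

end Crest.Agent.R153
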