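import Crest.Agent.R153.Dec
import Crest.Agent.R153.Basic

/-! Row 153, module F: coupling with the system without the variable of the unit clause. -/

set_option autoImplicit false

namespace Crest.Agent.R153

open Finset Crest.ProbabilityR.RandomSAT Crest.Agent.R141

theorem rem_lefts_append {A B : Type} (F G : List (A ⊕ B)) :
    lefts (F ++ G) = lefts F ++ lefts G := by
  simp [lefts, List.filterMap_append]

theorem rem_rights_append {A B : Type} (F G : List (A ⊕ B)) :
    rights (F ++ G) = rights F ++ rights G := by
  simp [rights, List.filterMap_append]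

theorem rem_length {A B : Type} (F : List (A ⊕ B)) :
    (lefts F).length + (rights F).length = F.length := by
  induction F with
  | nil => simp [lefts, rights]
  | cons a F ih =>
    cases a with
    | inl a =>
      simp only [lefts, rights, List.filterMap_cons, Sum.getLeft?_inl, Sum.getRight?_inl,
        List.length_cons] at ih ⊢
      omega
    | inr b =>
      simp only [lefts, rights, List.filterMap_cons, Sum.getLeft?_inr, Sum.getRight?_inr,
        List.length_cons] at ih ⊢
      omega

theorem rem_mem_lefts {A B : Type} (F : List (A ⊕ B)) (a : A) : a ∈ lefts F ↔ Sum.inl a ∈ F := by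
  simp only [lefts, List.mem_filterMap]
  constructor
  · rintro ⟨x, hx, h⟩
    cases x with
    | inl y => simp at h; exact h ▸ hx
    | inr y => simp at h
  · intro h; exact ⟨_, h, rfl⟩

theorem rem_mem_rights {A B : Type} (F : List (A ⊕ B)) (b : B) :
    b ∈ rights F ↔ Sum.inr b ∈ F := by
  simp only [rights, List.mem_filterMap]
  constructor
  · rintro ⟨x, hx, h⟩
    cases x with
    | inl y => simp at h
    | inr y => simp at h; exact h ▸ hx
  · intro h; exact ⟨_, h, rfl⟩

theorem rem_split {α A B : Type} (dec : α → A ⊕ B) (F : List α) (m : ℕ) :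
    lefts (F.map dec) = lefts ((F.take m).map dec) ++ lefts ((F.drop m).map dec) ∧
    rights (F.map dec) = rights ((F.take m).map dec) ++ rights ((F.drop m).map dec) := by
  rw [← rem_lefts_append, ← rem_rights_append, ← List.map_append, List.take_append_drop]
  exact ⟨rfl, rfl⟩

section point
variable {k n : ℕ} {x : Fin (n + 1)}
  {dk : Clause k (n + 1) → Clause k n ⊕ Clause 2 n}
  {d2 : Clause 2 (n + 1) → Clause 2 n ⊕ Clause 1 n}

theorem rem_up
    (hk1 : ∀ c c', dk c = Sum.inl c' → ∀ σ : Asg (n + 1),
        ClauseSat σ c ↔ ClauseSat (fun i => σ (x.succAbove i)) c')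
    (h21 : ∀ c c', d2 c = Sum.inl c' → ∀ σ : Asg (n + 1),
        ClauseSat σ c ↔ ClauseSat (fun i => σ (x.succAbove i)) c')
    {L L' : ℕ} (hL : L' ≤ L) (Φ : List (Clause 2 (n + 1))) (F : List (Clause k (n + 1)))
    (hF : F.length = L) (G' : List (Clause k n)) (hG' : G'.length = (rights (F.map dk)).length) :
    hit (solL Φ) F ≤ hit (solL (lefts (Φ.map d2))) ((lefts (F.map dk) ++ G').take L') +
      (rights (F.map dk)).length + (L - L') := by
  by_contra hcon
  push Not at hcon
  have hlen := rem_length (F.map dk)
  rw [List.length_map, hF] at hlen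
  generalize ha : hit (solL (lefts (Φ.map d2))) ((lefts (F.map dk) ++ G').take L') = a at hcon
  obtain ⟨hm, σ, hσΦ, hσF⟩ := (lt_hit_iff _ _ _).1 hcon
  generalize hmm : a + (rights (F.map dk)).length + (L - L') = m at hm hσF
  have hlt : a < hit (solL (lefts (Φ.map d2))) ((lefts (F.map dk) ++ G').take L') := by
    rw [lt_hit_iff]
    refine ⟨by simp only [List.length_take, List.length_append]; omega,
      fun i => σ (x.succAbove i), ?_, ?_⟩
    · intro c' hc'
      rw [rem_mem_lefts, List.mem_map] at hc'
      obtain ⟨c, hc, hcc⟩ := hc'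
      exact (h21 c c' hcc σ).1 (hσΦ c hc)
    · intro c' hc'
      obtain ⟨h1, h2⟩ := rem_split dk F m
      have hlen2 := rem_length ((F.take m).map dk)
      have h2' := congrArg List.length h2
      rw [List.length_map, List.length_take] at hlen2
      rw [List.length_append] at h2'
      have hale : a ≤ (lefts ((F.take m).map dk)).length := by omega
      rw [List.take_take, h1, List.append_assoc,
        List.take_append_of_le_length (le_trans (min_le_left _ _) hale)] at hc'
      have hc2 := List.mem_of_mem_take hc'
      rw [rem_mem_lefts, List.mem_map] at hc2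
      obtain ⟨c, hc, hcc⟩ := hc2
      exact (hk1 c c' hcc σ).1 (hσF c hc)
  omega

theorem rem_low
    (hk1 : ∀ c c', dk c = Sum.inl c' → ∀ σ : Asg (n + 1),
        ClauseSat σ c ↔ ClauseSat (fun i => σ (x.succAbove i)) c')
    (hk2 : ∀ c e, dk c = Sum.inr e → ∀ σ : Asg (n + 1),
        ClauseSat (fun i => σ (x.succAbove i)) e → ClauseSat σ c)
    (h21 : ∀ c c', d2 c = Sum.inl c' → ∀ σ : Asg (n + 1),
        ClauseSat σ c ↔ ClauseSat (fun i => σ (x.succAbove i)) c')
    (h22 : ∀ c e, d2 c = Sum.inr e → ∀ σ : Asg (n + 1),
        ClauseSat (fun i => σ (x.succAbove i)) e → ClauseSat σ c)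
    (C : Clause 1 (n + 1)) (hx : x = C.1.1 0)
    (L' : ℕ) (Φ : List (Clause 2 (n + 1))) (F : List (Clause k (n + 1)))
    (G' : List (Clause k n)) (hG' : G'.length = (rights (F.map dk)).length) :
    hit (solL (lefts (Φ.map d2)) ∩ solL (rights (F.map dk)) ∩ solL (rights (Φ.map d2)))
      ((lefts (F.map dk) ++ G').take L') ≤ hit (solL Φ ∩ sol C) F := by
  by_contra hcon
  push Not at hcon
  have hlen := rem_length (F.map dk)
  rw [List.length_map] at hlen
  generalize hmm : hit (solL Φ ∩ sol C) F = m at hcon
  obtain ⟨hm, σ', ⟨⟨h0, hX⟩, hU⟩, hG⟩ := (lt_hit_iff _ _ _).1 hcon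
  simp only [List.length_take, List.length_append] at hm
  let σ : Asg (n + 1) := Fin.insertNth (α := fun _ => Bool) x (C.2 0) σ'
  have hσ : (fun i => σ (x.succAbove i)) = σ' := by
    funext i; simp [σ]
  have hlt : m < hit (solL Φ ∩ sol C) F := by
    rw [lt_hit_iff]
    refine ⟨by omega, σ, ⟨?_, ?_⟩, ?_⟩
    · intro c hc
      cases hcc : d2 c with
      | inl c' =>
        refine (h21 c c' hcc σ).2 ?_
        rw [hσ]
        exact h0 c' ((rem_mem_lefts _ _).2 (List.mem_map.2 ⟨c, hc, hcc⟩))
      | inr e =>
        refine h22 c e hcc σ ?_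
        rw [hσ]
        exact hU e ((rem_mem_rights _ _).2 (List.mem_map.2 ⟨c, hc, hcc⟩))
    · refine ⟨0, ?_⟩
      rw [← hx]; simp [σ]
    · intro c hc
      cases hcc : dk c with
      | inl c' =>
        refine (hk1 c c' hcc σ).2 ?_
        rw [hσ]
        apply hG c'
        have h1 := (rem_split dk F m).1
        have hlen2 := rem_length ((F.take m).map dk)
        rw [List.length_map, List.length_take] at hlen2
        have hmem : c' ∈ lefts ((F.take m).map dk) :=
          (rem_mem_lefts _ _).2 (List.mem_map.2 ⟨c, hc, hcc⟩)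
        rw [List.take_take, h1, List.append_assoc, List.take_append,
          List.take_of_length_le (by omega)]
        exact List.mem_append_left _ hmem
      | inr e =>
        refine hk2 c e hcc σ ?_
        rw [hσ]
        exact hX e ((rem_mem_rights _ _).2
          (List.mem_map.2 ⟨c, List.mem_of_mem_take hc, hcc⟩))
  omega

end point

end Crest.Agent.R153
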