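import Crest.Agent.R153.Dec
import Crest.Agent.R153.Basic
import Crest.Agent.R153.RemovalAux

/-! Row 153, module F: coupling with the system without the variable of the unit clause. -/

set_option autoImplicit false

namespace Crest.Agent.R153

open Finset Crest.ProbabilityR.RandomSAT Crest.Agent.R141

theorem removal {k n L L' s : ℕ} (hk : 3 ≤ k) (hkn : k ≤ n) (hL : L' ≤ L) (φ : ℕ → ℕ → ℝ)
    (Ψ : ℕ → ℕ → ℕ → ℕ → ℝ)
    (h : ∀ A B a b z u, A ≤ a + z + (L - L') → b ≤ B → B ≤ A → b ≤ a → φ A B ≤ Ψ a b z u) :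
    EL s (fun Φ : List (Clause 2 (n + 1)) => avg (fun C : Clause 1 (n + 1) =>
        EL L (fun F : List (Clause k (n + 1)) => φ (hit (solL Φ) F) (hit (solL Φ ∩ sol C) F)))) ≤
      ∑ z ∈ range (L + 1), ∑ u ∈ range (s + 1),
        bin L ((k : ℝ) / (n + 1)) z * bin s (2 / (n + 1)) u *
          EL (s - u) (fun Φ₀ : List (Clause 2 n) => EL z (fun X : List (Clause 2 n) =>
            EL u (fun U : List (Clause 1 n) => EL L' (fun G : List (Clause k n) =>
              Ψ (hit (solL Φ₀) G) (hit (solL Φ₀ ∩ solL X ∩ solL U) G) z u)))) := by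
  have : Nonempty (Clause 1 (n + 1)) := nonempty_clause (by omega)
  have : Nonempty (Clause k n) := nonempty_clause hkn
  rw [EL_avg_comm]
  refine le_trans (avg_mono fun C => ?_) (le_of_eq (avg_const _))
  obtain ⟨dk, hk1, hk2, hk3⟩ := exists_dec (k := k) (j := 2) (n := n) (by omega) hkn (C.1.1 0)
  obtain ⟨d2, h21, h22, h23⟩ :=
    exists_dec (k := 2) (j := 1) (n := n) (by omega) (by omega) (C.1.1 0)
  let Θ : List (Clause 2 n) → List (Clause 1 n) → List (Clause k n) → List (Clause 2 n) → ℝ :=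
    fun Φ₀ U G₀ X => EL X.length (fun G' : List (Clause k n) =>
      Ψ (hit (solL Φ₀) ((G₀ ++ G').take L'))
        (hit (solL Φ₀ ∩ solL X ∩ solL U) ((G₀ ++ G').take L')) X.length U.length)
  have step1 : EL s (fun Φ : List (Clause 2 (n + 1)) =>
        EL L (fun F : List (Clause k (n + 1)) => φ (hit (solL Φ) F) (hit (solL Φ ∩ sol C) F))) ≤
      EL s (fun Φ : List (Clause 2 (n + 1)) => EL L (fun F : List (Clause k (n + 1)) =>
        Θ (lefts (Φ.map d2)) (rights (Φ.map d2)) (lefts (F.map dk)) (rights (F.map dk)))) := by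
    refine EL_mono fun Φ _ => EL_mono fun F hF => ?_
    refine le_trans (le_of_eq (EL_const (α := Clause k n) (rights (F.map dk)).length _).symm)
      (EL_mono fun G' hG' => ?_)
    exact h _ _ _ _ _ _ (rem_up hk1 h21 hL Φ F hF G' hG')
      (rem_low hk1 hk2 h21 h22 C rfl L' Φ F G' hG') (hit_mono Set.inter_subset_left _)
      (hit_mono (Set.inter_subset_left.trans Set.inter_subset_left) _)
  refine step1.trans (le_of_eq ?_)
  have step2 : ∀ (Φ₀ : List (Clause 2 n)) (U : List (Clause 1 n)),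
      EL L (fun F : List (Clause k (n + 1)) => Θ Φ₀ U (lefts (F.map dk)) (rights (F.map dk))) =
      ∑ z ∈ range (L + 1), bin L ((k : ℝ) / (n + 1)) z * EL z (fun X : List (Clause 2 n) =>
        EL L' (fun G : List (Clause k n) =>
          Ψ (hit (solL Φ₀) G) (hit (solL Φ₀ ∩ solL X ∩ solL U) G) z U.length)) := by
    intro Φ₀ U
    rw [EL_mixture dk _ hk3 L (Θ Φ₀ U)]
    refine Finset.sum_congr rfl fun z hz => ?_
    have hzL : z ≤ L := Nat.lt_succ_iff.1 (Finset.mem_range.1 hz)
    congr 1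
    rw [EL_comm]
    refine EL_congr fun X hX => ?_
    simp only [Θ, hX]
    rw [← EL_append (L - z) z (fun G : List (Clause k n) => Ψ (hit (solL Φ₀) (G.take L'))
        (hit (solL Φ₀ ∩ solL X ∩ solL U) (G.take L')) z U.length), Nat.sub_add_cancel hzL]
    exact EL_take hL (fun G : List (Clause k n) => Ψ (hit (solL Φ₀) G)
        (hit (solL Φ₀ ∩ solL X ∩ solL U) G) z U.length)
  simp only [step2]
  rw [EL_mixture d2 _ h23 s (fun Φ₀ U => ∑ z ∈ range (L + 1), bin L ((k : ℝ) / (n + 1)) z *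
      EL z (fun X : List (Clause 2 n) => EL L' (fun G : List (Clause k n) =>
          Ψ (hit (solL Φ₀) G) (hit (solL Φ₀ ∩ solL X ∩ solL U) G) z U.length))),
    Finset.sum_comm]
  refine Finset.sum_congr rfl fun u _ => ?_
  simp only [EL_sum, EL_const_mul, Finset.mul_sum, Nat.cast_ofNat]
  refine Finset.sum_congr rfl fun z _ => ?_
  rw [← mul_assoc, mul_comm (bin s _ u)]
  congr 1
  refine EL_congr fun Φ₀ _ => ?_
  rw [EL_comm]
  refine EL_congr fun X _ => EL_congr fun U hU => ?_
  rw [hU]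

theorem rem_Dsq_nonneg (k : ℕ) (θ : ℝ) (L j n s : ℕ) : 0 ≤ Dsq k θ L j n s :=
  EL_nonneg fun _ _ => avg_nonneg fun _ => EL_nonneg fun _ _ => sq_nonneg _

theorem rem_sq_le {k n : ℕ} {θ : ℝ} (hθ : 1 ≤ θ) {S S' : Set (Asg n)} (hS : S' ⊆ S)
    (G : List (Clause k n)) :
    (gs θ (hit S G) - gs θ (hit S' G)) ^ 2 ≤
      ((G.length : ℝ) + 1) ^ 2 * θ ^ (2 * hit (Set.univ : Set (Asg n)) G) := by
  have h0 : 0 ≤ θ := by linarith
  have h1 := gs_mono h0 (hit_mono hS G)
  have h2 := gs_nonneg h0 (hit S' G)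
  have h3 := gs_le hθ (hit S G)
  have h4 : (hit S G : ℝ) ≤ G.length + 1 := by exact_mod_cast hit_le S G
  have h5 : θ ^ hit S G ≤ θ ^ hit (Set.univ : Set (Asg n)) G :=
    pow_le_pow_right₀ hθ (hit_mono (Set.subset_univ _) G)
  have h6 : gs θ (hit S G) - gs θ (hit S' G) ≤
      ((G.length : ℝ) + 1) * θ ^ hit (Set.univ : Set (Asg n)) G := by
    have := mul_le_mul h4 h5 (by positivity) (by positivity)
    linarith
  rw [mul_comm 2, pow_mul, ← mul_pow]
  exact pow_le_pow_left₀ (by linarith) h6 2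

theorem rem_cs (p q t : ℝ) (ht : 0 < t) :
    (p + q) ^ 2 ≤ (t + 1) * p ^ 2 + (t + 1) / t * q ^ 2 := by
  have h : (t + 1) * p ^ 2 + (t + 1) / t * q ^ 2 - (p + q) ^ 2 = (t * p - q) ^ 2 / t := by
    field_simp; ring
  have : 0 ≤ (t * p - q) ^ 2 / t := by positivity
  linarith

/-- Insert the new clauses one at a time. -/
theorem telescope {k n : ℕ} (hk : 2 ≤ k) (hkn : k ≤ n) {θ : ℝ} (hθ : 1 ≤ θ) (L s z u : ℕ) :
    EL s (fun Φ₀ : List (Clause 2 n) => EL z (fun X : List (Clause 2 n) =>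
        EL u (fun U : List (Clause 1 n) => EL L (fun G : List (Clause k n) =>
          (gs θ (hit (solL Φ₀) G) - gs θ (hit (solL Φ₀ ∩ solL X ∩ solL U) G)) ^ 2)))) ≤
      ((z : ℝ) + 2) * (∑ j ∈ range z, Dsq k θ L 2 n (s + j) +
        (if 1 ≤ u then Dsq k θ L 1 n (s + z) else 0) +
        (if 2 ≤ u then ((L : ℝ) + 1) ^ 2 * Nsq k θ L (Set.univ : Set (Asg n)) else 0)) := by
  have : Nonempty (Clause 1 n) := nonempty_clause (by omega)
  have : Nonempty (Clause 2 n) := nonempty_clause (by omega)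
  have : Nonempty (Clause k n) := nonempty_clause hkn
  induction z generalizing s with
  | zero =>
    simp only [EL_zero, solL_nil, Set.inter_univ, range_zero, sum_empty, Nat.cast_zero, zero_add,
      add_zero]
    have hD := rem_Dsq_nonneg k θ L 1 n s
    have hN := Nsq_nonneg (k := k) (θ := θ) L (Set.univ : Set (Asg n))
    rcases u with _ | _ | u
    · simp only [EL_zero, solL_nil, Set.inter_univ, sub_self]
      simp [EL_const]
    · have : EL s (fun Φ₀ : List (Clause 2 n) => EL (0 + 1) (fun U : List (Clause 1 n) =>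
          EL L (fun G : List (Clause k n) =>
          (gs θ (hit (solL Φ₀) G) - gs θ (hit (solL Φ₀ ∩ solL U) G)) ^ 2))) =
          Dsq k θ L 1 n s := by
        simp only [zero_add, EL_one, solL_cons, solL_nil, Set.inter_univ]
        rfl
      rw [this]
      simp only [zero_add, le_refl, if_true, show ¬ (2 ≤ 1) by omega, if_false]
      linarith
    · have : EL s (fun Φ₀ : List (Clause 2 n) => EL (u + 1 + 1) (fun U : List (Clause 1 n) =>
          EL L (fun G : List (Clause k n) =>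
          (gs θ (hit (solL Φ₀) G) - gs θ (hit (solL Φ₀ ∩ solL U) G)) ^ 2))) ≤
          ((L : ℝ) + 1) ^ 2 * Nsq k θ L (Set.univ : Set (Asg n)) := by
        refine le_trans (EL_mono fun Φ₀ _ => ?_) (le_of_eq (EL_const s _))
        refine le_trans (EL_mono fun U _ => ?_) (le_of_eq (EL_const (u + 1 + 1) _))
        rw [Nsq, ← EL_const_mul]
        refine EL_mono fun G hG => ?_
        rw [← hG]
        exact rem_sq_le hθ Set.inter_subset_left G
      refine this.trans ?_
      simp only [show 1 ≤ u + 1 + 1 by omega, show 2 ≤ u + 1 + 1 by omega, if_true]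
      have : 0 ≤ ((L : ℝ) + 1) ^ 2 * Nsq k θ L (Set.univ : Set (Asg n)) := by positivity
      linarith
  | succ z ih =>
    have ih' := ih (s + 1)
    have hz : (0 : ℝ) < (z : ℝ) + 2 := by positivity
    rw [EL_append s 1] at ih'
    have key : EL s (fun Φ₀ : List (Clause 2 n) => EL (z + 1) (fun X : List (Clause 2 n) =>
        EL u (fun U : List (Clause 1 n) => EL L (fun G : List (Clause k n) =>
          (gs θ (hit (solL Φ₀) G) - gs θ (hit (solL Φ₀ ∩ solL X ∩ solL U) G)) ^ 2)))) ≤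
        ((z : ℝ) + 2 + 1) * Dsq k θ L 2 n s + ((z : ℝ) + 2 + 1) / ((z : ℝ) + 2) *
        EL s (fun F : List (Clause 2 n) => EL 1 (fun F' : List (Clause 2 n) =>
          EL z (fun X : List (Clause 2 n) =>
        EL u (fun U : List (Clause 1 n) => EL L (fun G : List (Clause k n) =>
          (gs θ (hit (solL (F ++ F')) G) -
            gs θ (hit (solL (F ++ F') ∩ solL X ∩ solL U) G)) ^ 2))))) := by
      rw [Dsq, ← EL_const_mul, ← EL_const_mul, ← EL_add]
      refine EL_mono fun Φ₀ _ => ?_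
      rw [EL_succ, EL_one, Asq, ← avg_const_mul, ← avg_const_mul, ← avg_add]
      refine avg_mono fun x => ?_
      rw [← EL_const_mul z, ← EL_const (α := Clause 2 n) z (((z : ℝ) + 2 + 1) * EL L _),
        ← EL_add]
      refine EL_mono fun X _ => ?_
      rw [← EL_const_mul u, ← EL_const (α := Clause 1 n) u (((z : ℝ) + 2 + 1) * EL L _),
        ← EL_add]
      refine EL_mono fun U _ => ?_
      rw [← EL_const_mul, ← EL_const_mul, ← EL_add]
      refine EL_mono fun G _ => ?_
      rw [solL_append, solL_cons, solL_cons, solL_nil, Set.inter_univ, ← Set.inter_assoc]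
      have := rem_cs (gs θ (hit (solL Φ₀) G) - gs θ (hit (solL Φ₀ ∩ sol x) G))
        (gs θ (hit (solL Φ₀ ∩ sol x) G) - gs θ (hit (solL Φ₀ ∩ sol x ∩ solL X ∩ solL U) G)) _ hz
      rw [sub_add_sub_cancel] at this
      exact this
    refine key.trans ?_
    have h2 := mul_le_mul_of_nonneg_left ih'
      (show 0 ≤ ((z : ℝ) + 2 + 1) / ((z : ℝ) + 2) by positivity)
    rw [← mul_assoc, div_mul_cancel₀ _ hz.ne'] at h2
    rw [Finset.sum_range_succ']
    simp only [add_zero, Nat.cast_add, Nat.cast_one]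
    have e1 : ∑ j ∈ range z, Dsq k θ L 2 n (s + (j + 1)) =
        ∑ j ∈ range z, Dsq k θ L 2 n (s + 1 + j) :=
      Finset.sum_congr rfl fun j _ => by rw [Nat.add_right_comm, Nat.add_assoc]
    rw [e1, show s + (z + 1) = s + 1 + z by omega]
    have e2 : (z : ℝ) + 1 + 2 = z + 2 + 1 := by ring
    rw [e2]
    linarith

end Crest.Agent.R153
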