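import Crest.Agent.R153.Key
import Crest.Agent.R153.Removal

/-! Row 153, module G: the delay caused by one extra clause is bounded in `L²`. -/

set_option autoImplicit false

namespace Crest.Agent.R153

open Finset Crest.ProbabilityR.RandomSAT Crest.Agent.R141

/-- The iterated average appearing in `removal`. -/
noncomputable def dlNest (k n L s z u : ℕ) (Ψ : ℕ → ℕ → ℝ) : ℝ :=
  EL s (fun Φ₀ : List (Clause 2 n) => EL z (fun X : List (Clause 2 n) =>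
    EL u (fun U : List (Clause 1 n) => EL L (fun G : List (Clause k n) =>
      Ψ (hit (solL Φ₀) G) (hit (solL Φ₀ ∩ solL X ∩ solL U) G)))))

theorem dlNest_lin (k n L s z u : ℕ) (c₁ c₂ : ℝ) (Ψ₁ Ψ₂ : ℕ → ℕ → ℝ) :
    dlNest k n L s z u (fun a b => c₁ * Ψ₁ a b + c₂ * Ψ₂ a b) =
      c₁ * dlNest k n L s z u Ψ₁ + c₂ * dlNest k n L s z u Ψ₂ := by
  simp only [dlNest, EL_add, EL_const_mul]

theorem dlNest_pow {k n : ℕ} (hn : 2 ≤ n) (θ : ℝ) (L s z u : ℕ) :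
    dlNest k n L s z u (fun a _ => θ ^ (2 * a)) =
      EL s (fun Φ₀ : List (Clause 2 n) => Nsq k θ L (solL Φ₀)) := by
  have := nonempty_clause hn
  have := nonempty_clause (show 1 ≤ n by omega)
  simp only [dlNest, EL_const, Nsq]

theorem dl_EL_Nsq_le {k n : ℕ} (hn : 2 ≤ n) {θ : ℝ} (hθ : 1 ≤ θ) (L s : ℕ) :
    EL s (fun Φ₀ : List (Clause 2 n) => Nsq k θ L (solL Φ₀)) ≤
      Nsq k θ L (Set.univ : Set (Asg n)) := by
  have := nonempty_clause hn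
  exact (EL_mono (fun Φ _ => Nsq_mono hθ L (Set.subset_univ _))).trans (EL_const _ _).le

theorem dl_Dsq_triv {k n : ℕ} (hn : 2 ≤ n) {θ : ℝ} (hθ : 1 ≤ θ) (L j s : ℕ) :
    Dsq k θ L j n s ≤ ((L : ℝ) + 1) ^ 2 * Nsq k θ L (Set.univ : Set (Asg n)) := by
  refine (EL_mono (fun Φ _ => Asq_le_triv hθ L j (solL Φ))).trans ?_
  rw [EL_const_mul]
  exact mul_le_mul_of_nonneg_left (dl_EL_Nsq_le hn hθ L s) (by positivity)

theorem dl_one_add_le (z : ℕ) : 1 + (z : ℝ) ≤ 2 ^ z := by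
  have := one_add_mul_le_pow (show (-2 : ℝ) ≤ 1 by norm_num) z
  norm_num at this
  exact this

theorem dl_pow_four_le (z : ℕ) : (1 + (z : ℝ)) ^ 4 ≤ 16 ^ z := by
  have h := pow_le_pow_left₀ (by positivity) (dl_one_add_le z) 4
  rwa [← pow_mul, mul_comm z 4, pow_mul, show (2 : ℝ) ^ 4 = 16 by norm_num] at h

/-- The telescoped bound under the induction hypothesis. -/
theorem dl_tel {k n : ℕ} (hk : 2 ≤ k) (hkn : k ≤ n) {θ ε B Ce : ℝ} (hθ : 1 ≤ θ) (hε : 0 ≤ ε)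
    (hB : 0 ≤ B) (hCe : 0 ≤ Ce) {L : ℕ}
    (H1 : ∀ s, Dsq k θ L 1 n s ≤ B * (1 + (s : ℝ)) ^ 2 * Nsq k θ L (Set.univ : Set (Asg n)))
    (H2 : ∀ s, Dsq k θ L 2 n s ≤ ε * Dsq k θ L 1 n s + Ce * Nsq k θ L (Set.univ : Set (Asg n)))
    {s' s : ℕ} (hs : s' ≤ s) (z u : ℕ) :
    dlNest k n L s' z u (fun a b => (gs θ a - gs θ b) ^ 2) ≤
      2 * 16 ^ z * (ε * B * (1 + (s : ℝ)) ^ 2 + Ce +
        B * (1 + (s : ℝ)) ^ 2 * (if 1 ≤ u then 1 else 0) +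
        ((L : ℝ) + 1) ^ 2 * (if 2 ≤ u then 1 else 0)) * Nsq k θ L (Set.univ : Set (Asg n)) := by
  refine (telescope hk hkn hθ L s' z u).trans ?_
  set N := Nsq k θ L (Set.univ : Set (Asg n)) with hN
  have hN0 : 0 ≤ N := Nsq_nonneg _ _
  set y : ℝ := 1 + z with hy
  have hz0 : (0 : ℝ) ≤ z := Nat.cast_nonneg z
  have hy1 : 1 ≤ y := by linarith
  set P : ℝ := B * (1 + (s : ℝ)) ^ 2 with hP
  have hP0 : 0 ≤ P := by positivity
  have hD1 : ∀ j, j ≤ z → Dsq k θ L 1 n (s' + j) ≤ P * y ^ 2 * N := by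
    intro j hj
    refine (H1 _).trans (mul_le_mul_of_nonneg_right ?_ hN0)
    rw [hP, mul_assoc, ← mul_pow]
    refine mul_le_mul_of_nonneg_left (pow_le_pow_left₀ (by positivity) ?_ 2) hB
    have h1 : (s' : ℝ) ≤ s := by exact_mod_cast hs
    have h2 : (j : ℝ) ≤ z := by exact_mod_cast hj
    have h3 : (0 : ℝ) ≤ s := Nat.cast_nonneg s
    push_cast
    nlinarith [mul_nonneg h3 hz0]
  have hsum : ∑ j ∈ range z, Dsq k θ L 2 n (s' + j) ≤ z * ((ε * (P * y ^ 2) + Ce) * N) := by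
    have : ∀ j ∈ range z, Dsq k θ L 2 n (s' + j) ≤ (ε * (P * y ^ 2) + Ce) * N := by
      intro j hj
      have h1 := mul_le_mul_of_nonneg_left (hD1 j (mem_range.1 hj).le) hε
      have h2 := H2 (s' + j)
      linarith
    simpa using sum_le_card_nsmul _ _ _ this
  have hy2 : y ^ 2 ≤ y ^ 3 := pow_le_pow_right₀ hy1 (by norm_num)
  have hy3 : 1 ≤ y ^ 3 := one_le_pow₀ hy1
  have hy4 : y ≤ y ^ 3 := le_self_pow₀ hy1 (by norm_num)
  have b1 : (z : ℝ) * ((ε * (P * y ^ 2) + Ce) * N) ≤ y ^ 3 * ((ε * P + Ce) * N) := by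
    have h1 : (z : ℝ) * (ε * (P * y ^ 2) + Ce) ≤ y ^ 3 * (ε * P + Ce) := by
      have h2 : (z : ℝ) * (ε * (P * y ^ 2) + Ce) ≤ y * (ε * (P * y ^ 2) + Ce) :=
        mul_le_mul_of_nonneg_right (by linarith) (by positivity)
      have h3 : y * Ce ≤ y ^ 3 * Ce := mul_le_mul_of_nonneg_right hy4 hCe
      nlinarith
    calc _ = (z : ℝ) * (ε * (P * y ^ 2) + Ce) * N := by ring
      _ ≤ y ^ 3 * (ε * P + Ce) * N := mul_le_mul_of_nonneg_right h1 hN0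
      _ = _ := by ring
  have b2 : (if 1 ≤ u then Dsq k θ L 1 n (s' + z) else 0) ≤
      y ^ 3 * (P * (if 1 ≤ u then 1 else 0) * N) := by
    split_ifs
    · refine (hD1 z le_rfl).trans ?_
      have := mul_le_mul_of_nonneg_left hy2 (mul_nonneg hP0 hN0)
      nlinarith
    · simp
  have b3 : (if 2 ≤ u then ((L : ℝ) + 1) ^ 2 * N else 0) ≤
      y ^ 3 * (((L : ℝ) + 1) ^ 2 * (if 2 ≤ u then 1 else 0) * N) := by
    split_ifs
    · rw [mul_one]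
      exact le_mul_of_one_le_left (by positivity) hy3
    · simp
  set Q : ℝ := (ε * P + Ce + P * (if 1 ≤ u then 1 else 0) +
        ((L : ℝ) + 1) ^ 2 * (if 2 ≤ u then 1 else 0)) * N with hQ
  have hQ0 : 0 ≤ Q := by
    refine mul_nonneg ?_ hN0
    have : (0 : ℝ) ≤ (if 1 ≤ u then 1 else 0) := by split_ifs <;> norm_num
    have : (0 : ℝ) ≤ (if 2 ≤ u then 1 else 0) := by split_ifs <;> norm_num
    positivity
  have b4 : ∑ j ∈ range z, Dsq k θ L 2 n (s' + j) + (if 1 ≤ u then Dsq k θ L 1 n (s' + z) else 0) +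
      (if 2 ≤ u then ((L : ℝ) + 1) ^ 2 * N else 0) ≤ y ^ 3 * Q := by
    rw [hQ]; linarith
  have b5 : y ^ 4 ≤ 16 ^ z := dl_pow_four_le z
  calc _ ≤ ((z : ℝ) + 2) * (y ^ 3 * Q) := mul_le_mul_of_nonneg_left b4 (by positivity)
    _ ≤ (2 * y) * (y ^ 3 * Q) := mul_le_mul_of_nonneg_right (by linarith) (by positivity)
    _ = 2 * y ^ 4 * Q := by ring
    _ ≤ 2 * 16 ^ z * Q := by gcongr
    _ = _ := by rw [hQ, hP]; ring

theorem dl_sum_sixteen {k C₀ n : ℕ} (hkn : k ≤ n) :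
    ∑ z ∈ range (C₀ * (n + 1) + 1), bin (C₀ * (n + 1)) ((k : ℝ) / (n + 1)) z * 16 ^ z ≤
      Real.exp (15 * (k * C₀)) := by
  refine (sum_bin_mul_pow_le (by positivity) (by norm_num) _).trans (le_of_eq ?_)
  congr 1
  push_cast
  field_simp
  norm_num

theorem dl_rho_le {k n : ℕ} (hkn : k ≤ n) : (k : ℝ) / (n + 1) ≤ 1 := by
  rw [div_le_one (by positivity)]
  have : (k : ℝ) ≤ n := by exact_mod_cast hkn
  linarith

/-- Comparison of the normalisations. -/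
theorem dl_norm {k n C₀ : ℕ} (hk : 3 ≤ k) (hkn : k ≤ n) {θ ε B Ce : ℝ} (hθ : 1 ≤ θ) (hε : 0 ≤ ε)
    (hB : 0 ≤ B) (hCe : 0 ≤ Ce)
    (H1 : ∀ s, Dsq k θ (C₀ * n) 1 n s ≤
      B * (1 + (s : ℝ)) ^ 2 * Nsq k θ (C₀ * n) (Set.univ : Set (Asg n)))
    (H2 : ∀ s, Dsq k θ (C₀ * n) 2 n s ≤
      ε * Dsq k θ (C₀ * n) 1 n s + Ce * Nsq k θ (C₀ * n) (Set.univ : Set (Asg n)))
    (hsmall : (θ - 1) ^ 2 * (8 * Real.exp (15 * (k * C₀)) * (ε * B + Ce)) ≤ 1) :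
    Nsq k θ (C₀ * n) (Set.univ : Set (Asg n)) ≤
      4 * Nsq k θ (C₀ * (n + 1)) (Set.univ : Set (Asg (n + 1))) := by
  set N := Nsq k θ (C₀ * n) (Set.univ : Set (Asg n)) with hN
  have hN0 : 0 ≤ N := Nsq_nonneg _ _
  have := nonempty_clause (show 1 ≤ n + 1 by omega)
  have key := removal (s := 0) hk hkn (L := C₀ * (n + 1)) (L' := C₀ * n)
    (Nat.mul_le_mul_left _ (Nat.le_succ n)) (fun A _ => -2 * θ ^ (2 * A))
    (fun a b _ _ => 2 * (θ - 1) ^ 2 * (gs θ a - gs θ b) ^ 2 + (-1) * θ ^ (2 * a))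
    (fun A B' a b z u _ h2 h3 _ => by
      have e1 : θ ^ a = θ ^ b + (θ - 1) * (gs θ a - gs θ b) := by
        rw [pow_eq_gs θ a, pow_eq_gs θ b]; ring
      have e2 : θ ^ (2 * b) ≤ θ ^ (2 * A) := pow_le_pow_right₀ hθ (by omega)
      have e3 : θ ^ (2 * a) = (θ ^ b + (θ - 1) * (gs θ a - gs θ b)) ^ 2 := by
        rw [← e1, ← pow_mul, mul_comm]
      have e4 : θ ^ (2 * b) = (θ ^ b) ^ 2 := by rw [← pow_mul, mul_comm]
      nlinarith [sq_nonneg (θ ^ b - (θ - 1) * (gs θ a - gs θ b))])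
  simp only [EL_zero, solL_nil, EL_const_mul, avg_const, zero_add, range_one, sum_singleton,
    Nat.sub_self] at key
  have e0 : bin 0 (2 / ((n : ℝ) + 1)) 0 = 1 := by simp [bin]
  have hb := fun z => bin_nonneg (ρ := (k : ℝ) / (n + 1)) (by positivity) (dl_rho_le hkn)
    (C₀ * (n + 1)) z
  have h2 : ∀ z ∈ range (C₀ * (n + 1) + 1),
      bin (C₀ * (n + 1)) ((k : ℝ) / (n + 1)) z * bin 0 (2 / ((n : ℝ) + 1)) 0 *
        dlNest k n (C₀ * n) 0 z 0 (fun a b =>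
          2 * (θ - 1) ^ 2 * (gs θ a - gs θ b) ^ 2 + (-1) * θ ^ (2 * a)) ≤
      (4 * (θ - 1) ^ 2 * (ε * B + Ce) * N) * (bin (C₀ * (n + 1)) ((k : ℝ) / (n + 1)) z * 16 ^ z) -
        N * bin (C₀ * (n + 1)) ((k : ℝ) / (n + 1)) z := by
    intro z _
    rw [e0, mul_one, dlNest_lin, dlNest_pow (by omega), EL_zero, solL_nil, ← hN]
    have h3 := dl_tel (by omega) hkn hθ hε hB hCe H1 H2 (le_refl 0) z 0
    simp only [Nat.cast_zero, add_zero, one_pow, mul_one, nonpos_iff_eq_zero, one_ne_zero, if_false,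
      mul_zero, OfNat.ofNat_ne_zero, ← hN] at h3
    have h4 := mul_le_mul_of_nonneg_left h3 (mul_nonneg (hb z) (show 0 ≤ 2 * (θ - 1) ^ 2 by positivity))
    nlinarith
  have h3 := sum_le_sum h2
  rw [sum_sub_distrib, ← mul_sum, ← mul_sum, sum_bin, mul_one] at h3
  have h4 := mul_le_mul_of_nonneg_left (dl_sum_sixteen (C₀ := C₀) hkn)
    (show 0 ≤ 4 * (θ - 1) ^ 2 * (ε * B + Ce) * N by positivity)
  have h5 : -2 * Nsq k θ (C₀ * (n + 1)) (Set.univ : Set (Asg (n + 1))) ≤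
      4 * (θ - 1) ^ 2 * (ε * B + Ce) * N * Real.exp (15 * (k * C₀)) - N := by
    refine le_trans key (le_trans (le_of_eq ?_) (h3.trans (by linarith)))
    simp only [dlNest, EL_zero, solL_nil]
  have h6 := mul_le_mul_of_nonneg_right hsmall hN0
  nlinarith

/-- The recursive step. -/
theorem dl_step {k n C₀ : ℕ} (hk : 3 ≤ k) (hkn : k ≤ n) {θ ε B Ce : ℝ} (hθ : 1 ≤ θ) (hθ2 : θ ≤ 2)
    (hε : 0 ≤ ε) (hB : 0 ≤ B) (hCe : 0 ≤ Ce)
    (H1 : ∀ s, Dsq k θ (C₀ * n) 1 n s ≤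
      B * (1 + (s : ℝ)) ^ 2 * Nsq k θ (C₀ * n) (Set.univ : Set (Asg n)))
    (H2 : ∀ s, Dsq k θ (C₀ * n) 2 n s ≤
      ε * Dsq k θ (C₀ * n) 1 n s + Ce * Nsq k θ (C₀ * n) (Set.univ : Set (Asg n)))
    {s : ℕ} (hs : (s : ℝ) ≤ ε * (n + 1)) :
    Dsq k θ (C₀ * (n + 1)) 1 (n + 1) s ≤
      Real.exp (15 * (k * C₀)) * (12 * ε * B + 4 * Ce + 16 * ((C₀ : ℝ) + 1) ^ 2 +
        2 * ((C₀ : ℝ) + 1) ^ 2 * 4 ^ C₀) * (1 + (s : ℝ)) ^ 2 *
        Nsq k θ (C₀ * n) (Set.univ : Set (Asg n)) := by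
  set N := Nsq k θ (C₀ * n) (Set.univ : Set (Asg n)) with hN
  have hN0 : 0 ≤ N := Nsq_nonneg _ _
  have hθ0 : 0 ≤ θ := by linarith
  have hLL : C₀ * (n + 1) - C₀ * n = C₀ := by rw [Nat.mul_succ]; omega
  have key := removal (s := s) hk hkn (L := C₀ * (n + 1)) (L' := C₀ * n)
    (Nat.mul_le_mul_left _ (Nat.le_succ n)) (fun A B' => (gs θ A - gs θ B') ^ 2)
    (fun a b z _ => 2 * (gs θ a - gs θ b) ^ 2 +
      (2 * ((C₀ : ℝ) + 1) ^ 2 * 4 ^ C₀ * 16 ^ z) * θ ^ (2 * a))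
    (fun A B' a b z u h1 h2 h3 _ => by
      rw [hLL, add_assoc] at h1
      have e1 := gs_mono hθ0 h1
      have e2 := gs_add_le hθ a (z + C₀)
      have e3 := gs_mono hθ0 h2
      have e4 := gs_mono hθ0 h3
      set w : ℝ := ((z + C₀ : ℕ) : ℝ) * θ ^ (z + C₀) with hw
      have e5 : (gs θ A - gs θ B') ^ 2 ≤ ((gs θ a - gs θ b) + w * θ ^ a) ^ 2 :=
        pow_le_pow_left₀ (by linarith) (by linarith) 2
      have e6 : w ≤ ((C₀ : ℝ) + 1) * 2 ^ C₀ * 4 ^ z := by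
        have f1 : ((z + C₀ : ℕ) : ℝ) ≤ ((C₀ : ℝ) + 1) * 2 ^ z := by
          have := dl_one_add_le z
          have g1 : (0 : ℝ) ≤ z := Nat.cast_nonneg z
          have g2 : (0 : ℝ) ≤ C₀ := Nat.cast_nonneg C₀
          push_cast
          nlinarith
        have f2 : θ ^ (z + C₀) ≤ 2 ^ (z + C₀) := pow_le_pow_left₀ hθ0 hθ2 _
        calc w ≤ (((C₀ : ℝ) + 1) * 2 ^ z) * 2 ^ (z + C₀) := mul_le_mul f1 f2 (by positivity) (by positivity)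
          _ = _ := by rw [pow_add, show (4 : ℝ) = 2 * 2 by norm_num, mul_pow]; ring
      have e7 : w ^ 2 ≤ ((C₀ : ℝ) + 1) ^ 2 * 4 ^ C₀ * 16 ^ z := by
        refine (pow_le_pow_left₀ (by positivity) e6 2).trans (le_of_eq ?_)
        rw [mul_pow, mul_pow, ← pow_mul, ← pow_mul, mul_comm C₀ 2, mul_comm z 2, pow_mul, pow_mul]
        norm_num
      have e8 : θ ^ (2 * a) = (θ ^ a) ^ 2 := by rw [← pow_mul, mul_comm]
      have e9 := mul_le_mul_of_nonneg_right e7 (sq_nonneg (θ ^ a))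
      rw [e8]
      nlinarith [sq_nonneg ((gs θ a - gs θ b) - w * θ ^ a)])
  refine le_trans key ?_
  have hb := fun z => bin_nonneg (ρ := (k : ℝ) / (n + 1)) (by positivity) (dl_rho_le hkn)
    (C₀ * (n + 1)) z
  have hρ2 : (2 : ℝ) / (n + 1) ≤ 1 := by
    have := dl_rho_le (k := 2) (n := n) (by omega)
    exact_mod_cast this
  have hb' := fun u => bin_nonneg (ρ := (2 : ℝ) / (n + 1)) (by positivity) hρ2 s u
  set P : ℝ := B * (1 + (s : ℝ)) ^ 2 with hP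
  have hP0 : 0 ≤ P := by positivity
  set c₀ : ℝ := 4 * (ε * B * (1 + (s : ℝ)) ^ 2 + Ce) + 2 * ((C₀ : ℝ) + 1) ^ 2 * 4 ^ C₀ with hc₀
  set c₂ : ℝ := 4 * ((((C₀ * n : ℕ) : ℝ) + 1) ^ 2) with hc₂
  have h2 : ∀ z ∈ range (C₀ * (n + 1) + 1), ∑ u ∈ range (s + 1),
      bin (C₀ * (n + 1)) ((k : ℝ) / (n + 1)) z * bin s (2 / ((n : ℝ) + 1)) u *
        dlNest k n (C₀ * n) (s - u) z u (fun a b => 2 * (gs θ a - gs θ b) ^ 2 +
          (2 * ((C₀ : ℝ) + 1) ^ 2 * 4 ^ C₀ * 16 ^ z) * θ ^ (2 * a)) ≤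
      ((c₀ + 4 * P * (s * (2 / (n + 1))) + c₂ * (s * (2 / (n + 1))) ^ 2) * N) *
        (bin (C₀ * (n + 1)) ((k : ℝ) / (n + 1)) z * 16 ^ z) := by
    intro z _
    have h3 : ∀ u ∈ range (s + 1),
        bin (C₀ * (n + 1)) ((k : ℝ) / (n + 1)) z * bin s (2 / ((n : ℝ) + 1)) u *
          dlNest k n (C₀ * n) (s - u) z u (fun a b => 2 * (gs θ a - gs θ b) ^ 2 +
            (2 * ((C₀ : ℝ) + 1) ^ 2 * 4 ^ C₀ * 16 ^ z) * θ ^ (2 * a)) ≤
        (N * (bin (C₀ * (n + 1)) ((k : ℝ) / (n + 1)) z * 16 ^ z)) *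
          (c₀ * bin s (2 / ((n : ℝ) + 1)) u +
            4 * P * (bin s (2 / ((n : ℝ) + 1)) u * (if 1 ≤ u then 1 else 0)) +
            c₂ * (bin s (2 / ((n : ℝ) + 1)) u * (if 2 ≤ u then 1 else 0))) := by
      intro u _
      rw [dlNest_lin, dlNest_pow (by omega)]
      have h4 := dl_tel (by omega) hkn hθ hε hB hCe H1 H2 (Nat.sub_le s u) z u
      have h5 := mul_le_mul_of_nonneg_left (dl_EL_Nsq_le (k := k) (show 2 ≤ n by omega) hθ (C₀ * n) (s - u))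
        (show 0 ≤ 2 * ((C₀ : ℝ) + 1) ^ 2 * 4 ^ C₀ * 16 ^ z by positivity)
      rw [← hN] at h4 h5
      refine (mul_le_mul_of_nonneg_left (add_le_add (mul_le_mul_of_nonneg_left h4 zero_le_two) h5)
        (mul_nonneg (hb z) (hb' u))).trans (le_of_eq ?_)
      rw [hc₀, hc₂, hP]
      ring
    refine (sum_le_sum h3).trans ?_
    rw [← mul_sum, sum_add_distrib, sum_add_distrib, ← mul_sum, ← mul_sum, ← mul_sum, sum_bin]
    have h6 := mul_le_mul_of_nonneg_left (sum_bin_one_le (by positivity) hρ2 s)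
      (show 0 ≤ 4 * P by positivity)
    have h7 := mul_le_mul_of_nonneg_left (sum_bin_two_le (by positivity) hρ2 s)
      (show 0 ≤ c₂ by positivity)
    have h8 : 0 ≤ N * (bin (C₀ * (n + 1)) ((k : ℝ) / (n + 1)) z * 16 ^ z) :=
      mul_nonneg hN0 (mul_nonneg (hb z) (by positivity))
    refine (mul_le_mul_of_nonneg_left (add_le_add (add_le_add le_rfl h6) h7) h8).trans (le_of_eq ?_)
    ring
  refine (sum_le_sum h2).trans ?_
  rw [← mul_sum]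
  refine (mul_le_mul_of_nonneg_left (dl_sum_sixteen (C₀ := C₀) hkn) (by positivity)).trans ?_
  have hn1 : (0 : ℝ) < n + 1 := by positivity
  have hs0 : (0 : ℝ) ≤ s := Nat.cast_nonneg s
  have g1 : (s : ℝ) * (2 / (n + 1)) ≤ 2 * ε := by
    rw [mul_div_assoc', div_le_iff₀ hn1]; linarith
  have g2 : c₂ * (s * (2 / (n + 1))) ^ 2 ≤ 16 * ((C₀ : ℝ) + 1) ^ 2 * (1 + (s : ℝ)) ^ 2 := by
    have f1 : (((C₀ * n : ℕ) : ℝ) + 1) * (s * (2 / (n + 1))) ≤ 2 * ((C₀ : ℝ) + 1) * (1 + s) := by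
      have f2 : (((C₀ * n : ℕ) : ℝ) + 1) / (n + 1) ≤ (C₀ : ℝ) + 1 := by
        rw [div_le_iff₀ hn1]
        have g1 : (0 : ℝ) ≤ n := Nat.cast_nonneg n
        have g2 : (0 : ℝ) ≤ C₀ := Nat.cast_nonneg C₀
        push_cast
        nlinarith
      calc _ = 2 * ((((C₀ * n : ℕ) : ℝ) + 1) / (n + 1)) * s := by ring
        _ ≤ 2 * ((C₀ : ℝ) + 1) * (1 + s) := by gcongr; linarith
    have f3 := pow_le_pow_left₀ (by positivity) f1 2
    rw [hc₂]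
    nlinarith
  have g3 : 4 * P * (s * (2 / (n + 1))) ≤ 4 * P * (2 * ε) := by gcongr
  have g4 : 1 ≤ (1 + (s : ℝ)) ^ 2 := one_le_pow₀ (by linarith)
  have g5 : 4 * Ce + 2 * ((C₀ : ℝ) + 1) ^ 2 * 4 ^ C₀ ≤
      (4 * Ce + 2 * ((C₀ : ℝ) + 1) ^ 2 * 4 ^ C₀) * (1 + (s : ℝ)) ^ 2 :=
    le_mul_of_one_le_right (by positivity) g4
  have g6 : c₀ + 4 * P * (s * (2 / (n + 1))) + c₂ * (s * (2 / (n + 1))) ^ 2 ≤
      (12 * ε * B + 4 * Ce + 16 * ((C₀ : ℝ) + 1) ^ 2 + 2 * ((C₀ : ℝ) + 1) ^ 2 * 4 ^ C₀) *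
        (1 + (s : ℝ)) ^ 2 := by
    rw [hc₀]
    rw [hP] at g3 ⊢
    nlinarith
  calc _ ≤ ((12 * ε * B + 4 * Ce + 16 * ((C₀ : ℝ) + 1) ^ 2 + 2 * ((C₀ : ℝ) + 1) ^ 2 * 4 ^ C₀) *
        (1 + (s : ℝ)) ^ 2 * N) * Real.exp (15 * (k * C₀)) := by gcongr
    _ = _ := by ring

theorem delay_aux (k C₀ : ℕ) (hk : 3 ≤ k) : ∃ B θ₀ : ℝ, 0 ≤ B ∧ 1 < θ₀ ∧ θ₀ ≤ 2 ∧
    ∀ θ, 1 ≤ θ → θ ≤ θ₀ → ∀ n, k ≤ n → ∀ s,
      Dsq k θ (C₀ * n) 1 n s ≤ B * (1 + (s : ℝ)) ^ 2 * Nsq k θ (C₀ * n) (Set.univ : Set (Asg n)) := by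
  set K : ℝ := Real.exp (15 * (k * C₀)) with hK
  have hK1 : 1 ≤ K := Real.one_le_exp (by positivity)
  set ε : ℝ := 1 / (96 * K) with hε
  have hε0 : 0 < ε := by positivity
  have hε1 : ε ≤ 1 := by rw [hε, div_le_one (by positivity)]; linarith
  have hεK : 96 * K * ε = 1 := by rw [hε]; field_simp
  set Ce : ℝ := 4 / ((ε / 2) ^ k) ^ 2 with hCe
  have hCe0 : 0 ≤ Ce := by positivity
  set K₂ : ℝ := 4 * Ce + 16 * ((C₀ : ℝ) + 1) ^ 2 + 2 * ((C₀ : ℝ) + 1) ^ 2 * 4 ^ C₀ with hK₂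
  have hK₂0 : 0 ≤ K₂ := by positivity
  set B : ℝ := 8 * K * K₂ + (C₀ * (k / ε + 1) + 1) ^ 2 + (C₀ / ε + 1) ^ 2 with hB
  have hB0 : 0 ≤ B := by positivity
  set τ : ℝ := min 1 (min ((ε / 2) ^ k / 2) (1 / (8 * K * (ε * B + Ce) + 1))) with hτ
  have hτ0 : 0 < τ := by positivity
  have hτ1 : τ ≤ 1 := min_le_left _ _
  have hτ2 : τ ≤ (ε / 2) ^ k / 2 := (min_le_right _ _).trans (min_le_left _ _)
  have hτ3 : τ ≤ 1 / (8 * K * (ε * B + Ce) + 1) := (min_le_right _ _).trans (min_le_right _ _)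
  refine ⟨B, 1 + τ, hB0, by linarith, by linarith, fun θ hθ hθ' n hn => ?_⟩
  have htriv : ∀ n s : ℕ, k ≤ n → ((C₀ * n : ℕ) : ℝ) + 1 ≤ (C₀ * (k / ε + 1) + 1) ∨
      ((C₀ * n : ℕ) : ℝ) + 1 ≤ (C₀ / ε + 1) * (1 + s) →
      Dsq k θ (C₀ * n) 1 n s ≤ B * (1 + (s : ℝ)) ^ 2 * Nsq k θ (C₀ * n) (Set.univ : Set (Asg n)) := by
    intro n s hn h
    refine (dl_Dsq_triv (by omega) hθ _ _ _).trans (mul_le_mul_of_nonneg_right ?_ (Nsq_nonneg _ _))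
    have hs0 : (0 : ℝ) ≤ s := Nat.cast_nonneg s
    have g4 : 1 ≤ (1 + (s : ℝ)) ^ 2 := one_le_pow₀ (by linarith)
    have g5 : 0 ≤ 8 * K * K₂ := by positivity
    rcases h with h | h
    · refine (pow_le_pow_left₀ (by positivity) h 2).trans ?_
      refine le_trans ?_ (le_mul_of_one_le_right hB0 g4)
      rw [hB]
      nlinarith [sq_nonneg ((C₀ : ℝ) / ε + 1)]
    · refine (pow_le_pow_left₀ (by positivity) h 2).trans ?_
      rw [mul_pow]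
      refine mul_le_mul_of_nonneg_right ?_ (by positivity)
      rw [hB]
      nlinarith [sq_nonneg ((C₀ : ℝ) * (k / ε + 1) + 1)]
  have hC0 : (0 : ℝ) ≤ C₀ := Nat.cast_nonneg C₀
  induction n, hn using Nat.le_induction with
  | base =>
    intro s
    refine htriv k s le_rfl (Or.inl ?_)
    have h1 : (k : ℝ) ≤ k / ε := by
      rw [le_div_iff₀ hε0]
      exact mul_le_of_le_one_right (Nat.cast_nonneg k) hε1
    push_cast
    nlinarith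
  | succ n hn ih =>
    intro s
    rcases lt_or_ge (ε * n) k with h1 | h1
    · refine htriv (n + 1) s (by omega) (Or.inl ?_)
      have h2 : (n : ℝ) ≤ k / ε := by
        rw [le_div_iff₀ hε0]; linarith
      push_cast
      nlinarith
    rcases lt_or_ge (ε * (n + 1)) s with h2 | h2
    · refine htriv (n + 1) s (by omega) (Or.inr ?_)
      have h3 : (n : ℝ) + 1 ≤ s / ε := by
        rw [le_div_iff₀ hε0]; linarith
      have hs0 : (0 : ℝ) ≤ s := Nat.cast_nonneg s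
      have h4 : (C₀ : ℝ) * (n + 1) ≤ C₀ * (s / ε) := mul_le_mul_of_nonneg_left h3 hC0
      have h5 : (C₀ / ε + 1) * (1 + (s : ℝ)) = C₀ * (s / ε) + 1 + (C₀ / ε + s) := by ring
      have h6 : 0 ≤ (C₀ : ℝ) / ε := by positivity
      push_cast
      linarith
    have H2 : ∀ s, Dsq k θ (C₀ * n) 2 n s ≤
        ε * Dsq k θ (C₀ * n) 1 n s + Ce * Nsq k θ (C₀ * n) (Set.univ : Set (Asg n)) := by
      intro s
      refine (EL_mono (fun Φ _ => Asq_two_le hn hε0 hε1 h1 hθ (by linarith) (C₀ * n) (solL Φ))).trans ?_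
      rw [EL_add, EL_const_mul, EL_const_mul]
      exact add_le_add le_rfl (mul_le_mul_of_nonneg_left (dl_EL_Nsq_le (by omega) hθ _ _) hCe0)
    have h3 := dl_step hk hn hθ (by linarith) hε0.le hB0 hCe0 ih H2 h2
    have h4 := dl_norm hk hn hθ hε0.le hB0 hCe0 ih H2 (by
      have f1 : (θ - 1) ^ 2 ≤ τ := by nlinarith
      have f2 : τ * (8 * K * (ε * B + Ce) + 1) ≤ 1 := by
        rwa [le_div_iff₀ (by positivity)] at hτ3
      have f3 : (θ - 1) ^ 2 * (8 * K * (ε * B + Ce)) ≤ τ * (8 * K * (ε * B + Ce)) :=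
        mul_le_mul_of_nonneg_right f1 (by positivity)
      nlinarith)
    refine h3.trans ((mul_le_mul_of_nonneg_left h4 (by positivity)).trans ?_)
    rw [← mul_assoc]
    refine mul_le_mul_of_nonneg_right ?_ (Nsq_nonneg _ _)
    have h5 : K * (12 * ε * B + 4 * Ce + 16 * ((C₀ : ℝ) + 1) ^ 2 + 2 * ((C₀ : ℝ) + 1) ^ 2 * 4 ^ C₀) * 4 ≤
        B := by
      have e1 : K * (12 * ε * B + 4 * Ce + 16 * ((C₀ : ℝ) + 1) ^ 2 + 2 * ((C₀ : ℝ) + 1) ^ 2 * 4 ^ C₀) * 4 =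
          (96 * K * ε) * B / 2 + 4 * K * K₂ := by rw [hK₂]; ring
      have e2 : 8 * K * K₂ ≤ B := by
        rw [hB]
        nlinarith [sq_nonneg ((C₀ : ℝ) * (k / ε + 1) + 1), sq_nonneg ((C₀ : ℝ) / ε + 1)]
      rw [e1, hεK]
      linarith
    calc _ = K * (12 * ε * B + 4 * Ce + 16 * ((C₀ : ℝ) + 1) ^ 2 + 2 * ((C₀ : ℝ) + 1) ^ 2 * 4 ^ C₀) * 4 *
          (1 + (s : ℝ)) ^ 2 := by ring
      _ ≤ _ := mul_le_mul_of_nonneg_right h5 (by positivity)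

theorem delay (k C₀ : ℕ) (hk : 3 ≤ k) : ∃ B θ₀ : ℝ, 0 ≤ B ∧ 1 < θ₀ ∧ θ₀ ≤ 2 ∧
    ∀ θ, 1 ≤ θ → θ ≤ θ₀ → ∀ n, k ≤ n →
      Asq k θ (C₀ * n) k (Set.univ : Set (Asg n)) ≤
        B * Nsq k θ (C₀ * n) (Set.univ : Set (Asg n)) := by
  obtain ⟨B, θ₀, h1, h2, h3, h4⟩ := delay_aux k C₀ hk
  refine ⟨B, θ₀, h1, h2, h3, fun θ h5 h6 n hn => ?_⟩
  have := h4 θ h5 h6 n hn 0
  simp only [Dsq, EL_zero, solL_nil, Nat.cast_zero, add_zero, one_pow, mul_one] at this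
  exact (Asq_le_Asq_one hn (by omega) h5 _ _).trans this

end Crest.Agent.R153
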