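import Crest.Agent.R153.Model
import Crest.Agent.R153.Conc

/-! Row 153, module N: the sign of the pressure on the two sides of the threshold. -/

set_option autoImplicit false

namespace Crest.Agent.R153

open Finset MeasureTheory Crest.ProbabilityR.RandomSAT Crest.ProbabilityR.Diluted Crest.Agent.R141

namespace Energy

/-! ### Replacement of a uniform sample by a uniform sample of a subset -/

section Lindeberg
variable {A B : Type} [Fintype A] [Fintype B]

theorem abs_avg_le_of_le [Nonempty B] {f : B → ℝ} {c : ℝ} (h : ∀ i, |f i| ≤ c) : |avg f| ≤ c :=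
  (abs_avg_le f).trans ((avg_mono h).trans (avg_const c).le)

theorem replace_one [Nonempty B] (e : B → A) (he : Function.Injective e) {β r : ℝ} (hβ : 0 ≤ β)
    (hr : 1 - (Fintype.card B : ℝ) / Fintype.card A ≤ r) (ψ : A → ℝ)
    (hψ : ∀ a a', |ψ a - ψ a'| ≤ β) : |avg ψ - avg (fun x => ψ (e x))| ≤ r * β := by
  classical
  have : Nonempty A := ⟨e (Classical.arbitrary B)⟩
  have hA : (0 : ℝ) < Fintype.card A := by exact_mod_cast Fintype.card_pos
  have hB : (0 : ℝ) < Fintype.card B := by exact_mod_cast Fintype.card_pos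
  set μ := avg (fun x => ψ (e x)) with hμ
  have h1 : ∀ a, |ψ a - μ| ≤ β := fun a => by
    rw [hμ, ← avg_const (I := B) (ψ a), ← avg_sub]
    exact abs_avg_le_of_le fun x => hψ _ _
  have h2 : ∑ a ∈ univ.image e, (ψ a - μ) = 0 := by
    rw [sum_image fun x _ y _ h => he h, sum_sub_distrib, sum_const, card_univ, nsmul_eq_mul, hμ,
      avg]
    field_simp
    ring
  have h3 : avg ψ - μ = (Fintype.card A : ℝ)⁻¹ * ∑ a ∈ (univ.image e)ᶜ, (ψ a - μ) := by
    rw [← avg_const (I := A) μ, ← avg_sub, avg_const, avg, ← sum_add_sum_compl (univ.image e), h2,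
      zero_add]
  have h4 : |∑ a ∈ (univ.image e)ᶜ, (ψ a - μ)| ≤ (Fintype.card A - Fintype.card B : ℝ) * β := by
    refine (abs_sum_le_sum_abs _ _).trans ((sum_le_sum fun a _ => h1 a).trans (le_of_eq ?_))
    rw [sum_const, nsmul_eq_mul, card_compl, card_image_of_injective _ he, card_univ,
      Nat.cast_sub (Fintype.card_le_of_injective e he)]
  rw [h3, abs_mul, abs_of_pos (inv_pos.2 hA)]
  refine (mul_le_mul_of_nonneg_left h4 (inv_pos.2 hA).le).trans ?_
  rw [← mul_assoc]
  refine mul_le_mul_of_nonneg_right (le_trans (le_of_eq ?_) hr) hβ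
  field_simp

theorem replace_list [Nonempty B] (e : B → A) (he : Function.Injective e) {β r : ℝ} (hβ : 0 ≤ β)
    (hr : 1 - (Fintype.card B : ℝ) / Fintype.card A ≤ r) (M : ℕ) : ∀ φ : List A → ℝ,
    (∀ F G a a', |φ (F ++ a :: G) - φ (F ++ a' :: G)| ≤ β) →
      |EL M φ - EL M (fun G : List B => φ (G.map e))| ≤ M * r * β := by
  have : Nonempty A := ⟨e (Classical.arbitrary B)⟩
  induction M with
  | zero => intro φ _; simp [EL_zero]
  | succ M ih =>
    intro φ hφ
    rw [EL_succ, EL_succ]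
    simp only [List.map_cons]
    have h1 : |avg (fun a => EL M (fun F => φ (a :: F))) -
        avg (fun a => EL M (fun G : List B => φ (a :: G.map e)))| ≤ M * r * β := by
      rw [← avg_sub]
      exact abs_avg_le_of_le fun a => ih (fun F => φ (a :: F)) fun F G x y => hφ (a :: F) G x y
    have h2 := replace_one e he hβ hr (fun a => EL M (fun G : List B => φ (a :: G.map e))) (by
      intro a a'
      rw [← EL_sub, EL]
      exact abs_avg_le_of_le fun G => hφ [] _ a a')
    have h3 := abs_sub_le (avg (fun a => EL M (fun F => φ (a :: F))))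
      (avg (fun a => EL M (fun G : List B => φ (a :: G.map e))))
      (avg (fun x => EL M (fun G : List B => φ (e x :: G.map e))))
    push_cast
    linarith

end Lindeberg

/-! ### The partition function -/

/-- The weight of one soft clause. -/
noncomputable def wt (b : ℝ) {N : ℕ} (σ : Fin N → Bool) (c : Raw N) : ℝ :=
  if ∀ l, σ (c.1 l) ≠ c.2 l then 1 - b else 1

section
variable {b : ℝ} {N : ℕ}

theorem wt_ge (h0 : 0 ≤ b) (σ : Fin N → Bool) (c : Raw N) : 1 - b ≤ wt b σ c := by
  unfold wt; split_ifs <;> linarith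

theorem wt_le (h0 : 0 ≤ b) (σ : Fin N → Bool) (c : Raw N) : wt b σ c ≤ 1 := by
  unfold wt; split_ifs <;> linarith

theorem wt_pos (h0 : 0 ≤ b) (h1 : b < 1) (σ : Fin N → Bool) (c : Raw N) : 0 < wt b σ c :=
  lt_of_lt_of_le (by linarith) (wt_ge h0 σ c)

theorem beta_nonneg (h0 : 0 ≤ b) (h1 : b < 1) : 0 ≤ -Real.log (1 - b) :=
  neg_nonneg.2 (Real.log_nonpos (by linarith) (by linarith))

theorem logZ_eq {M : ℕ} (F : Fin M → Raw N) :
    logZ b F = Real.log (∑ σ : Fin N → Bool, ∏ j, wt b σ (F j)) := rfl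

/-- The log-partition function of a list. -/
noncomputable def logZL (b : ℝ) {N : ℕ} (F : List (Raw N)) : ℝ :=
  Real.log (∑ σ : Fin N → Bool, (F.map (wt b σ)).prod)

theorem logZL_ofFn {M : ℕ} (F : Fin M → Raw N) : logZL b (List.ofFn F) = logZ b F := by
  simp only [logZL, logZ_eq, List.map_ofFn, List.prod_ofFn, Function.comp_apply]

theorem prod_wt_pos (h0 : 0 ≤ b) (h1 : b < 1) (σ : Fin N → Bool) (F : List (Raw N)) :
    0 < (F.map (wt b σ)).prod := by
  refine List.prod_pos fun x hx => ?_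
  obtain ⟨c, -, rfl⟩ := List.mem_map.1 hx
  exact wt_pos h0 h1 σ c

theorem logZL_sub_le (h0 : 0 ≤ b) (h1 : b < 1) (F G : List (Raw N)) (a a' : Raw N) :
    logZL b (F ++ a :: G) - logZL b (F ++ a' :: G) ≤ -Real.log (1 - b) := by
  have hb : 0 < 1 - b := by linarith
  have hZ : 0 < ∑ σ : Fin N → Bool, ((F ++ a :: G).map (wt b σ)).prod :=
    sum_pos (fun σ _ => prod_wt_pos h0 h1 σ _) univ_nonempty
  have : Real.log (1 - b) + logZL b (F ++ a :: G) ≤ logZL b (F ++ a' :: G) := by
    rw [logZL, logZL, ← Real.log_mul hb.ne' hZ.ne']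
    refine Real.log_le_log (mul_pos hb hZ) ?_
    rw [mul_sum]
    refine sum_le_sum fun σ _ => ?_
    simp only [List.map_append, List.map_cons, List.prod_append, List.prod_cons]
    have p1 := prod_wt_pos h0 h1 σ F
    have p2 := prod_wt_pos h0 h1 σ G
    have p3 : (1 - b) * wt b σ a ≤ wt b σ a' :=
      (mul_le_of_le_one_right hb.le (wt_le h0 σ a)).trans (wt_ge h0 σ a')
    calc (1 - b) * ((F.map (wt b σ)).prod * (wt b σ a * (G.map (wt b σ)).prod))
        = (F.map (wt b σ)).prod * (((1 - b) * wt b σ a) * (G.map (wt b σ)).prod) := by ring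
      _ ≤ _ := mul_le_mul_of_nonneg_left (mul_le_mul_of_nonneg_right p3 p2.le) p1.le
  linarith

theorem Z_pos (h0 : 0 ≤ b) (h1 : b < 1) {M : ℕ} (F : Fin M → Raw N) :
    0 < ∑ σ : Fin N → Bool, ∏ j, wt b σ (F j) :=
  sum_pos (fun σ _ => prod_pos fun j _ => wt_pos h0 h1 σ (F j)) univ_nonempty

theorem log_prod_le_logZ (h0 : 0 ≤ b) (h1 : b < 1) {M : ℕ} (F : Fin M → Raw N)
    (σ : Fin N → Bool) : Real.log (∏ j, wt b σ (F j)) ≤ logZ b F := by
  rw [logZ_eq]
  refine Real.log_le_log (prod_pos fun j _ => wt_pos h0 h1 σ (F j)) ?_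
  exact single_le_sum (f := fun σ : Fin N → Bool => ∏ j, wt b σ (F j))
    (fun σ _ => (prod_pos fun j _ => wt_pos h0 h1 σ (F j)).le) (mem_univ σ)

theorem le_logZ (h0 : 0 ≤ b) (h1 : b < 1) {M : ℕ} (F : Fin M → Raw N) :
    Real.log (1 - b) * M ≤ logZ b F := by
  have hb : 0 < 1 - b := by linarith
  refine le_trans ?_ (log_prod_le_logZ h0 h1 F fun _ => true)
  rw [mul_comm, ← Real.log_pow]
  refine Real.log_le_log (pow_pos hb _) ?_
  calc (1 - b) ^ M = ∏ _j : Fin M, (1 - b) := by simp
    _ ≤ _ := prod_le_prod (fun _ _ => hb.le) fun j _ => wt_ge h0 _ _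

theorem logZ_le (h0 : 0 ≤ b) (h1 : b < 1) {M : ℕ} (F : Fin M → Raw N) (j : ℕ)
    (h : ∀ σ : Fin N → Bool, ∏ i, wt b σ (F i) ≤ (1 - b) ^ j) :
    logZ b F ≤ N * Real.log 2 + Real.log (1 - b) * j := by
  have hb : 0 < 1 - b := by linarith
  rw [logZ_eq, ← Real.log_pow, mul_comm (Real.log (1 - b)), ← Real.log_pow,
    ← Real.log_mul (by positivity) (by positivity)]
  refine Real.log_le_log (Z_pos h0 h1 F) ((sum_le_sum fun σ _ => h σ).trans (le_of_eq ?_))
  simp

theorem logZ_le' (h0 : 0 ≤ b) (h1 : b < 1) {M : ℕ} (F : Fin M → Raw N) :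
    logZ b F ≤ N * Real.log 2 := by
  simpa using logZ_le h0 h1 F 0 fun σ => by
    rw [pow_zero]
    exact prod_le_one (fun j _ => (wt_pos h0 h1 σ _).le) fun j _ => wt_le h0 σ _

theorem abs_eRaw_le (h0 : 0 ≤ b) (h1 : b < 1) (hN : 1 ≤ N) (M : ℕ) :
    |eRaw b N M| ≤ N * Real.log 2 + -Real.log (1 - b) * M := by
  have : Nonempty (Fin N) := ⟨⟨0, hN⟩⟩
  refine abs_avg_le_of_le fun F => abs_le.2 ⟨?_, ?_⟩
  · have := le_logZ h0 h1 F
    have : 0 ≤ N * Real.log 2 := mul_nonneg (Nat.cast_nonneg _) (Real.log_nonneg (by norm_num))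
    linarith
  · have := logZ_le' h0 h1 F
    have : 0 ≤ -Real.log (1 - b) * M := mul_nonneg (beta_nonneg h0 h1) (Nat.cast_nonneg _)
    linarith

/-- The raw clause of a clause. -/
def raw (c : Clause 3 N) : Raw N := (c.1.1, c.2)

theorem raw_injective : Function.Injective (raw : Clause 3 N → Raw N) := by
  rintro ⟨⟨v, hv⟩, s⟩ ⟨⟨v', hv'⟩, s'⟩ h
  simp only [raw, Prod.mk.injEq] at h
  obtain ⟨rfl, rfl⟩ := h
  rfl

open Classical in
theorem wt_raw (σ : Fin N → Bool) (c : Clause 3 N) :
    wt b σ (raw c) = if ClauseSat σ c then 1 else 1 - b := by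
  unfold wt ClauseSat raw
  by_cases h : ∃ i : Fin 3, σ (c.1.1 i) = c.2 i
  · rw [if_pos h, if_neg]
    push Not
    exact h
  · rw [if_neg h, if_pos]
    push Not at h
    exact h

theorem card_ratio (hN : 3 ≤ N) :
    1 - (Fintype.card (Clause 3 N) : ℝ) / Fintype.card (Raw N) ≤ 3 / N := by
  have h1 : Fintype.card {v : Fin 3 → Fin N // Function.Injective v} = N.descFactorial 3 := by
    rw [Fintype.card_congr (Equiv.subtypeInjectiveEquivEmbedding _ _), Fintype.card_embedding_eq,
      Fintype.card_fin, Fintype.card_fin]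
  obtain ⟨n, rfl⟩ := Nat.exists_eq_add_of_le' hN
  rw [Fintype.card_prod, Fintype.card_prod, h1]
  simp only [Fintype.card_fun, Fintype.card_fin, Fintype.card_bool, Nat.descFactorial_succ,
    Nat.descFactorial_zero, show n + 3 - 2 = n + 1 from rfl, show n + 3 - 1 = n + 2 from rfl,
    show n + 3 - 0 = n + 3 from rfl]
  push_cast
  have hn : (0 : ℝ) ≤ n := Nat.cast_nonneg n
  rw [sub_le_iff_le_add, div_add_div _ _ (by positivity) (by positivity), le_div_iff₀ (by positivity)]
  have : (0 : ℝ) ≤ ((n : ℝ) + 3) ^ 2 := by positivity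
  nlinarith

open Classical in
theorem satProb_eq_avg (k n m : ℕ) :
    satProb k n m = avg (fun F : Fin m → Clause k n => if Satisfiable F then 1 else 0) := by
  simp only [satProb, Crest.FinProb.uniformProb, avg, Set.mem_ofPred_eq, sum_boole, div_eq_inv_mul]

end

end Energy

open Energy

theorem abs_eRaw_sub_eDis_le {b : ℝ} (h0 : 0 ≤ b) (h1 : b < 1) {N : ℕ} (hN : 3 ≤ N) (M : ℕ) :
    |eRaw b N M - eDis b N M| ≤ M * (3 / N) * (-Real.log (1 - b)) := by
  have := nonempty_clause hN
  have key := replace_list raw raw_injective (beta_nonneg h0 h1) (card_ratio hN) M (logZL b)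
    fun F G a a' => abs_sub_le_iff.2 ⟨logZL_sub_le h0 h1 F G a a', logZL_sub_le h0 h1 F G a' a⟩
  simp only [EL, List.map_ofFn, logZL_ofFn] at key
  exact key

theorem le_eDis {b : ℝ} (h0 : 0 ≤ b) (h1 : b < 1) {N : ℕ} (hN : 3 ≤ N) (M : ℕ) :
    -(-Real.log (1 - b) * M * (1 - satProb 3 N M)) ≤ eDis b N M := by
  classical
  have := nonempty_clause hN
  have e : -(-Real.log (1 - b) * M * (1 - satProb 3 N M)) =
      avg (fun F : Fin M → Clause 3 N =>
        Real.log (1 - b) * M * (1 - if Satisfiable F then 1 else 0)) := by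
    rw [avg_const_mul, avg_sub, avg_const, ← satProb_eq_avg]
    ring
  rw [e]
  refine avg_mono fun F => ?_
  split_ifs with h
  · obtain ⟨σ, hσ⟩ := h
    refine le_trans (le_of_eq ?_) (log_prod_le_logZ h0 h1 (fun j => raw (F j)) σ)
    simp [wt_raw, hσ]
  · rw [sub_zero, mul_one]
    exact le_logZ h0 h1 (fun j => raw (F j))

theorem eDis_le {b : ℝ} (h0 : 0 ≤ b) (h1 : b < 1) {N : ℕ} (hN : 3 ≤ N) {j M₀ M : ℕ} (hj : j ≤ M₀)
    (hM : M₀ ≤ M) :
    eDis b N M ≤ N * Real.log 2 -
      -Real.log (1 - b) * j * (1 - (M₀.choose j : ℝ) * satProb 3 N (M₀ - j)) := by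
  classical
  have := nonempty_clause hN
  have hβ := beta_nonneg h0 h1
  obtain ⟨I, -, hI⟩ := exists_subset_card_eq (s := (univ : Finset (Fin M))) (n := M₀)
    (by simpa using hM)
  set P := powersetCard (M₀ - j) I with hP
  let ind : Finset (Fin M) → (Fin M → Clause 3 N) → ℝ := fun K F =>
    if ∃ σ : Fin N → Bool, ∀ i ∈ K, ClauseSat σ (F i) then 1 else 0
  have hind : ∀ K ∈ P, avg (ind K) = satProb 3 N (M₀ - j) := by
    intro K hK
    have hc := (mem_powersetCard.1 hK).2
    rw [satProb_eq_avg, ← avg_comp_injective (K.orderEmbOfFin hc) (K.orderEmbOfFin hc).injective]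
    congr 1
    ext F
    simp only [ind, Satisfiable]
    congr 1
    refine propext (exists_congr fun σ => ⟨fun h l => h _ (K.orderEmbOfFin_mem hc l), fun h i hi => ?_⟩)
    have : i ∈ Set.range (K.orderEmbOfFin hc) := by
      rw [range_orderEmbOfFin]; exact hi
    obtain ⟨l, rfl⟩ := this
    exact h l
  have e : N * Real.log 2 -
      -Real.log (1 - b) * j * (1 - (M₀.choose j : ℝ) * satProb 3 N (M₀ - j)) =
      avg (fun F : Fin M → Clause 3 N =>
        N * Real.log 2 - -Real.log (1 - b) * j * (1 - ∑ K ∈ P, ind K F)) := by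
    rw [avg_sub, avg_const, avg_const_mul, avg_sub, avg_const, avg_sum, sum_congr rfl hind,
      sum_const, hP, card_powersetCard, hI, Nat.choose_symm hj, nsmul_eq_mul]
  rw [e]
  refine avg_mono fun F => ?_
  by_cases h : ∃ K ∈ P, ∃ σ : Fin N → Bool, ∀ i ∈ K, ClauseSat σ (F i)
  · obtain ⟨K, hK, hs⟩ := h
    have h2 : 1 ≤ ∑ K ∈ P, ind K F := by
      refine le_trans (le_of_eq ?_) (single_le_sum (f := fun K => ind K F)
        (fun K _ => by simp only [ind]; split_ifs <;> norm_num) hK)
      simp only [ind, if_pos hs]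
    have h3 := logZ_le' h0 h1 (fun i => raw (F i))
    have h4 : -Real.log (1 - b) * j * (1 - ∑ K ∈ P, ind K F) ≤ 0 :=
      mul_nonpos_of_nonneg_of_nonpos (mul_nonneg hβ (Nat.cast_nonneg _)) (by linarith)
    change logZ b (fun i => raw (F i)) ≤ _
    linarith
  · have h2 : ∑ K ∈ P, ind K F = 0 :=
      sum_eq_zero fun K hK => if_neg fun hs => h ⟨K, hK, hs⟩
    have h3 := logZ_le h0 h1 (fun i => raw (F i)) j fun σ => by
      have h4 : (I.filter fun i => ClauseSat σ (F i)).card < M₀ - j := by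
        by_contra hc
        obtain ⟨K, hK1, hK2⟩ := exists_subset_card_eq (not_lt.1 hc)
        exact h ⟨K, mem_powersetCard.2 ⟨hK1.trans (filter_subset _ _), hK2⟩, σ,
          fun i hi => (mem_filter.1 (hK1 hi)).2⟩
      have h5 := card_filter_add_card_filter_not (s := I) (fun i => ClauseSat σ (F i))
      calc ∏ i, wt b σ (raw (F i))
          ≤ ∏ i ∈ I.filter (fun i => ¬ ClauseSat σ (F i)), wt b σ (raw (F i)) :=
            prod_le_prod_of_subset_of_le_one (subset_univ _) (fun i _ => (wt_pos h0 h1 σ _).le)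
              fun i _ _ => wt_le h0 σ _
        _ = (1 - b) ^ (I.filter (fun i => ¬ ClauseSat σ (F i))).card := by
            rw [← prod_const]
            exact prod_congr rfl fun i hi => by rw [wt_raw, if_neg (mem_filter.1 hi).2]
        _ ≤ (1 - b) ^ j := pow_le_pow_of_le_one (by linarith) (by linarith) (by omega)
    change logZ b (fun i => raw (F i)) ≤ _
    rw [h2]
    linarith

theorem hasSum_poissonWeight_sq (lam : ℝ) :
    HasSum (fun k : ℕ => poissonWeight lam k * ((k : ℝ) - lam) ^ 2) lam := by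
  have h2 : HasSum (fun k : ℕ => poissonWeight lam k * (k : ℝ) ^ 2) (lam * (1 + 1 * lam)) := by
    rw [← hasSum_nat_add_iff' 1]
    have h := (labLog_hasSum_lin lam 1 1).mul_left lam
    simp only [range_one, sum_singleton, Nat.cast_zero, ne_eq, OfNat.ofNat_ne_zero,
      not_false_eq_true, zero_pow, mul_zero, sub_zero]
    have e : (fun k : ℕ => poissonWeight lam (k + 1) * ((k + 1 : ℕ) : ℝ) ^ 2) =
        fun k => lam * (poissonWeight lam k * (1 + 1 * (k : ℝ))) := by
      funext k
      rw [← mul_assoc, ← poissonWeight_succ]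
      push_cast
      ring
    rw [e]
    exact h
  have h := h2.add (labLog_hasSum_lin lam (lam ^ 2) (-2 * lam))
  convert h using 1
  · funext k
    ring
  · ring

namespace Energy

theorem hasSum_quad (lam A B C : ℝ) :
    HasSum (fun k : ℕ => poissonWeight lam k * (A + B * k + C * ((k : ℝ) - lam) ^ 2))
      (A + B * lam + C * lam) := by
  have h := (labLog_hasSum_lin lam A B).add ((hasSum_poissonWeight_sq lam).mul_left C)
  convert h using 1
  funext k
  ring

theorem summable_eRaw {b q : ℝ} (hq : 0 ≤ q) (h0 : 0 ≤ b) (h1 : b < 1) {N : ℕ} (hN : 1 ≤ N) :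
    Summable (fun M : ℕ => poissonWeight (q * N) M * eRaw b N M) :=
  summable_poissonWeight_mul (mul_nonneg hq (Nat.cast_nonneg _)) (abs_eRaw_le h0 h1 hN)

theorem le_pressure {b q : ℝ} (hq : 0 ≤ q) (h0 : 0 ≤ b) (h1 : b < 1) {N : ℕ} (hN : 1 ≤ N)
    {A B C : ℝ} (h : ∀ M : ℕ, A + B * M + C * ((M : ℝ) - q * N) ^ 2 ≤ eRaw b N M) :
    A / N + B * q + C * q ≤ pressure 3 q (muSat b) (Measure.dirac 0) N := by
  have hN' : (0 : ℝ) < N := by exact_mod_cast hN
  have := hasSum_le (fun M => mul_le_mul_of_nonneg_left (h M)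
    (poissonWeight_nonneg (mul_nonneg hq hN'.le) M)) (hasSum_quad (q * N) A B C)
    (summable_eRaw hq h0 h1 hN).hasSum
  rw [pressure_muSat q h1]
  refine le_trans (le_of_eq ?_) (mul_le_mul_of_nonneg_left this (by positivity))
  field_simp

theorem pressure_le {b q : ℝ} (hq : 0 ≤ q) (h0 : 0 ≤ b) (h1 : b < 1) {N : ℕ} (hN : 1 ≤ N)
    {A B C : ℝ} (h : ∀ M : ℕ, eRaw b N M ≤ A + B * M + C * ((M : ℝ) - q * N) ^ 2) :
    pressure 3 q (muSat b) (Measure.dirac 0) N ≤ A / N + B * q + C * q := by
  have hN' : (0 : ℝ) < N := by exact_mod_cast hN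
  have := hasSum_le (fun M => mul_le_mul_of_nonneg_left (h M)
    (poissonWeight_nonneg (mul_nonneg hq hN'.le) M))
    (summable_eRaw hq h0 h1 hN).hasSum (hasSum_quad (q * N) A B C)
  rw [pressure_muSat q h1]
  refine le_trans (mul_le_mul_of_nonneg_left this (by positivity)) (le_of_eq ?_)
  field_simp

theorem eventually_div_le (K : ℝ) {ε : ℝ} (hε : 0 < ε) :
    ∀ᶠ N : ℕ in Filter.atTop, K / N ≤ ε :=
  (tendsto_const_div_atTop_nhds_zero_nat K).eventually (ge_mem_nhds hε)

theorem choose_mul_pow_le {η : ℝ} (hη : 0 ≤ η) {j M : ℕ} (hj : j ≤ M) :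
    (M.choose j : ℝ) * η ^ j ≤ Real.exp (M * η) := by
  have h1 : (M.choose j : ℝ) * η ^ j ≤ (η + 1) ^ M := by
    rw [add_pow]
    refine le_trans (le_of_eq ?_) (single_le_sum
      (f := fun m => η ^ m * 1 ^ (M - m) * (M.choose m : ℝ)) (fun m _ => by positivity)
      (mem_range.2 (Nat.lt_succ_of_le hj)))
    simp [mul_comm]
  rw [Real.exp_nat_mul]
  exact h1.trans (pow_le_pow_left₀ (by positivity) (Real.add_one_le_exp η) M)

end Energy

/-- Below the threshold the pressure is asymptotically nonnegative. -/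
theorem pressure_ge {α : ℝ} (hα : IsSharpThreshold (satProb 3) α) {q b : ℝ} (hq : 0 ≤ q)
    (hqα : q < α) (h0 : 0 ≤ b) (h1 : b < 1) {ε : ℝ} (hε : 0 < ε) :
    ∀ᶠ N : ℕ in Filter.atTop, -ε ≤ pressure 3 q (muSat b) (Measure.dirac 0) N := by
  set β := -Real.log (1 - b) with hβ
  have hβ0 : 0 ≤ β := beta_nonneg h0 h1
  set d := (α - q) / 2 with hd
  have hd0 : 0 < d := by rw [hd]; linarith
  set a := q + d with ha
  have ha0 : 0 ≤ a := by positivity
  set K := q / d ^ 2 + 1 / d with hK
  have hp := (hα a ha0).1 (by rw [ha, hd]; linarith)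
  have hp' : Filter.Tendsto (fun N : ℕ => β * a * (1 - satProb 3 N ⌊a * N⌋₊)) Filter.atTop
      (nhds 0) := by
    have := (hp.const_sub 1).const_mul (β * a)
    simpa using this
  filter_upwards [hp'.eventually (ge_mem_nhds (half_pos hε)),
    eventually_div_le (β * (3 + K) * q) (half_pos hε), Filter.eventually_ge_atTop 3]
    with N e1 e2 hN
  have hN' : (0 : ℝ) < N := by exact_mod_cast (show 0 < N by omega)
  set p := satProb 3 N ⌊a * N⌋₊ with hpdef
  have hp1 : p ≤ 1 := satProb_le_one _ _ _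
  have key := le_pressure hq h0 h1 (show 1 ≤ N by omega) (A := -(β * a * (1 - p) * N))
    (B := -(β * 3 / N)) (C := -(β * K / N)) fun M => by
      have b1 := (abs_le.1 (abs_eRaw_sub_eDis_le h0 h1 hN M)).1
      have b2 := le_eDis h0 h1 hN M
      rw [← hβ] at b1 b2
      have b3 : (M : ℝ) * (1 - satProb 3 N M) ≤
          a * (1 - p) * N + K / N * ((M : ℝ) - q * N) ^ 2 := by
        have c0 : 0 ≤ K / N * ((M : ℝ) - q * N) ^ 2 := by positivity
        have c1 : 0 ≤ a * (1 - p) * N := mul_nonneg (mul_nonneg ha0 (by linarith)) hN'.le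
        rcases le_or_gt (M : ℝ) (a * N) with hM | hM
        · have c2 : p ≤ satProb 3 N M := satProb_anti hN (Nat.le_floor hM)
          have c3 : (M : ℝ) * (1 - satProb 3 N M) ≤ (a * N) * (1 - p) :=
            mul_le_mul hM (by linarith) (by linarith [satProb_le_one 3 N M]) (by positivity)
          linarith
        · have c2 : (M : ℝ) * (1 - satProb 3 N M) ≤ M :=
            mul_le_of_le_one_right (Nat.cast_nonneg _) (by linarith [satProb_nonneg 3 N M])
          set x := ((M : ℝ) - q * N) / (d * N) with hx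
          have hdN : 0 < d * N := by positivity
          have hx1 : 1 ≤ x := by
            rw [hx, le_div_iff₀ hdN]
            rw [ha] at hM
            linarith
          have c3 : (M : ℝ) = q * N + d * N * x := by
            rw [hx]; field_simp; ring
          have c4 : K / N * ((M : ℝ) - q * N) ^ 2 = q * N * x ^ 2 + d * N * x ^ 2 := by
            rw [hx, hK]; field_simp
          have c5 : q * N * 1 ≤ q * N * x ^ 2 :=
            mul_le_mul_of_nonneg_left (one_le_pow₀ hx1) (by positivity)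
          have c6 : d * N * x ≤ d * N * x ^ 2 :=
            mul_le_mul_of_nonneg_left (by nlinarith) hdN.le
          linarith
      have b4 := mul_le_mul_of_nonneg_left b3 hβ0
      have b5 : -(β * a * (1 - p) * N) + -(β * 3 / N) * M + -(β * K / N) * ((M : ℝ) - q * N) ^ 2 =
          -(β * (a * (1 - p) * N + K / N * ((M : ℝ) - q * N) ^ 2)) - M * (3 / N) * β := by ring
      rw [b5]
      linarith
  have e3 : -(β * a * (1 - p) * N) / N + -(β * 3 / N) * q + -(β * K / N) * q =
      -(β * a * (1 - p)) - β * (3 + K) * q / N := by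
    field_simp
    ring
  rw [e3] at key
  linarith

/-- Above the threshold the pressure is negative at low temperature. -/
theorem pressure_neg {α : ℝ} (hα : IsSharpThreshold (satProb 3) α) {q : ℝ} (hqα : α < q) :
    ∃ b : ℚ, 0 < b ∧ b < 1 ∧
      ∀ᶠ N : ℕ in Filter.atTop, pressure 3 q (muSat b) (Measure.dirac 0) N ≤ -1 := by
  have hα0 := threshold_nonneg hα
  have hq : 0 < q := hα0.trans_lt hqα
  set d := (q - α) / 3 with hd
  have hd0 : 0 < d := by rw [hd]; linarith
  set a := α + d with ha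
  have ha0 : 0 < a := by positivity
  have hqa : q = a + d + d := by rw [ha, hd]; ring
  obtain ⟨c, hc, hdec⟩ := exp_decay le_rfl hα (a := a) (by rw [ha]; linarith)
  set η := min 1 (c / (4 * q)) with hη
  have hη0 : 0 < η := lt_min one_pos (by positivity)
  have hη1 : η * q ≤ c / 4 := by
    refine (mul_le_mul_of_nonneg_right (min_le_right _ _) hq.le).trans (le_of_eq ?_)
    field_simp
  set t := -Real.log η with ht
  have ht0 : 0 ≤ t := neg_nonneg.2 (Real.log_nonpos hη0.le (min_le_left _ _))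
  set δ := min d (c / (4 * (t + 1))) with hδ
  have hδ0 : 0 < δ := lt_min hd0 (by positivity)
  have hδd : δ ≤ d := min_le_left _ _
  have hδt : δ * t ≤ c / 4 := by
    refine (mul_le_mul_of_nonneg_right (min_le_right _ _) ht0).trans ?_
    rw [div_mul_eq_mul_div, div_le_div_iff₀ (by positivity) (by norm_num)]
    nlinarith
  have hexp : 0 < Real.exp (-(20 / δ)) := Real.exp_pos _
  have hexp1 : Real.exp (-(20 / δ)) < 1 := by
    rw [Real.exp_lt_one_iff, neg_lt_zero]; positivity
  obtain ⟨b, hb1, hb2⟩ := exists_rat_btwn (show 1 - Real.exp (-(20 / δ)) < 1 by linarith)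
  have hb0 : (0 : ℝ) < b := by linarith
  refine ⟨b, by exact_mod_cast hb0, by exact_mod_cast hb2, ?_⟩
  set β := -Real.log (1 - b) with hβ
  have hβ0 : 0 ≤ β := beta_nonneg hb0.le hb2
  have hβδ : 20 ≤ β * δ := by
    have h1 : Real.log (1 - b) ≤ -(20 / δ) := by
      rw [Real.log_le_iff_le_exp (by linarith)]
      linarith
    have h2 : 20 / δ ≤ β := by rw [hβ]; linarith
    rwa [div_le_iff₀ hδ0] at h2
  filter_upwards [hdec, eventually_div_le (2 / c) one_pos,
    eventually_div_le (q / d ^ 2) (half_pos one_pos),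
    eventually_div_le (β * (1 / 4 + 3 * q)) one_pos, Filter.eventually_ge_atTop 3]
    with N e1 e2 e3 e4 hN
  have hN' : (0 : ℝ) < N := by exact_mod_cast (show 0 < N by omega)
  set j := ⌊δ * N⌋₊ with hj
  set m := ⌊a * N⌋₊ with hm
  have hj1 : (j : ℝ) ≤ δ * N := Nat.floor_le (by positivity)
  have hj2 : δ * N < j + 1 := Nat.lt_floor_add_one _
  have hm1 : (m : ℝ) ≤ a * N := Nat.floor_le (by positivity)
  have hδN : δ * N ≤ d * N := mul_le_mul_of_nonneg_right hδd hN'.le
  have hdN : 0 < d * N := by positivity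
  have hM0 : ((m + j : ℕ) : ℝ) ≤ q * N - d * N := by
    push_cast
    rw [hqa]
    linarith
  -- the union bound is at most one half
  have hhalf : ((m + j).choose j : ℝ) * satProb 3 N (m + j - j) ≤ 1 / 2 := by
    rw [Nat.add_sub_cancel]
    have c1 := choose_mul_pow_le hη0.le (Nat.le_add_left j m)
    have c2 : η ^ j = Real.exp (-(j * t)) := by
      rw [ht, mul_neg, neg_neg, Real.exp_nat_mul, Real.exp_log hη0]
    have c3 : ((m + j).choose j : ℝ) ≤ Real.exp (((m + j : ℕ) : ℝ) * η + j * t) := by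
      rw [c2, Real.exp_neg, mul_inv_le_iff₀ (Real.exp_pos _), ← Real.exp_add] at c1
      exact c1
    have c4 : ((m + j : ℕ) : ℝ) * η ≤ c / 4 * N := by
      calc ((m + j : ℕ) : ℝ) * η ≤ (q * N) * η :=
            mul_le_mul_of_nonneg_right (by linarith) hη0.le
        _ = η * q * N := by ring
        _ ≤ c / 4 * N := mul_le_mul_of_nonneg_right hη1 hN'.le
    have c5 : (j : ℝ) * t ≤ c / 4 * N := by
      calc (j : ℝ) * t ≤ (δ * N) * t := mul_le_mul_of_nonneg_right hj1 ht0
        _ = δ * t * N := by ring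
        _ ≤ c / 4 * N := mul_le_mul_of_nonneg_right hδt hN'.le
    have c6 : 2 ≤ c * N := by
      rw [div_le_one hN', div_le_iff₀ hc] at e2
      linarith
    calc ((m + j).choose j : ℝ) * satProb 3 N m
        ≤ Real.exp (((m + j : ℕ) : ℝ) * η + j * t) * Real.exp (-(c * N)) :=
          mul_le_mul c3 e1 (satProb_nonneg _ _ _) (Real.exp_pos _).le
      _ ≤ Real.exp (-1) := by
          rw [← Real.exp_add, Real.exp_le_exp]
          linarith
      _ ≤ 1 / 2 := by
          rw [Real.exp_neg, one_div]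
          exact inv_anti₀ (by norm_num) (by linarith [Real.add_one_le_exp 1])
  have hβj : 0 ≤ β * j := mul_nonneg hβ0 (Nat.cast_nonneg _)
  have key := pressure_le hq.le hb0.le hb2 (show 1 ≤ N by omega)
    (A := N * Real.log 2 - β * j / 2) (B := β * 3 / N) (C := β * j / 2 / (d * N) ^ 2) fun M => by
      have b1 := (abs_le.1 (abs_eRaw_sub_eDis_le hb0.le hb2 hN M)).2
      rw [← hβ] at b1
      have b2 : β * 3 / N * M = M * (3 / N) * β := by ring
      have b3 : eDis b N M ≤ N * Real.log 2 - β * j / 2 +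
          β * j / 2 / (d * N) ^ 2 * ((M : ℝ) - q * N) ^ 2 := by
        rcases le_or_gt (m + j) M with hM | hM
        · have c1 := eDis_le hb0.le hb2 hN (Nat.le_add_left j m) hM
          rw [← hβ] at c1
          have c2 : β * j * (1 / 2) ≤
              β * j * (1 - ((m + j).choose j : ℝ) * satProb 3 N (m + j - j)) :=
            mul_le_mul_of_nonneg_left (by linarith) hβj
          have c3 : 0 ≤ β * j / 2 / (d * N) ^ 2 * ((M : ℝ) - q * N) ^ 2 := by positivity
          linarith
        · have c1 := eDis_le hb0.le hb2 hN (j := 0) (M₀ := 0) le_rfl (Nat.zero_le M)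
          have c2 : (M : ℝ) ≤ ((m + j : ℕ) : ℝ) := by exact_mod_cast hM.le
          have c3 : (d * N) ^ 2 ≤ ((M : ℝ) - q * N) ^ 2 := by
            rw [← neg_sq ((M : ℝ) - q * N)]
            exact pow_le_pow_left₀ hdN.le (by linarith) 2
          have c4 := mul_le_mul_of_nonneg_left c3
            (show 0 ≤ β * j / 2 / (d * N) ^ 2 by positivity)
          rw [div_mul_cancel₀ _ (by positivity)] at c4
          simp only [Nat.cast_zero, mul_zero, zero_mul, sub_zero] at c1
          linarith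
      linarith
  have f1 : (N * Real.log 2 - β * j / 2) / N + β * 3 / N * q + β * j / 2 / (d * N) ^ 2 * q =
      Real.log 2 - (β * j / 2 / N) * (1 - q / d ^ 2 / N) + β * (3 * q) / N := by
    field_simp
    ring
  have f2 : (β * j / 2 / N) * (1 / 2) ≤ (β * j / 2 / N) * (1 - q / d ^ 2 / N) :=
    mul_le_mul_of_nonneg_left (by linarith) (by positivity)
  have f3 : β * δ / 4 - β * (1 / 4) / N ≤ (β * j / 2 / N) * (1 / 2) := by
    have : β * (δ * N - 1) ≤ β * j := mul_le_mul_of_nonneg_left (by linarith) hβ0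
    have e : β * δ / 4 - β * (1 / 4) / N = β * (δ * N - 1) / 2 / N * (1 / 2) := by
      field_simp
      ring
    rw [e]
    gcongr
  have f4 : β * (1 / 4 + 3 * q) / N = β * (1 / 4) / N + β * (3 * q) / N := by ring
  have f5 : Real.log 2 ≤ 1 := by
    have := Real.log_le_sub_one_of_pos (show (0 : ℝ) < 2 by norm_num)
    linarith
  rw [f1] at key
  linarith

end Crest.Agent.R153
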