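import Crest.Agent.R153.Kill

/-! Row 153, module D: the delay of a 2-clause versus the delay of a unit clause. -/

set_option autoImplicit false

namespace Crest.Agent.R153

open Finset Crest.ProbabilityR.RandomSAT Crest.Agent.R141

namespace Key

variable {k n : ℕ} {θ : ℝ}

/-- The expected residual (discounted) life time. -/
noncomputable def res (k : ℕ) (θ : ℝ) (L : ℕ) {n : ℕ} (S : Set (Asg n)) : ℝ :=
  EL L (fun F : List (Clause k n) => gs θ (hit S F))

theorem gs_one' (θ : ℝ) : gs θ 1 = 1 := by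
  rw [show (1 : ℕ) = 0 + 1 from rfl, gs_succ', gs_zero]; ring

theorem res_nonneg (hθ : 0 ≤ θ) (L : ℕ) (S : Set (Asg n)) : 0 ≤ res k θ L S :=
  EL_nonneg fun _ _ => gs_nonneg hθ _

theorem res_empty (hkn : k ≤ n) (L : ℕ) : res k θ L (∅ : Set (Asg n)) = 0 := by
  have := nonempty_clause hkn
  simp only [res, hit_empty, gs_zero]
  exact EL_const L 0

theorem res_zero {S : Set (Asg n)} (hS : S.Nonempty) : res k θ 0 S = 1 := by
  rw [res, EL_zero, hit_nil_of_nonempty hS, gs_one']

theorem res_succ (hkn : k ≤ n) {S : Set (Asg n)} (hS : S.Nonempty) (L : ℕ) :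
    res k θ (L + 1) S = 1 + θ * avg (fun c : Clause k n => res k θ L (S ∩ sol c)) := by
  have := nonempty_clause hkn
  rw [res, EL_succ]
  simp only [hit_cons_of_nonempty hS, gs_succ', EL_add, EL_const, EL_const_mul]
  rw [avg_add, avg_const, avg_const_mul]
  rfl

theorem one_le_res (hkn : k ≤ n) (hθ : 0 ≤ θ) {S : Set (Asg n)} (hS : S.Nonempty) (L : ℕ) :
    1 ≤ res k θ L S := by
  cases L with
  | zero => rw [res_zero hS]
  | succ L =>
    rw [res_succ hkn hS]
    have := mul_nonneg hθ (avg_nonneg fun c : Clause k n => res_nonneg (k := k) hθ L (S ∩ sol c))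
    linarith

theorem res_le (hkn : k ≤ n) {h : ℝ} (h0 : 0 < h) (hθ : 1 ≤ θ) (hθ' : θ ≤ 1 + h / 2) (L : ℕ) :
    ∀ S : Set (Asg n), h ≤ kill k S → res k θ L S ≤ 2 / h := by
  classical
  have := nonempty_clause hkn
  induction L with
  | zero =>
    intro S hk
    rcases S.eq_empty_or_nonempty with rfl | hS
    · rw [res_empty hkn]; positivity
    · rw [res_zero hS, le_div_iff₀ h0]
      have := kill_le_one k S
      linarith
  | succ L ih =>
    intro S hk
    rcases S.eq_empty_or_nonempty with rfl | hS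
    · rw [res_empty hkn]; positivity
    · have h1 := kill_le_one k S
      have h2 : avg (fun c : Clause k n => res k θ L (S ∩ sol c)) ≤ 2 / h * (1 - kill k S) := by
        rw [kill, ← avg_const (I := Clause k n) 1, ← avg_sub, ← avg_const_mul]
        refine avg_mono fun c => ?_
        split_ifs with hc
        · rw [sub_zero, mul_one]
          exact ih _ (hk.trans (kill_anti k Set.inter_subset_left))
        · rw [Set.not_nonempty_iff_eq_empty.1 hc, res_empty hkn, avg_const, sub_self, mul_zero]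
      have h3 : 2 / h * (1 - kill k S) ≤ 2 / h * (1 - h) :=
        mul_le_mul_of_nonneg_left (by linarith) (by positivity)
      have h4 : θ * (1 - h) ≤ 1 - h / 2 := by nlinarith
      have h5 : 2 / h * (θ * (1 - h)) ≤ 2 / h * (1 - h / 2) :=
        mul_le_mul_of_nonneg_left h4 (by positivity)
      have h6 : 2 / h * (1 - h / 2) = 2 / h - 1 := by field_simp
      have h7 := mul_le_mul_of_nonneg_left (h2.trans h3) (show 0 ≤ θ by linarith)
      rw [res_succ hkn hS]
      nlinarith

theorem Asq_empty (hkn : k ≤ n) (L j : ℕ) : Asq k θ L j (∅ : Set (Asg n)) = 0 := by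
  have := nonempty_clause hkn
  simp only [Asq, Set.empty_inter, sub_self, ne_eq, OfNat.ofNat_ne_zero, not_false_eq_true,
    zero_pow, EL_const]
  simp [avg]

theorem Asq_zero {S : Set (Asg n)} (hS : S.Nonempty) (j : ℕ) : Asq k θ 0 j S = kill j S := by
  classical
  rw [Asq, kill]
  congr 1
  ext C
  rw [EL_zero, hit_nil_of_nonempty hS, gs_one']
  split_ifs with hC
  · rw [hit_nil_of_nonempty hC, gs_one']; ring
  · rw [Set.not_nonempty_iff_eq_empty.1 hC, hit_empty, gs_zero]; ring

theorem Asq_succ (hkn : k ≤ n) {S : Set (Asg n)} (hS : S.Nonempty) (L j : ℕ) :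
    Asq k θ (L + 1) j S = kill j S * (2 * res k θ (L + 1) S - 1) +
      θ ^ 2 * avg (fun c : Clause k n => Asq k θ L j (S ∩ sol c)) := by
  classical
  have := nonempty_clause hkn
  have key : ∀ (C : Clause j n) (c : Clause k n) (F : List (Clause k n)),
      (gs θ (hit S (c :: F)) - gs θ (hit (S ∩ sol C) (c :: F))) ^ 2 =
        (if (S ∩ sol C).Nonempty then 0 else 1) * (2 * gs θ (hit S (c :: F)) - 1) +
          θ ^ 2 * (gs θ (hit (S ∩ sol c) F) - gs θ (hit (S ∩ sol c ∩ sol C) F)) ^ 2 := by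
    intro C c F
    rw [hit_cons_of_nonempty hS, gs_succ', Set.inter_right_comm S (sol c) (sol C)]
    split_ifs with hC
    · rw [hit_cons_of_nonempty hC, gs_succ']; ring
    · rw [Set.not_nonempty_iff_eq_empty.1 hC, Set.empty_inter, hit_empty, hit_empty, gs_zero]
      ring
  have hres : avg (fun c : Clause k n => EL L (fun F : List (Clause k n) =>
      2 * gs θ (hit S (c :: F)) - 1)) = 2 * res k θ (L + 1) S - 1 := by
    rw [res, EL_succ]
    simp only [EL_sub, EL_const, EL_const_mul]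
    rw [avg_sub, avg_const, avg_const_mul]
  simp only [Asq, EL_succ, key, EL_add, EL_const_mul, avg_add, avg_const_mul, hres]
  congr 1
  · rw [kill, mul_comm (avg _), ← avg_const_mul]
    congr 1
    ext C
    ring
  · rw [avg_comm]

theorem Nsq_empty (hkn : k ≤ n) (L : ℕ) : Nsq k θ L (∅ : Set (Asg n)) = 1 := by
  have := nonempty_clause hkn
  simp only [Nsq, hit_empty, mul_zero, pow_zero, EL_const]

theorem Nsq_zero {S : Set (Asg n)} (hS : S.Nonempty) : Nsq k θ 0 S = θ ^ 2 := by
  rw [Nsq, EL_zero, hit_nil_of_nonempty hS]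

theorem Nsq_succ {S : Set (Asg n)} (hS : S.Nonempty) (L : ℕ) :
    Nsq k θ (L + 1) S = θ ^ 2 * avg (fun c : Clause k n => Nsq k θ L (S ∩ sol c)) := by
  rw [Nsq, EL_succ, ← avg_const_mul]
  congr 1
  ext c
  rw [Nsq, ← EL_const_mul]
  congr 1
  ext F
  rw [hit_cons_of_nonempty hS]
  ring

theorem local_le (hkn : k ≤ n) {ε : ℝ} (hε : 0 < ε) (hk : (k : ℝ) ≤ ε * n) (hθ : 1 ≤ θ)
    (hθ' : θ ≤ 1 + (ε / 2) ^ k / 2) (L : ℕ) {S : Set (Asg n)} (hS : S.Nonempty) :
    kill 2 S * (2 * res k θ L S - 1) ≤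
      ε * (kill 1 S * (2 * res k θ L S - 1)) + 4 / ((ε / 2) ^ k) ^ 2 * kill k S := by
  set h := (ε / 2) ^ k with hh
  have h0 : 0 < h := by positivity
  have h1 : 0 ≤ 2 * res k θ L S - 1 := by
    have := one_le_res hkn (show 0 ≤ θ by linarith) hS L
    linarith
  have k1 := kill_nonneg 1 S
  have kk := kill_nonneg k S
  rcases le_total (kill 1 S) ε with hc | hc
  · have h2 : kill 2 S ≤ ε * kill 1 S := (kill_two_le hS).trans (by nlinarith)
    have h3 := mul_le_mul_of_nonneg_right h2 h1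
    have h4 : 0 ≤ 4 / h ^ 2 * kill k S := by positivity
    linarith
  · have h2 : h ≤ kill k S := le_kill hkn hε.le hk hS hc
    have h3 := res_le hkn h0 hθ hθ' L S h2
    have h4 : kill 2 S * (2 * res k θ L S - 1) ≤ 1 * (2 * res k θ L S - 1) :=
      mul_le_mul_of_nonneg_right (kill_le_one 2 S) h1
    have h5 : 4 / h ^ 2 * h ≤ 4 / h ^ 2 * kill k S :=
      mul_le_mul_of_nonneg_left h2 (by positivity)
    have h6 : 4 / h ^ 2 * h = 2 * (2 / h) := by field_simp; norm_num
    have h7 : 0 ≤ ε * (kill 1 S * (2 * res k θ L S - 1)) := by positivity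
    linarith

open Classical in
theorem main (hkn : k ≤ n) {ε : ℝ} (hε : 0 < ε) (hk : (k : ℝ) ≤ ε * n) (hθ : 1 ≤ θ)
    (hθ' : θ ≤ 1 + (ε / 2) ^ k / 2) (L : ℕ) : ∀ S : Set (Asg n),
    Asq k θ L 2 S ≤ ε * Asq k θ L 1 S +
      4 / ((ε / 2) ^ k) ^ 2 * (if S.Nonempty then Nsq k θ L S else 0) := by
  have := nonempty_clause hkn
  have hθ2 : 1 ≤ θ ^ 2 := one_le_pow₀ hθ
  set K := 4 / ((ε / 2) ^ k) ^ 2 with hK
  have hK0 : 0 ≤ K := by positivity
  induction L with
  | zero =>
    intro S
    split_ifs with hS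
    · have h1 := local_le hkn hε hk hθ hθ' 0 hS
      rw [res_zero hS] at h1
      rw [Asq_zero hS, Asq_zero hS, Nsq_zero hS]
      have h2 : K * kill k S ≤ K * θ ^ 2 :=
        mul_le_mul_of_nonneg_left ((kill_le_one k S).trans hθ2) hK0
      linarith
    · rw [Set.not_nonempty_iff_eq_empty.1 hS, Asq_empty hkn, Asq_empty hkn]
      simp
  | succ L ih =>
    intro S
    split_ifs with hS
    · have h1 := local_le hkn hε hk hθ hθ' (L + 1) hS
      have h2 : avg (fun c : Clause k n => Asq k θ L 2 (S ∩ sol c)) ≤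
          ε * avg (fun c : Clause k n => Asq k θ L 1 (S ∩ sol c)) +
            K * avg (fun c : Clause k n =>
              if (S ∩ sol c).Nonempty then Nsq k θ L (S ∩ sol c) else 0) := by
        rw [← avg_const_mul, ← avg_const_mul, ← avg_add]
        exact avg_mono fun c => ih _
      have h3 : avg (fun c : Clause k n => Nsq k θ L (S ∩ sol c)) = kill k S +
          avg (fun c : Clause k n =>
            if (S ∩ sol c).Nonempty then Nsq k θ L (S ∩ sol c) else 0) := by
        rw [kill, ← avg_add]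
        congr 1
        ext c
        split_ifs with hc
        · ring
        · rw [Set.not_nonempty_iff_eq_empty.1 hc, Nsq_empty hkn]; ring
      have h4 := mul_le_mul_of_nonneg_left h2 (show 0 ≤ θ ^ 2 by positivity)
      have h5 : K * kill k S ≤ K * (θ ^ 2 * kill k S) :=
        mul_le_mul_of_nonneg_left (le_mul_of_one_le_left (kill_nonneg k S) hθ2) hK0
      rw [Asq_succ hkn hS, Asq_succ hkn hS, Nsq_succ hS, h3]
      nlinarith
    · rw [Set.not_nonempty_iff_eq_empty.1 hS, Asq_empty hkn, Asq_empty hkn]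
      simp

end Key

theorem Asq_two_le {k n : ℕ} (hkn : k ≤ n) {ε θ : ℝ} (hε : 0 < ε) (hε1 : ε ≤ 1)
    (hk : (k : ℝ) ≤ ε * n) (hθ : 1 ≤ θ) (hθ' : θ ≤ 1 + (ε / 2) ^ k / 2) (L : ℕ)
    (S : Set (Asg n)) :
    Asq k θ L 2 S ≤ ε * Asq k θ L 1 S + 4 / ((ε / 2) ^ k) ^ 2 * Nsq k θ L S := by
  refine (Key.main hkn hε hk hθ hθ' L S).trans (add_le_add le_rfl ?_)
  refine mul_le_mul_of_nonneg_left ?_ (by positivity)
  split_ifs
  · exact le_rfl
  · exact Nsq_nonneg L S

theorem Asq_le_Asq_one {k n j : ℕ} (hkn : k ≤ n) (hj : 1 ≤ j) {θ : ℝ} (hθ : 1 ≤ θ) (L : ℕ)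
    (S : Set (Asg n)) : Asq k θ L j S ≤ Asq k θ L 1 S := by
  induction L generalizing S with
  | zero =>
    rcases S.eq_empty_or_nonempty with rfl | hS
    · rw [Key.Asq_empty hkn, Key.Asq_empty hkn]
    · rw [Key.Asq_zero hS, Key.Asq_zero hS]
      exact kill_le_kill_one hj hS
  | succ L ih =>
    rcases S.eq_empty_or_nonempty with rfl | hS
    · rw [Key.Asq_empty hkn, Key.Asq_empty hkn]
    · rw [Key.Asq_succ hkn hS, Key.Asq_succ hkn hS]
      have h1 := Key.one_le_res hkn (show 0 ≤ θ by linarith) hS (L + 1)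
      refine add_le_add (mul_le_mul_of_nonneg_right (kill_le_kill_one hj hS) (by linarith)) ?_
      exact mul_le_mul_of_nonneg_left (avg_mono fun c => ih _) (by positivity)

end Crest.Agent.R153
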