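import Crest.Agent.R153.Basic

/-! Row 153, module C: kill probabilities in terms of the frozen variables. -/

set_option autoImplicit false

namespace Crest.Agent.R153

open Finset Crest.ProbabilityR.RandomSAT Crest.Agent.R141

open Classical in
/-- The number of variables that are constant on `S`. -/
noncomputable def frozen {n : ℕ} (S : Set (Asg n)) : ℕ :=
  (univ.filter (fun i : Fin n => ∃ v : Bool, ∀ σ ∈ S, σ i = v)).card

variable {n : ℕ}

theorem frozen_le (S : Set (Asg n)) : frozen S ≤ n := by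
  classical
  unfold frozen
  exact (card_filter_le _ _).trans (by simp)

theorem kill_nonneg (j : ℕ) (S : Set (Asg n)) : 0 ≤ kill j S := by
  unfold kill
  exact avg_nonneg fun C => by split_ifs <;> norm_num

theorem kill_le_one (j : ℕ) (S : Set (Asg n)) : kill j S ≤ 1 := by
  unfold kill
  rcases isEmpty_or_nonempty (Clause j n) with h | h
  · simp [avg]
  · refine (avg_mono (g := fun _ => 1) fun C => by split_ifs <;> norm_num).trans_eq (avg_const 1)

theorem kill_anti (j : ℕ) {S S' : Set (Asg n)} (h : S' ⊆ S) : kill j S ≤ kill j S' := by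
  unfold kill
  refine avg_mono fun C => ?_
  by_cases h1 : (S ∩ sol C).Nonempty
  · rw [if_pos h1]; split_ifs <;> norm_num
  · rw [if_neg h1, if_neg fun h2 => h1 (h2.mono (Set.inter_subset_inter_left _ h))]

theorem kill_card_clause (j n : ℕ) :
    Fintype.card (Clause j n) = n.descFactorial j * 2 ^ j := by
  rw [Fintype.card_prod, Fintype.card_congr (Equiv.subtypeInjectiveEquivEmbedding _ _),
    Fintype.card_embedding_eq]
  simp

theorem kill_card_inj (j : ℕ) (Z : Finset (Fin n)) :
    (univ.filter (fun v : {v : Fin j → Fin n // Function.Injective v} => ∀ i, v.1 i ∈ Z)).card =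
      Z.card.descFactorial j := by
  rw [← Fintype.card_subtype]
  have e : {v : {v : Fin j → Fin n // Function.Injective v} // ∀ i, v.1 i ∈ Z} ≃ (Fin j ↪ Z) :=
    { toFun := fun v => ⟨fun i => ⟨v.1.1 i, v.2 i⟩, fun a b h => v.1.2 (congrArg Subtype.val h)⟩
      invFun := fun f => ⟨⟨fun i => f i, fun a b h => f.injective (Subtype.ext h)⟩,
        fun i => (f i).2⟩
      left_inv := fun _ => rfl
      right_inv := fun _ => rfl }
  rw [Fintype.card_congr e, Fintype.card_embedding_eq]
  simp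

theorem kill_eq (j : ℕ) {S : Set (Asg n)} (hS : S.Nonempty) :
    kill j S = ((frozen S).descFactorial j : ℝ) / (2 ^ j * (n.descFactorial j : ℝ)) := by
  classical
  obtain ⟨σ₀, hσ₀⟩ := hS
  set Z := univ.filter (fun i : Fin n => ∃ v : Bool, ∀ σ ∈ S, σ i = v) with hZ
  have hfro : frozen S = Z.card := by unfold frozen; congr
  have key : ∀ C : Clause j n, (if (S ∩ sol C).Nonempty then (0 : ℝ) else 1) =
      (if ∀ i, C.1.1 i ∈ Z then 1 else 0) * (if C.2 = fun i => !σ₀ (C.1.1 i) then 1 else 0) := by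
    intro C
    by_cases h : (S ∩ sol C).Nonempty
    · rw [if_pos h]
      obtain ⟨σ, hσ, i, hi⟩ := h
      by_cases h1 : ∀ i, C.1.1 i ∈ Z
      · rw [if_pos h1, if_neg, mul_zero]
        intro h2
        obtain ⟨v, hv⟩ := (mem_filter.1 (h1 i)).2
        rw [h2, hv σ hσ] at hi
        simp only [hv σ₀ hσ₀] at hi
        cases v <;> simp at hi
      · rw [if_neg h1, zero_mul]
    · have h1 : ∀ σ ∈ S, ∀ i, σ (C.1.1 i) = !C.2 i := fun σ hσ i => by
        have : σ (C.1.1 i) ≠ C.2 i := fun h2 => h ⟨σ, hσ, i, h2⟩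
        cases h3 : σ (C.1.1 i) <;> cases h4 : C.2 i <;> simp_all
      rw [if_neg h, if_pos, if_pos, mul_one]
      · funext i; rw [h1 σ₀ hσ₀ i, Bool.not_not]
      · exact fun i => mem_filter.2 ⟨mem_univ _, _, fun σ hσ => h1 σ hσ i⟩
  unfold kill avg
  rw [kill_card_clause, hfro, ← kill_card_inj j Z]
  simp only [key]
  rw [Fintype.sum_prod_type]
  have h3 : ∀ x : {v : Fin j → Fin n // Function.Injective v}, ∑ y : Fin j → Bool,
      (if ∀ i, x.1 i ∈ Z then (1 : ℝ) else 0) * (if y = fun i => !σ₀ (x.1 i) then 1 else 0) =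
      if ∀ i, x.1 i ∈ Z then 1 else 0 := by
    intro x
    rw [← mul_sum, sum_ite_eq', if_pos (mem_univ _), mul_one]
  rw [sum_congr rfl (fun x _ => h3 x), sum_boole]
  push_cast
  rw [mul_comm, div_eq_mul_inv, mul_comm ((2 : ℝ) ^ j)]

theorem kill_desc_le {b n : ℕ} (h : b ≤ n) (j : ℕ) :
    b.descFactorial j * n ^ j ≤ n.descFactorial j * b ^ j := by
  induction j with
  | zero => simp
  | succ j ih =>
    have h1 : (b - j) * n ≤ (n - j) * b := by
      rw [Nat.sub_mul, Nat.sub_mul, mul_comm n b]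
      exact Nat.sub_le_sub_left (Nat.mul_le_mul_left j h) _
    rw [Nat.descFactorial_succ, Nat.descFactorial_succ, pow_succ, pow_succ]
    calc (b - j) * b.descFactorial j * (n ^ j * n)
        = ((b - j) * n) * (b.descFactorial j * n ^ j) := by ring
      _ ≤ ((n - j) * b) * (n.descFactorial j * b ^ j) := Nat.mul_le_mul h1 ih
      _ = _ := by ring

theorem kill_one_eq {S : Set (Asg n)} (hS : S.Nonempty) :
    kill 1 S = (frozen S : ℝ) / (2 * n) := by
  rw [kill_eq 1 hS]; simp

theorem kill_le_pow (j : ℕ) {S : Set (Asg n)} (hS : S.Nonempty) :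
    kill j S ≤ ((frozen S : ℝ) / (2 * n)) ^ j := by
  rw [kill_eq j hS]
  rcases Nat.eq_zero_or_pos (n.descFactorial j) with h | h
  · rw [h]; simp only [Nat.cast_zero, mul_zero, div_zero]; positivity
  rcases Nat.eq_zero_or_pos j with rfl | hj
  · simp
  have hn : 0 < n := by
    rcases Nat.eq_zero_or_pos n with rfl | hn
    · obtain ⟨j, rfl⟩ : ∃ i, j = i + 1 := ⟨j - 1, by omega⟩
      simp at h
    · exact hn
  have h1 : (0 : ℝ) < n.descFactorial j := by exact_mod_cast h
  have h2 : (0 : ℝ) < n := by exact_mod_cast hn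
  have h3 : (((frozen S).descFactorial j : ℕ) : ℝ) * (n : ℝ) ^ j ≤
      (n.descFactorial j : ℝ) * (frozen S : ℝ) ^ j := by
    exact_mod_cast kill_desc_le (frozen_le S) j
  rw [div_pow, div_le_div_iff₀ (by positivity) (by positivity), mul_pow]
  nlinarith [mul_le_mul_of_nonneg_left h3 (by positivity : (0 : ℝ) ≤ 2 ^ j)]

theorem kill_two_le {S : Set (Asg n)} (hS : S.Nonempty) : kill 2 S ≤ kill 1 S ^ 2 := by
  rw [kill_one_eq hS]; exact kill_le_pow 2 hS

theorem kill_le_kill_one {j : ℕ} (hj : 1 ≤ j) {S : Set (Asg n)} (hS : S.Nonempty) :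
    kill j S ≤ kill 1 S := by
  refine (kill_le_pow j hS).trans ?_
  rw [← kill_one_eq hS]
  exact pow_le_of_le_one (kill_nonneg _ _) (kill_le_one _ _) (by omega)

theorem le_kill {k : ℕ} (hkn : k ≤ n) {ε : ℝ} (hε : 0 ≤ ε) (hk : (k : ℝ) ≤ ε * n)
    {S : Set (Asg n)} (hS : S.Nonempty) (h : ε ≤ kill 1 S) : (ε / 2) ^ k ≤ kill k S := by
  rw [kill_eq k hS]
  rcases Nat.eq_zero_or_pos k with rfl | hk0
  · simp
  have hn : (0 : ℝ) < n := by exact_mod_cast (by omega : 0 < n)
  rw [kill_one_eq hS, le_div_iff₀ (by positivity)] at h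
  have key : ∀ j ≤ k, ε ^ j * (n.descFactorial j : ℝ) ≤ ((frozen S).descFactorial j : ℝ) := by
    intro j
    induction j with
    | zero => simp
    | succ j ih =>
      intro hj
      have h1 : ε * ((n - j : ℕ) : ℝ) ≤ ((frozen S - j : ℕ) : ℝ) := by
        have h2 : ((n - j : ℕ) : ℝ) ≤ n := by exact_mod_cast Nat.sub_le n j
        have h3 : (frozen S : ℝ) - j ≤ ((frozen S - j : ℕ) : ℝ) := by
          rcases le_total j (frozen S) with h4 | h4
          · rw [Nat.cast_sub h4]
          · have : (frozen S : ℝ) ≤ j := by exact_mod_cast h4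
            have : (0 : ℝ) ≤ ((frozen S - j : ℕ) : ℝ) := Nat.cast_nonneg _
            linarith
        have h5 : (j : ℝ) ≤ k := by exact_mod_cast (by omega : j ≤ k)
        nlinarith [mul_le_mul_of_nonneg_left h2 hε]
      rw [Nat.descFactorial_succ, Nat.descFactorial_succ, pow_succ]
      push_cast
      calc ε ^ j * ε * (((n - j : ℕ) : ℝ) * (n.descFactorial j : ℝ))
          = (ε * ((n - j : ℕ) : ℝ)) * (ε ^ j * (n.descFactorial j : ℝ)) := by ring
        _ ≤ _ := mul_le_mul h1 (ih (by omega)) (by positivity) (Nat.cast_nonneg _)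
  have h1 : (0 : ℝ) < n.descFactorial k := by
    exact_mod_cast Nat.descFactorial_pos.2 hkn
  rw [le_div_iff₀ (by positivity), div_pow, ← mul_assoc, div_mul_cancel₀ _ (by positivity)]
  exact key k le_rfl

end Crest.Agent.R153
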