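import Crest.Agent.Lib.Computability.RatPrimrec

/-! Row 153: rational approximation of roots and logarithms (helpers for `LabApx`). -/

set_option autoImplicit false

namespace Crest.Agent.R153

open Finset Filter Topology Crest.Agent.Lib.Computability

theorem la_sum_range_eq {M : Type*} [AddCommMonoid M] (n : ℕ) (g : ℕ → M) :
    ∑ j ∈ range n, g j = ((List.range n).map g).sum := rfl

theorem la_primrec_sum {α : Type*} [Primcodable α] {n : α → ℕ} {g : α → ℕ → ℚ} (hn : Primrec n)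
    (hg : Primrec₂ g) : Primrec fun a => ∑ j ∈ range (n a), g a j :=
  rat_list_sum.comp (Primrec.list_map (Primrec.list_range.comp hn) hg)

/-- Upper approximation of `x ^ (a / c)`. -/
def laUp (P : ℕ) (x : ℚ) (a c : ℕ) : ℚ :=
  (∑ j ∈ range (P + 1), if ((j : ℚ) / (P + 1 : ℕ)) ^ c < x ^ a then (1 : ℚ) else 0) / (P + 1 : ℕ)

/-- One-sided approximation of `x ^ (a / c)`. -/
def laRoot (dir : Bool) (P : ℕ) (x : ℚ) (a c : ℕ) : ℚ :=
  cond dir (laUp P x a c) (max 0 (laUp P x a c - 1 / (P + 1 : ℕ)))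

/-- One-sided approximation of `log (max lo y)`. -/
def laLog (dir : Bool) (P : ℕ) (lo y : ℚ) : ℚ :=
  cond dir 1 (-1) * ((1 - max lo y) ^ (P + 1) / max lo y) -
    ∑ i ∈ range P, (1 - max lo y) ^ (i + 1) / (i + 1 : ℕ)

section prim
variable {α : Type*} [Primcodable α]

theorem primrec_laUp {P : α → ℕ} {x : α → ℚ} {a c : α → ℕ} (hP : Primrec P) (hx : Primrec x)
    (ha : Primrec a) (hc : Primrec c) : Primrec fun z => laUp (P z) (x z) (a z) (c z) := by
  have hQ : Primrec fun z => ((P z + 1 : ℕ) : ℚ) := rat_natCast.comp (Primrec.succ.comp hP)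
  refine rat_div.comp (la_primrec_sum (Primrec.succ.comp hP) ?_) hQ
  refine Primrec.ite (rat_lt.comp (rat_pow.comp (rat_div.comp (rat_natCast.comp Primrec.snd)
    (hQ.comp Primrec.fst)) (hc.comp Primrec.fst))
    (rat_pow.comp (hx.comp Primrec.fst) (ha.comp Primrec.fst))) (Primrec.const 1) (Primrec.const 0)

theorem primrec_laRoot (dir : Bool) {P : α → ℕ} {x : α → ℚ} {a c : α → ℕ} (hP : Primrec P)
    (hx : Primrec x) (ha : Primrec a) (hc : Primrec c) :
    Primrec fun z => laRoot dir (P z) (x z) (a z) (c z) := by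
  cases dir
  · exact rat_max.comp (Primrec.const 0) (rat_sub.comp (primrec_laUp hP hx ha hc)
      (rat_div.comp (Primrec.const 1) (rat_natCast.comp (Primrec.succ.comp hP))))
  · exact primrec_laUp hP hx ha hc

theorem primrec_laLog (dir : Bool) {P : α → ℕ} {lo y : α → ℚ} (hP : Primrec P)
    (hlo : Primrec lo) (hy : Primrec y) : Primrec fun z => laLog dir (P z) (lo z) (y z) := by
  have h1 : Primrec fun z => max (lo z) (y z) := rat_max.comp hlo hy
  have h2 : Primrec fun z => 1 - max (lo z) (y z) := rat_sub.comp (Primrec.const 1) h1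
  refine rat_sub.comp (rat_mul.comp (Primrec.const _) (rat_div.comp
    (rat_pow.comp h2 (Primrec.succ.comp hP)) h1)) (la_primrec_sum hP ?_)
  exact rat_div.comp (rat_pow.comp (h2.comp Primrec.fst) (Primrec.succ.comp Primrec.snd))
    (rat_natCast.comp (Primrec.succ.comp Primrec.snd))

end prim

theorem laUp_eq (P : ℕ) {x : ℚ} (h0 : 0 ≤ x) (h1 : x ≤ 1) (a : ℕ) {c : ℕ} (hc : 0 < c) :
    (laUp P x a c : ℝ) = (⌈((P : ℝ) + 1) * (x : ℝ) ^ ((a : ℝ) / c)⌉₊ : ℝ) / ((P : ℝ) + 1) := by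
  have h0' : (0 : ℝ) ≤ x := by exact_mod_cast h0
  have h1' : (x : ℝ) ≤ 1 := by exact_mod_cast h1
  set y := (x : ℝ) ^ ((a : ℝ) / c) with hy
  have hy0 : 0 ≤ y := Real.rpow_nonneg h0' _
  have hy1 : y ≤ 1 := Real.rpow_le_one h0' h1' (by positivity)
  have hyc : y ^ c = (x : ℝ) ^ a := by
    rw [hy, ← Real.rpow_natCast, ← Real.rpow_mul h0', div_mul_cancel₀ _ (by positivity),
      Real.rpow_natCast]
  have hP : (0 : ℝ) < (P : ℝ) + 1 := by positivity
  have hn : ⌈((P : ℝ) + 1) * y⌉₊ ≤ P + 1 := by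
    rw [Nat.ceil_le]; push_cast; nlinarith
  have hiff : ∀ j : ℕ, ((j : ℚ) / (P + 1 : ℕ)) ^ c < x ^ a ↔ j < ⌈((P : ℝ) + 1) * y⌉₊ := by
    intro j
    rw [Nat.lt_ceil, ← div_lt_iff₀' hP, ← pow_lt_pow_iff_left₀ (by positivity) hy0 hc.ne', hyc,
      ← Rat.cast_lt (K := ℝ)]
    push_cast
    rfl
  unfold laUp
  simp only [hiff]
  rw [sum_boole, show (range (P + 1)).filter (· < ⌈((P : ℝ) + 1) * y⌉₊) =
    range ⌈((P : ℝ) + 1) * y⌉₊ by ext j; simp only [mem_filter, mem_range]; omega, card_range]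
  push_cast
  rfl

theorem laRoot_spec (dir : Bool) (P : ℕ) {x : ℚ} (h0 : 0 ≤ x) (h1 : x ≤ 1) (a : ℕ) {c : ℕ}
    (hc : 0 < c) : (0 ≤ laRoot dir P x a c ∧ laRoot dir P x a c ≤ 1) ∧
      cond dir ((x : ℝ) ^ ((a : ℝ) / c) ≤ laRoot dir P x a c)
        (laRoot dir P x a c ≤ (x : ℝ) ^ ((a : ℝ) / c)) ∧
      |(laRoot dir P x a c : ℝ) - (x : ℝ) ^ ((a : ℝ) / c)| ≤ 1 / ((P : ℝ) + 1) := by
  have h0' : (0 : ℝ) ≤ x := by exact_mod_cast h0
  have h1' : (x : ℝ) ≤ 1 := by exact_mod_cast h1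
  have e := laUp_eq P h0 h1 a hc
  set y := (x : ℝ) ^ ((a : ℝ) / c) with hy
  have hy0 : 0 ≤ y := Real.rpow_nonneg h0' _
  have hy1 : y ≤ 1 := Real.rpow_le_one h0' h1' (by positivity)
  have hP : (0 : ℝ) < (P : ℝ) + 1 := by positivity
  have a1 : y ≤ laUp P x a c := by rw [e, le_div_iff₀' hP]; exact Nat.le_ceil _
  have a2 : (laUp P x a c : ℝ) ≤ 1 := by
    rw [e, div_le_one hP]
    have : ⌈((P : ℝ) + 1) * y⌉₊ ≤ P + 1 := by rw [Nat.ceil_le]; push_cast; nlinarith
    exact_mod_cast this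
  have a3 : (laUp P x a c : ℝ) ≤ y + 1 / ((P : ℝ) + 1) := by
    rw [e, div_le_iff₀' hP, mul_add, mul_one_div_cancel hP.ne']
    exact (Nat.ceil_lt_add_one (by positivity)).le
  have a4 : 0 < 1 / ((P : ℝ) + 1) := by positivity
  cases dir
  · have e2 : (laRoot false P x a c : ℝ) = max 0 ((laUp P x a c : ℝ) - 1 / ((P : ℝ) + 1)) := by
      simp [laRoot]
    have b1 : (laRoot false P x a c : ℝ) ≤ y := by rw [e2]; exact max_le hy0 (by linarith)
    refine ⟨⟨le_max_left _ _, by exact_mod_cast b1.trans hy1⟩, b1, abs_le.2 ⟨?_, by linarith⟩⟩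
    rw [e2]
    linarith [le_max_right 0 ((laUp P x a c : ℝ) - 1 / ((P : ℝ) + 1))]
  · have e2 : laRoot true P x a c = laUp P x a c := rfl
    rw [e2]
    exact ⟨⟨by exact_mod_cast hy0.trans a1, by exact_mod_cast a2⟩, a1,
      abs_le.2 ⟨by linarith, by linarith⟩⟩

/-- One-sided approximation. -/
structure LaApx0 (dir : Bool) (u : ℕ → ℚ) (y : ℝ) : Prop where
  side : ∀ P, cond dir (y ≤ u P) (u P ≤ y)
  lim : Tendsto (fun P => (u P : ℝ)) atTop (𝓝 y)

/-- One-sided approximation inside `[0, 1]`. -/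
structure LaApx (dir : Bool) (u : ℕ → ℚ) (y : ℝ) : Prop extends LaApx0 dir u y where
  bd : ∀ P, 0 ≤ u P ∧ u P ≤ 1

theorem LaApx.const (dir : Bool) {x : ℚ} (h0 : 0 ≤ x) (h1 : x ≤ 1) : LaApx dir (fun _ => x) x :=
  ⟨⟨fun _ => by cases dir <;> exact le_rfl, tendsto_const_nhds⟩, fun _ => ⟨h0, h1⟩⟩

theorem LaApx.root {dir : Bool} {u : ℕ → ℚ} {y : ℝ} (h : LaApx dir u y) (a : ℕ) {c : ℕ}
    (hc : 0 < c) : LaApx dir (fun P => laRoot dir P (u P) a c) (y ^ ((a : ℝ) / c)) := by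
  have hs := fun P => laRoot_spec dir P (h.bd P).1 (h.bd P).2 a hc
  have hu0 : ∀ P, (0 : ℝ) ≤ u P := fun P => by exact_mod_cast (h.bd P).1
  have hy0 : 0 ≤ y := ge_of_tendsto' h.lim hu0
  have he : (0 : ℝ) ≤ (a : ℝ) / c := by positivity
  refine ⟨⟨fun P => ?_, ?_⟩, fun P => (hs P).1⟩
  · have h1 := (hs P).2.1
    have h2 := h.side P
    cases dir
    · exact le_trans h1 (Real.rpow_le_rpow (hu0 P) h2 he)
    · exact le_trans (Real.rpow_le_rpow hy0 h2 he) h1
  · have h1 := h.lim.rpow_const (p := (a : ℝ) / c) (Or.inr he)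
    have h2 : Tendsto (fun P => (laRoot dir P (u P) a c : ℝ) - (u P : ℝ) ^ ((a : ℝ) / c)) atTop
        (𝓝 0) := squeeze_zero_norm (fun P => (hs P).2.2) tendsto_one_div_add_atTop_nhds_zero_nat
    simpa using h2.add h1

theorem LaApx0.avg {dir : Bool} {I : Type*} [Fintype I] {u : I → ℕ → ℚ} {y : I → ℝ}
    (h : ∀ i, LaApx0 dir (u i) (y i)) (n : ℕ) :
    LaApx0 dir (fun P => (∑ i, u i P) / n) ((∑ i, y i) / n) := by
  refine ⟨fun P => ?_, ?_⟩
  · have h1 := fun i => (h i).side P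
    cases dir <;> simp only [cond] at h1 ⊢ <;> push_cast <;>
      exact div_le_div_of_nonneg_right (sum_le_sum fun i _ => h1 i) n.cast_nonneg
  · push_cast
    exact (tendsto_finsetSum _ fun i _ => (h i).lim).div_const _

theorem LaApx.avg {dir : Bool} {I : Type*} [Fintype I] {u : I → ℕ → ℚ} {y : I → ℝ}
    (h : ∀ i, LaApx dir (u i) (y i)) {n : ℕ} (hn : Fintype.card I = n) :
    LaApx dir (fun P => (∑ i, u i P) / n) ((∑ i, y i) / n) := by
  refine ⟨LaApx0.avg (fun i => (h i).toLaApx0) n, fun P => ⟨?_, ?_⟩⟩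
  · exact div_nonneg (sum_nonneg fun i _ => ((h i).bd P).1) n.cast_nonneg
  · refine div_le_one_of_le₀ ?_ n.cast_nonneg
    have := sum_le_card_nsmul univ (fun i => u i P) 1 fun i _ => ((h i).bd P).2
    simpa [hn] using this

theorem LaApx.log {dir : Bool} {u : ℕ → ℚ} {y : ℝ} (h : LaApx dir u y) {lo : ℚ} (h0 : 0 < lo)
    (h1 : (lo : ℝ) ≤ y) : LaApx0 dir (fun P => laLog dir P lo (u P)) (Real.log y) := by
  have h0' : (0 : ℝ) < lo := by exact_mod_cast h0
  have hu1 : ∀ P, (u P : ℝ) ≤ 1 := fun P => by exact_mod_cast (h.bd P).2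
  have hy1 : y ≤ 1 := le_of_tendsto' h.lim hu1
  set z : ℕ → ℝ := fun P => max (lo : ℝ) (u P) with hz
  have hz0 : ∀ P, (lo : ℝ) ≤ z P := fun P => le_max_left _ _
  have hz1 : ∀ P, z P ≤ 1 := fun P => max_le (h1.trans hy1) (hu1 P)
  have e : ∀ P, (laLog dir P lo (u P) : ℝ) = cond dir 1 (-1) * ((1 - z P) ^ (P + 1) / z P) -
      ∑ i ∈ range P, (1 - z P) ^ (i + 1) / (i + 1) := by
    intro P
    cases dir <;> simp [laLog, hz]
  have key : ∀ P, |(∑ i ∈ range P, (1 - z P) ^ (i + 1) / (i + 1)) + Real.log (z P)| ≤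
      (1 - z P) ^ (P + 1) / z P := by
    intro P
    have ha : |1 - z P| = 1 - z P := abs_of_nonneg (by linarith [hz1 P])
    have := Real.abs_log_sub_add_sum_range_le (x := 1 - z P) (by rw [ha]; linarith [hz0 P]) P
    simpa only [ha, sub_sub_cancel] using this
  refine ⟨fun P => ?_, ?_⟩
  · have h2 := h.side P
    have h3 := abs_le.1 (key P)
    rw [e]
    cases dir <;> simp only [cond] at h2 ⊢
    · have := Real.log_le_log (h0'.trans_le (hz0 P)) (show z P ≤ y from max_le h1 h2)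
      linarith [h3.1]
    · have := Real.log_le_log (h0'.trans_le h1) (show y ≤ z P from h2.trans (le_max_right _ _))
      linarith [h3.2]
  · have h2 : Tendsto z atTop (𝓝 y) := by
      have := (tendsto_const_nhds (x := (lo : ℝ))).max h.lim
      rwa [max_eq_right h1] at this
    have h3 := h2.log (h0'.trans_le h1).ne'
    have h4 : Tendsto (fun P : ℕ => 2 * ((1 - (lo : ℝ)) ^ (P + 1) / lo)) atTop (𝓝 0) := by
      have := (((tendsto_pow_atTop_nhds_zero_of_lt_one (r := 1 - (lo : ℝ)) (by linarith)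
        (by linarith)).comp (tendsto_add_atTop_nat 1)).div_const (lo : ℝ)).const_mul 2
      simpa using this
    have h5 : Tendsto (fun P => (laLog dir P lo (u P) : ℝ) - Real.log (z P)) atTop (𝓝 0) := by
      refine squeeze_zero_norm (fun P => ?_) h4
      have h6 := abs_le.1 (key P)
      have h7 : (1 - z P) ^ (P + 1) / z P ≤ (1 - (lo : ℝ)) ^ (P + 1) / lo :=
        div_le_div₀ (pow_nonneg (by linarith) _)
          (pow_le_pow_left₀ (by linarith [hz1 P]) (by linarith [hz0 P]) _) h0' (hz0 P)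
      rw [e, Real.norm_eq_abs, abs_le]
      cases dir <;> simp only [cond] <;> constructor <;> linarith [h6.1, h6.2]
    simpa using h5.add h3

/-- The address list of the `j`-th child. -/
def laChild (B n j : ℕ) (addr : List ℕ) : List ℕ :=
  (List.range n).map fun l => addr.getD l 0 * (B + 1) + j / (B + 1) ^ l % (B + 1)

theorem primrec_laChild {α : Type*} [Primcodable α] {B n j : α → ℕ} {addr : α → List ℕ}
    (hB : Primrec B) (hn : Primrec n) (hj : Primrec j) (ha : Primrec addr) :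
    Primrec fun z => laChild (B z) (n z) (j z) (addr z) := by
  have hB' : Primrec fun p : α × ℕ => B p.1 + 1 := Primrec.succ.comp (hB.comp Primrec.fst)
  refine Primrec.list_map (Primrec.list_range.comp hn) ?_
  exact Primrec.nat_add.comp (Primrec.nat_mul.comp
    ((Primrec.list_getD 0).comp (ha.comp Primrec.fst) Primrec.snd) hB')
    (Primrec.nat_mod.comp (Primrec.nat_div.comp (hj.comp Primrec.fst)
      (nat_pow.comp hB' Primrec.snd)) hB')

theorem la_sum_child {M : Type*} [AddCommMonoid M] {Λ : Type} [Fintype Λ] [DecidableEq Λ] {n : ℕ}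
    (e : Fin n ≃ Λ) (B : ℕ) (ad : Λ → ℕ) (G : List ℕ → M) :
    ∑ j ∈ range ((B + 1) ^ n), G (laChild B n j (List.ofFn fun i => ad (e i))) =
      ∑ ω : Λ → Fin (B + 1), G (List.ofFn fun i => ad (e i) * (B + 1) + ω (e i)) := by
  rw [Finset.sum_range]
  refine Fintype.sum_equiv (finFunctionFinEquiv.symm.trans (e.arrowCongr (Equiv.refl _))) _ _
    fun j => ?_
  congr 1
  apply List.ext_getElem
  · simp [laChild]
  · intro l h1 h2
    have hl : l < n := by simpa using h2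
    simp [laChild, hl]

end Crest.Agent.R153
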