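import Crest.Agent.R153.SatDefs
import Crest.Agent.Lib.Computability.RatPrimrec
import Crest.Agent.R153.LabApxAux

/-! Row 153, module Q: primitive recursive two-sided approximations of `labLog` on finite data. -/

set_option autoImplicit false

namespace Crest.Agent.R153

open Finset Crest.Agent.R141 Crest.Agent.Lib.Computability

theorem primrec_exps : ∃ chk : LabData → Bool, Primrec chk ∧ ∀ D, chk D = true ↔ Exps D.m := by
  have hr : Primrec fun D : LabData => D.2.2.2.2 :=
    Primrec.snd.comp (Primrec.snd.comp (Primrec.snd.comp Primrec.snd))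
  have ha : Primrec fun D : LabData => D.2.2.2.1 :=
    Primrec.fst.comp (Primrec.snd.comp (Primrec.snd.comp Primrec.snd))
  have hN : Primrec fun D : LabData => D.2.2.1 := Primrec.fst.comp (Primrec.snd.comp Primrec.snd)
  have hR : PrimrecRel fun (d : ℕ) (a : List ℕ) => a.getD (d + 1) 0 ≤ a.getD d 0 :=
    Primrec.nat_le.comp ((Primrec.list_getD 0).comp Primrec.snd (Primrec.succ.comp Primrec.fst))
      ((Primrec.list_getD 0).comp Primrec.snd Primrec.fst)
  have hR' : PrimrecPred fun D : LabData =>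
      ∀ d < D.2.2.2.2, D.2.2.2.1.getD (d + 1) 0 ≤ D.2.2.2.1.getD d 0 :=
    (hR.forall_mem_list.comp (Primrec.list_range.comp hr) ha).of_eq (by simp)
  have hP : PrimrecPred fun D : LabData =>
      (∀ d < D.2.2.2.2, D.2.2.2.1.getD (d + 1) 0 ≤ D.2.2.2.1.getD d 0) ∧
        0 < D.2.2.2.1.getD D.2.2.2.2 0 ∧ D.2.2.2.1.getD 0 0 = D.2.2.1 + 1 :=
    hR'.and
      ((Primrec.nat_lt.comp (Primrec.const 0) ((Primrec.list_getD 0).comp ha hr)).and
        (Primrec.eq.comp ((Primrec.list_getD 0).comp ha (Primrec.const 0)) (Primrec.succ.comp hN)))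
  refine ⟨_, hP.decide, ?_⟩
  rintro ⟨B, f, N, a, r⟩
  rw [decide_eq_true_iff]
  have hN' : (0 : ℝ) < (N : ℝ) + 1 := by positivity
  change _ ↔ Exps (mq a N r)
  simp only
  constructor
  · rintro ⟨h1, h2, h3⟩
    have hanti : Antitone (mq a N r) := by
      refine antitone_nat_of_succ_le fun d => ?_
      unfold mq
      refine div_le_div_of_nonneg_right ?_ hN'.le
      rcases Nat.lt_or_ge d r with h | h
      · rw [min_eq_left h.le, min_eq_left (Nat.succ_le_of_lt h)]
        exact_mod_cast h1 d h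
      · rw [min_eq_right h, min_eq_right (by omega)]
    refine ⟨fun d => ?_, hanti, ?_⟩
    · have e : mq a N r (max d r) = (a.getD r 0 : ℝ) / ((N : ℝ) + 1) := by
        unfold mq; rw [min_eq_right (le_max_right _ _)]
      refine lt_of_lt_of_le ?_ (hanti (le_max_left d r))
      rw [e]
      exact div_pos (by exact_mod_cast h2) hN'
    · unfold mq
      rw [Nat.zero_min, h3]; push_cast; exact div_self hN'.ne'
  · intro h
    refine ⟨fun d hd => ?_, ?_, ?_⟩
    · have := h.anti (Nat.le_succ d)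
      unfold mq at this
      rw [min_eq_left hd.le, min_eq_left (Nat.succ_le_of_lt hd),
        div_le_div_iff_of_pos_right hN'] at this
      exact_mod_cast this
    · have := h.pos r
      unfold mq at this
      rw [min_self, div_pos_iff_of_pos_right hN'] at this
      exact_mod_cast this
    · have := h.zero
      unfold mq at this
      rw [Nat.zero_min, div_eq_one_iff_eq hN'.ne'] at this
      exact_mod_cast this

/-- Approximation of the nested power means over products of uniform trees. -/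
def laT (dir : Bool) (V : List Bool → ℚ) (n : ℕ) (D : LabData) (P : ℕ) : ℕ → List ℕ → ℚ
  | 0, addr => V (addr.map fun a => D.2.1.getD a false)
  | d + 1, addr => laRoot dir P
      ((∑ j ∈ range ((D.1 + 1) ^ n), laRoot dir P (laT dir V n D P d (laChild D.1 n j addr))
        (D.2.2.2.1.getD (min d D.2.2.2.2) 0) (D.2.2.1 + 1)) / ((D.1 + 1) ^ n : ℕ))
      (D.2.2.1 + 1) (D.2.2.2.1.getD (min d D.2.2.2.2) 0)

theorem primrec_laT {π : Type} [Primcodable π] {ell : π → ℕ} (hell : Primrec ell)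
    {V : π → List Bool → ℚ} (hV : Primrec₂ V) (dir : Bool) :
    Primrec₂ fun (z : (π × LabData) × ℕ) (b : ℕ × List ℕ) =>
      laT dir (V z.1.1) (ell z.1.1) z.1.2 z.2 b.1 b.2 := by
  have hx : Primrec fun z : (π × LabData) × ℕ => z.1.1 := Primrec.fst.comp Primrec.fst
  have hD : Primrec fun z : (π × LabData) × ℕ => z.1.2 := Primrec.snd.comp Primrec.fst
  have hB : Primrec fun z : (π × LabData) × ℕ => z.1.2.1 := Primrec.fst.comp hD
  have hf : Primrec fun z : (π × LabData) × ℕ => z.1.2.2.1 := Primrec.fst.comp (Primrec.snd.comp hD)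
  have hN : Primrec fun z : (π × LabData) × ℕ => z.1.2.2.2.1 + 1 :=
    Primrec.succ.comp (Primrec.fst.comp (Primrec.snd.comp (Primrec.snd.comp hD)))
  have ha : Primrec fun z : (π × LabData) × ℕ => z.1.2.2.2.2.1 :=
    Primrec.fst.comp (Primrec.snd.comp (Primrec.snd.comp (Primrec.snd.comp hD)))
  have hr : Primrec fun z : (π × LabData) × ℕ => z.1.2.2.2.2.2 :=
    Primrec.snd.comp (Primrec.snd.comp (Primrec.snd.comp (Primrec.snd.comp hD)))
  have hK : Primrec fun z : (π × LabData) × ℕ => (z.1.2.1 + 1) ^ ell z.1.1 :=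
    nat_pow.comp (Primrec.succ.comp hB) (hell.comp hx)
  have had : Primrec₂ fun (z : (π × LabData) × ℕ) (d : ℕ) =>
      z.1.2.2.2.2.1.getD (min d z.1.2.2.2.2.2) 0 :=
    (Primrec.list_getD 0).comp (ha.comp Primrec.fst)
      (Primrec.nat_min.comp Primrec.snd (hr.comp Primrec.fst))
  refine Primrec.nat_omega_rec _ (m := fun _ b => b.1)
    (l := fun z b => Nat.casesOn (motive := fun _ => List (ℕ × List ℕ)) b.1 []
      (fun d => (List.range ((z.1.2.1 + 1) ^ ell z.1.1)).map
        fun j => (d, laChild z.1.2.1 (ell z.1.1) j b.2)))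
    (g := fun z c => some (Nat.casesOn (motive := fun _ => ℚ) c.1.1
      (V z.1.1 (c.1.2.map fun a => z.1.2.2.1.getD a false))
      (fun d => laRoot dir z.2 ((c.2.map fun v => laRoot dir z.2 v
          (z.1.2.2.2.2.1.getD (min d z.1.2.2.2.2.2) 0) (z.1.2.2.2.1 + 1)).sum /
          ((z.1.2.1 + 1) ^ ell z.1.1 : ℕ))
        (z.1.2.2.2.1 + 1) (z.1.2.2.2.2.1.getD (min d z.1.2.2.2.2.2) 0))))
    (Primrec.fst.comp Primrec.snd) ?_ ?_ ?_ ?_
  · refine Primrec.nat_casesOn (Primrec.fst.comp Primrec.snd) (Primrec.const []) ?_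
    refine Primrec.list_map (Primrec.list_range.comp (hK.comp (Primrec.fst.comp Primrec.fst))) ?_
    have h1 : Primrec fun w : ((((π × LabData) × ℕ) × ℕ × List ℕ) × ℕ) × ℕ => w.1.1.1 :=
      Primrec.fst.comp (Primrec.fst.comp Primrec.fst)
    exact (Primrec.snd.comp Primrec.fst).pair (primrec_laChild (hB.comp h1)
      (hell.comp (hx.comp h1)) Primrec.snd
      (Primrec.snd.comp (Primrec.snd.comp (Primrec.fst.comp Primrec.fst))))
  · refine Primrec.option_some.comp (Primrec.nat_casesOn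
      (Primrec.fst.comp (Primrec.fst.comp Primrec.snd)) ?_ ?_)
    · refine hV.comp (hx.comp Primrec.fst)
        (Primrec.list_map (Primrec.snd.comp (Primrec.fst.comp Primrec.snd)) ?_)
      exact (Primrec.list_getD false).comp (hf.comp (Primrec.fst.comp Primrec.fst)) Primrec.snd
    · have h1 : Primrec fun w : (((π × LabData) × ℕ) × (ℕ × List ℕ) × List ℚ) × ℕ => w.1.1 :=
        Primrec.fst.comp Primrec.fst
      have h2 := had.comp h1 Primrec.snd
      refine primrec_laRoot dir (Primrec.snd.comp h1) (rat_div.comp (rat_list_sum.comp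
        (Primrec.list_map (Primrec.snd.comp (Primrec.snd.comp Primrec.fst)) ?_))
        (rat_natCast.comp (hK.comp h1))) (hN.comp h1) h2
      exact primrec_laRoot dir (Primrec.snd.comp (h1.comp Primrec.fst)) Primrec.snd
        (h2.comp Primrec.fst) (hN.comp (h1.comp Primrec.fst))
  · rintro z ⟨d, addr⟩ b' hb'
    cases d with
    | zero => simp at hb'
    | succ d =>
      simp only [List.mem_map] at hb'
      obtain ⟨j, -, rfl⟩ := hb'
      exact Nat.lt_succ_self d
  · rintro z ⟨d, addr⟩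
    cases d with
    | zero => rfl
    | succ d => simp only [laT, la_sum_range_eq, List.map_map]; rfl

theorem laT_apx (V : List Bool → ℚ) {n : ℕ} (D : LabData) (hm : Exps D.m) {lo : ℚ} (hlo : 0 < lo)
    {Λ : Type} [Fintype Λ] [DecidableEq Λ] (e : Fin n ≃ Λ) (W : (Λ → Bool) → ℝ)
    (hW : ∀ s, W s = V (List.ofFn (fun i => s (e i)))) (hb : ∀ s, (lo : ℝ) ≤ W s ∧ W s ≤ 1)
    (dir : Bool) (d : ℕ) (ad : Λ → ℕ) :
    (lo : ℝ) ≤ Sys.T D.m d (Sys.piProd d fun l => utree D.1 (fun a => D.2.1.getD a false) d (ad l))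
        (fun L => W L.val) ∧
      LaApx dir (fun P => laT dir V n D P d (List.ofFn fun i => ad (e i)))
        (Sys.T D.m d (Sys.piProd d fun l => utree D.1 (fun a => D.2.1.getD a false) d (ad l))
          (fun L => W L.val)) := by
  have hlo' : (0 : ℝ) < lo := by exact_mod_cast hlo
  induction d generalizing ad with
  | zero =>
    change (lo : ℝ) ≤ W (fun l => D.2.1.getD (ad l) false) ∧
      LaApx dir (fun _ => V ((List.ofFn fun i => ad (e i)).map fun a => D.2.1.getD a false))
        (W (fun l => D.2.1.getD (ad l) false))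
    have h1 := hb (fun l => D.2.1.getD (ad l) false)
    refine ⟨h1.1, ?_⟩
    rw [hW] at h1 ⊢
    rw [List.map_ofFn]
    exact LaApx.const dir (by exact_mod_cast hlo'.le.trans h1.1) (by exact_mod_cast h1.2)
  | succ d ih =>
    have hcard : Fintype.card (Λ → Fin (D.1 + 1)) = (D.1 + 1) ^ n := by
      rw [Fintype.card_fun, Fintype.card_fin, ← Fintype.card_congr e, Fintype.card_fin]
    have hmd := hm.pos d
    have ha : 0 < D.2.2.2.1.getD (min d D.2.2.2.2) 0 := by
      have : (0 : ℝ) < (D.2.2.2.1.getD (min d D.2.2.2.2) 0 : ℝ) / ((D.2.2.1 : ℝ) + 1) := hmd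
      rw [div_pos_iff_of_pos_right (by positivity)] at this
      exact_mod_cast this
    have e1 : D.m d = (D.2.2.2.1.getD (min d D.2.2.2.2) 0 : ℝ) / (D.2.2.1 + 1 : ℕ) := by
      push_cast; rfl
    have e2 : Sys.T D.m (d + 1) (Sys.piProd (d + 1)
        fun l => utree D.1 (fun a => D.2.1.getD a false) (d + 1) (ad l)) (fun L => W L.val) =
        ((∑ ω : Λ → Fin (D.1 + 1), Sys.T D.m d (Sys.piProd d fun l => utree D.1
          (fun a => D.2.1.getD a false) d (ad l * (D.1 + 1) + ω l)) (fun L => W L.val) ^ D.m d) /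
          ((D.1 + 1) ^ n : ℕ)) ^ (D.m d)⁻¹ := by
      change (∑ ω : Λ → Fin (D.1 + 1), (∏ _l : Λ, ((D.1 : ℝ) + 1)⁻¹) * _ ^ D.m d) ^ (D.m d)⁻¹ = _
      rw [← mul_sum, prod_const, card_univ, ← Fintype.card_congr e, Fintype.card_fin, inv_pow,
        ← div_eq_inv_mul]
      push_cast
      rfl
    rw [e2]
    constructor
    · rw [← Real.rpow_rpow_inv hlo'.le hmd.ne']
      refine Real.rpow_le_rpow (by positivity) ?_ (inv_nonneg.2 hmd.le)
      rw [le_div_iff₀' (by positivity), ← hcard, ← nsmul_eq_mul, ← card_univ]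
      exact card_nsmul_le_sum _ _ _ fun ω _ => Real.rpow_le_rpow hlo'.le (ih _).1 hmd.le
    · have h1 := (LaApx.avg (fun ω : Λ → Fin (D.1 + 1) =>
        (ih fun l => ad l * (D.1 + 1) + ω l).2.root (D.2.2.2.1.getD (min d D.2.2.2.2) 0)
          (c := D.2.2.1 + 1) (Nat.succ_pos _)) hcard).root (D.2.2.1 + 1) ha
      rw [← inv_div _ ((D.2.2.1 + 1 : ℕ) : ℝ), ← e1] at h1
      convert h1 using 2 with P
      rw [laT, la_sum_child e D.1 ad (fun addr => laRoot dir P (laT dir V n D P d addr)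
        (D.2.2.2.1.getD (min d D.2.2.2.2) 0) (D.2.2.1 + 1))]

/-- Approximation of `labLog`. -/
def laLab (dir : Bool) (V : List Bool → ℚ) (n : ℕ) (lo : ℚ) (D : LabData) (P : ℕ) : ℚ :=
  (∑ j ∈ range ((D.1 + 1) ^ n), laLog dir P lo
    (laT dir V n D P (D.2.2.2.2 + 1) (laChild D.1 n j []))) / ((D.1 + 1) ^ n : ℕ)

theorem laLab_apx (V : List Bool → ℚ) {n : ℕ} (D : LabData) (hm : Exps D.m) {lo : ℚ}
    (hlo : 0 < lo) {Λ : Type} [Fintype Λ] [DecidableEq Λ] (e : Fin n ≃ Λ) (W : (Λ → Bool) → ℝ)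
    (hW : ∀ s, W s = V (List.ofFn (fun i => s (e i)))) (hb : ∀ s, (lo : ℝ) ≤ W s ∧ W s ≤ 1)
    (dir : Bool) : LaApx0 dir (laLab dir V n lo D) (labLog D.m D.r D.lab W) := by
  have h1 := LaApx0.avg (fun ω : Λ → Fin (D.1 + 1) =>
    (laT_apx V D hm hlo e W hW hb dir (D.r + 1) fun l => 0 * (D.1 + 1) + ω l).2.log hlo
      (laT_apx V D hm hlo e W hW hb dir (D.r + 1) fun l => 0 * (D.1 + 1) + ω l).1) ((D.1 + 1) ^ n)
  convert h1 using 1
  · funext P
    have e1 : ∀ j, laChild D.1 n j [] = laChild D.1 n j (List.ofFn fun i => (fun _ => 0) (e i)) := by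
      intro j
      unfold laChild
      refine List.map_congr_left fun l hl => ?_
      simp [List.mem_range.1 hl]
    unfold laLab
    simp only [e1]
    rw [la_sum_child e D.1 (fun _ => 0) (fun addr => laLog dir P lo
      (laT dir V n D P (D.2.2.2.2 + 1) addr))]
    rfl
  · change ∑ ω : Λ → Fin (D.1 + 1), (∏ _l : Λ, ((D.1 : ℝ) + 1)⁻¹) * _ = _
    rw [← mul_sum, prod_const, card_univ, ← Fintype.card_congr e, Fintype.card_fin, inv_pow,
      ← div_eq_inv_mul]
    push_cast
    rfl

theorem primrec_laLab {π : Type} [Primcodable π] {ell : π → ℕ} (hell : Primrec ell)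
    {V : π → List Bool → ℚ} (hV : Primrec₂ V) {lo : π → ℚ} (hlo : Primrec lo) (dir : Bool) :
    Primrec fun z : (π × LabData) × ℕ => laLab dir (V z.1.1) (ell z.1.1) (lo z.1.1) z.1.2 z.2 := by
  have hx : Primrec fun z : (π × LabData) × ℕ => z.1.1 := Primrec.fst.comp Primrec.fst
  have hD : Primrec fun z : (π × LabData) × ℕ => z.1.2 := Primrec.snd.comp Primrec.fst
  have hB : Primrec fun z : (π × LabData) × ℕ => z.1.2.1 := Primrec.fst.comp hD
  have hr : Primrec fun z : (π × LabData) × ℕ => z.1.2.2.2.2.2 :=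
    Primrec.snd.comp (Primrec.snd.comp (Primrec.snd.comp (Primrec.snd.comp hD)))
  have hK : Primrec fun z : (π × LabData) × ℕ => (z.1.2.1 + 1) ^ ell z.1.1 :=
    nat_pow.comp (Primrec.succ.comp hB) (hell.comp hx)
  refine rat_div.comp (la_primrec_sum hK ?_) (rat_natCast.comp hK)
  refine primrec_laLog dir (Primrec.snd.comp Primrec.fst) (hlo.comp (hx.comp Primrec.fst)) ?_
  exact (primrec_laT hell hV dir).comp Primrec.fst
    ((Primrec.succ.comp (hr.comp Primrec.fst)).pair (primrec_laChild (hB.comp Primrec.fst)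
      (hell.comp (hx.comp Primrec.fst)) Primrec.snd (Primrec.const [])))

/-- `ell x` labels, leaf function `V x` on the list of their spins, with values in `[lo x, 1]`. -/
theorem exists_labApx {π : Type} [Primcodable π] {ell : π → ℕ} (hell : Primrec ell)
    {V : π → List Bool → ℚ} (hV : Primrec₂ V) {lo : π → ℚ} (hlo : Primrec lo) :
    ∃ up dn : (π × LabData) × ℕ → ℚ, Primrec up ∧ Primrec dn ∧
      ∀ (x : π) (D : LabData), Exps D.m → 0 < lo x →
        ∀ (Λ : Type) [Fintype Λ] [DecidableEq Λ] (e : Fin (ell x) ≃ Λ) (W : (Λ → Bool) → ℝ),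
          (∀ s, W s = V x (List.ofFn (fun i => s (e i)))) → (∀ s, (lo x : ℝ) ≤ W s ∧ W s ≤ 1) →
          (∀ P, (dn ((x, D), P) : ℝ) ≤ labLog D.m D.r D.lab W ∧
            labLog D.m D.r D.lab W ≤ up ((x, D), P)) ∧
          Filter.Tendsto (fun P => (up ((x, D), P) : ℝ)) Filter.atTop
            (nhds (labLog D.m D.r D.lab W)) ∧
          Filter.Tendsto (fun P => (dn ((x, D), P) : ℝ)) Filter.atTop
            (nhds (labLog D.m D.r D.lab W)) := by
  refine ⟨_, _, primrec_laLab hell hV hlo true, primrec_laLab hell hV hlo false, ?_⟩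
  intro x D hm h0 Λ _ _ e W hW hb
  have h1 := laLab_apx (V x) D hm h0 e W hW hb true
  have h2 := laLab_apx (V x) D hm h0 e W hW hb false
  exact ⟨fun P => ⟨h2.side P, h1.side P⟩, h1.lim, h2.lim⟩

end Crest.Agent.R153
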