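import Crest.Agent.R153.Conc
import Crest.Agent.R153.BGT

/-! Row 153, module L: finite-size lower bounds on the threshold. -/

set_option autoImplicit false

namespace Crest.Agent.R153

open Finset Crest.ProbabilityR.RandomSAT Crest.Agent.R141

theorem lower_le_eight {n m : ℕ} (hn : 3 ≤ n) (h : 1 / 2 ≤ satProb 3 n m) : m ≤ 8 * n := by
  by_contra hm
  have h1 := (satProb_anti hn (not_le.1 hm).le).trans (satProb_le_first hn (8 * n))
  rw [pow_mul, ← mul_pow] at h1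
  have h2 : ((2 : ℝ) * (1 - 1 / 2 ^ 3) ^ 8) ^ n ≤ (2 * (1 - 1 / 2 ^ 3) ^ 8) ^ 3 :=
    pow_le_pow_of_le_one (by norm_num) (by norm_num) hn
  have h3 : ((2 : ℝ) * (1 - 1 / 2 ^ 3) ^ 8) ^ 3 < 1 / 2 := by norm_num
  linarith

theorem lower_fac {n M : ℕ} (hn : 3 ≤ n) (hM : M ≤ 16 * n) :
    (1 / 2 : ℝ) ^ 16 ≤ (1 - 1 / (2 * (n : ℝ))) ^ M := by
  have hn' : (3 : ℝ) ≤ n := by exact_mod_cast hn
  have h0 : 1 / (2 * (n : ℝ)) ≤ 1 := by
    rw [div_le_one (by linarith)]; linarith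
  have h0' : 0 ≤ 1 / (2 * (n : ℝ)) := by positivity
  have h1 : (1 / 2 : ℝ) ≤ (1 - 1 / (2 * (n : ℝ))) ^ n := by
    have := one_add_mul_le_pow (a := -(1 / (2 * (n : ℝ)))) (by linarith) n
    have h2 : (n : ℝ) * -(1 / (2 * (n : ℝ))) = -(1 / 2) := by field_simp
    rw [h2] at this
    rw [sub_eq_add_neg]
    linarith
  calc (1 / 2 : ℝ) ^ 16 ≤ ((1 - 1 / (2 * (n : ℝ))) ^ n) ^ 16 :=
        pow_le_pow_left₀ (by norm_num) h1 16
    _ = (1 - 1 / (2 * (n : ℝ))) ^ (16 * n) := by rw [← pow_mul, mul_comm n 16]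
    _ ≤ _ := pow_le_pow_of_le_one (by linarith) (by linarith) hM

theorem doubling : ∃ K : ℝ, 0 ≤ K ∧ ∀ n m m' : ℕ, 3 ≤ n → 1 / 2 ≤ satProb 3 n m →
    (m' : ℝ) + K * Real.sqrt n ≤ 2 * m → 1 / 2 ≤ satProb 3 (n + n) m' := by
  obtain ⟨K1, hK1, h1⟩ := window 3 le_rfl (η := 1 / 10) (by norm_num)
  obtain ⟨K2, hK2, h2⟩ := window 3 le_rfl (η := (1 / 2) ^ 16 * (81 / 100 * (3 / 4))) (by norm_num)
  refine ⟨2 * K1 + 9 + 2 * K2, by linarith, fun n m m' hn hm hm' => ?_⟩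
  have hn' : (3 : ℝ) ≤ n := by exact_mod_cast hn
  set s := Real.sqrt n with hs
  have hs2 : s ^ 2 = n := Real.sq_sqrt (by linarith)
  have hs0 : 0 ≤ s := Real.sqrt_nonneg _
  have hs1 : 1 ≤ s := by nlinarith
  have hm8 : (m : ℝ) ≤ 8 * n := by exact_mod_cast lower_le_eight hn hm
  have hm0 : (0 : ℝ) ≤ m' := Nat.cast_nonneg _
  have hKs1 : 0 ≤ K1 * s := mul_nonneg hK1 hs0
  have hKs2 : 0 ≤ K2 * s := mul_nonneg hK2 hs0
  set M := ⌊2 * (m : ℝ) - (2 * K1 + 8) * s⌋₊ with hM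
  have hM1 : (M : ℝ) ≤ 2 * (m : ℝ) - (2 * K1 + 8) * s := Nat.floor_le (by nlinarith)
  have hM2 : 2 * (m : ℝ) - (2 * K1 + 8) * s < M + 1 := Nat.lt_floor_add_one _
  have hM16 : (M : ℝ) ≤ 16 * n := by nlinarith
  have hpt : ∀ z ∈ range (M + 1), bin M (1 / 2) z * (81 / 100) -
      81 / 100 / (16 * n) * (bin M (1 / 2) z * ((z : ℝ) - M * (1 / 2)) ^ 2) ≤
      bin M (1 / 2) z * (satProb 3 n (M - z) * satProb 3 n z) := by
    intro z hz
    have hzM : z ≤ M := Nat.lt_succ_iff.1 (mem_range.1 hz)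
    have hb := bin_nonneg (ρ := 1 / 2) (by norm_num) (by norm_num) M z
    have e : bin M (1 / 2) z * (81 / 100) -
        81 / 100 / (16 * n) * (bin M (1 / 2) z * ((z : ℝ) - M * (1 / 2)) ^ 2) =
        bin M (1 / 2) z * (81 / 100 * (1 - ((z : ℝ) - M * (1 / 2)) ^ 2 / (16 * n))) := by
      ring
    rw [e]
    refine mul_le_mul_of_nonneg_left ?_ hb
    have hq : 0 ≤ ((z : ℝ) - M * (1 / 2)) ^ 2 / (16 * n) := by positivity
    by_cases hz2 : ((z : ℝ) - M * (1 / 2)) ^ 2 ≤ (4 * s) ^ 2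
    · have h3 := abs_le.1 (abs_le_of_sq_le_sq hz2 (by linarith))
      have ha := h1 n m z hn (by linarith) (by nlinarith [h3.2])
      have hb' := h1 n m (M - z) hn (by linarith) (by
        rw [Nat.cast_sub hzM]; nlinarith [h3.1])
      nlinarith
    · have h3 : 1 ≤ ((z : ℝ) - M * (1 / 2)) ^ 2 / (16 * n) := by
        rw [le_div_iff₀ (by linarith)]; nlinarith
      have := mul_nonneg (satProb_nonneg 3 n (M - z)) (satProb_nonneg 3 n z)
      nlinarith
  have hsum := sum_le_sum hpt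
  rw [sum_sub_distrib, ← sum_mul, ← mul_sum, sum_bin, sum_bin_sq] at hsum
  have hq : 81 / 100 / (16 * (n : ℝ)) * (M * (1 / 2) * (1 - 1 / 2)) ≤ 81 / 100 * (1 / 4) := by
    rw [div_mul_eq_mul_div, div_le_iff₀ (by linarith)]; nlinarith
  have hfac := lower_fac hn (M := M) (by exact_mod_cast hM16)
  have hP : (1 / 2 : ℝ) ^ 16 * (81 / 100 * (3 / 4)) ≤ satProb 3 (n + n) M :=
    le_trans (mul_le_mul hfac (by linarith) (by norm_num) (le_trans (by norm_num) hfac)) (bgt hn M)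
  have hsq : Real.sqrt ((n + n : ℕ) : ℝ) ≤ 2 * s := by
    rw [Real.sqrt_le_left (by linarith)]
    push_cast
    nlinarith
  have := h2 (n + n) M m' (by omega) hP (by nlinarith [mul_le_mul_of_nonneg_left hsq hK2])
  refine le_trans (by norm_num) this

theorem lower_sound {α : ℝ} (hα : IsSharpThreshold (satProb 3) α) :
    ∃ K : ℕ, ∀ n m : ℕ, 3 ≤ n → 1 / 2 ≤ satProb 3 n m → (m : ℝ) / n - K / Real.sqrt n ≤ α := by
  obtain ⟨K, hK, h⟩ := doubling
  obtain ⟨K', hK'⟩ := exists_nat_ge (2 * (K + 2))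
  refine ⟨K', fun n m hn hm => ?_⟩
  have hn' : (3 : ℝ) ≤ n := by exact_mod_cast hn
  have hK0 : (0 : ℝ) ≤ K' := Nat.cast_nonneg _
  have hs0 : 0 < Real.sqrt n := Real.sqrt_pos.2 (by linarith)
  set a : ℝ := (m : ℝ) / n - K' / Real.sqrt n with ha
  by_contra hlt
  have hlt := not_le.1 hlt
  have ha0 : 0 ≤ a := (threshold_nonneg hα).trans hlt.le
  have han : a * n = m - K' * Real.sqrt n := by
    have h2 : (n : ℝ) = Real.sqrt n * Real.sqrt n := (Real.mul_self_sqrt (by linarith)).symm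
    rw [ha, sub_mul, div_mul_cancel₀ _ (by linarith)]
    congr 1
    nth_rewrite 2 [h2]
    field_simp
  have key : ∀ j m' : ℕ, (m' : ℝ) ≤ a * ((2 ^ j * n : ℕ) : ℝ) + K' * Real.sqrt ((2 ^ j * n : ℕ) : ℝ) →
      1 / 2 ≤ satProb 3 (2 ^ j * n) m' := by
    intro j
    induction j with
    | zero =>
      intro m' hm'
      simp only [pow_zero, one_mul] at hm' ⊢
      refine hm.trans (satProb_anti hn ?_)
      have : (m' : ℝ) ≤ m := by linarith
      exact_mod_cast this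
    | succ j ih =>
      intro m' hm'
      have e : 2 ^ (j + 1) * n = 2 ^ j * n + 2 ^ j * n := by ring
      rw [e] at hm' ⊢
      set N := 2 ^ j * n with hN
      have hN3 : 3 ≤ N := le_trans hn (Nat.le_mul_of_pos_left _ (by positivity))
      have hN3' : (3 : ℝ) ≤ N := by exact_mod_cast hN3
      set s := Real.sqrt N with hs
      have hs2 : s ^ 2 = N := Real.sq_sqrt (by linarith)
      have hs0 : 0 ≤ s := Real.sqrt_nonneg _
      have hs1 : 1 ≤ s := by nlinarith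
      have hsq : Real.sqrt ((N + N : ℕ) : ℝ) ≤ 3 / 2 * s := by
        rw [Real.sqrt_le_left (by linarith)]
        push_cast
        nlinarith
      have hB : 0 ≤ a * N + K' * s := by positivity
      refine h N ⌊a * N + K' * s⌋₊ m' hN3 (ih _ (Nat.floor_le hB)) ?_
      have h3 := Nat.lt_floor_add_one (a * N + K' * s)
      have h4 := mul_le_mul_of_nonneg_left hsq hK0
      rw [Nat.cast_add N N] at hm' h4
      nlinarith
  have ht := (hα a ha0).2 hlt
  have hsub : Filter.Tendsto (fun j : ℕ => 2 ^ j * n) Filter.atTop Filter.atTop := by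
    refine Filter.tendsto_atTop_mono (fun j => ?_) Filter.tendsto_id
    exact le_trans Nat.lt_two_pow_self.le (Nat.le_mul_of_pos_right _ (by omega))
  obtain ⟨j, hj⟩ := ((ht.comp hsub).eventually (gt_mem_nhds (show (0 : ℝ) < 1 / 2 by norm_num))).exists
  refine absurd (key j ⌊a * ((2 ^ j * n : ℕ) : ℝ)⌋₊ ?_) (not_le.2 hj)
  have h5 : 0 ≤ a * ((2 ^ j * n : ℕ) : ℝ) := by positivity
  have h6 : 0 ≤ K' * Real.sqrt ((2 ^ j * n : ℕ) : ℝ) := by positivity
  linarith [Nat.floor_le h5]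

end Crest.Agent.R153
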