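import Crest.Agent.R153.Count
import Crest.Agent.R153.Energy
import Crest.Agent.R153.Approx
import Crest.Agent.R153.Cert
import Crest.Agent.R153.CompReal

/-! Row 153: assembly of S0218. -/

set_option autoImplicit false

namespace Crest.Agent.R153

open Finset MeasureTheory Crest.ProbabilityR.RandomSAT Crest.ProbabilityR.Diluted Crest.Agent.R141

theorem upper_cert {α : ℝ} (hα : IsSharpThreshold (satProb 3) α) :
    ∃ chk : ℚ × ((ℚ × LabData × ℕ) × ℕ) → Bool, Primrec chk ∧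
      (∀ q c, chk (q, c) = true → α ≤ q) ∧ ∀ q : ℚ, α < q → ∃ c, chk (q, c) = true := by
  obtain ⟨chk, h1, h2, h3⟩ := exists_cert
  have hν : Integrable (fun x : ℝ => x) (Measure.dirac (0 : ℝ)) := integrable_dirac (by simp)
  refine ⟨chk, h1, ?_, fun q hq => ?_⟩
  · rintro q ⟨⟨b, D, K⟩, P⟩ hc
    obtain ⟨hq, hb0, hb1, hm, hneg⟩ := h2 q b D K P hc
    have hq' : (0 : ℝ) ≤ q := by exact_mod_cast hq
    have hb0' : (0 : ℝ) ≤ b := by exact_mod_cast hb0.le
    have hb1' : (b : ℝ) < 1 := by exact_mod_cast hb1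
    by_contra hlt
    have hP := (Pfin_le_PsatK hq' hb0' hb1' hm D.prob K).trans_lt hneg
    obtain ⟨N, hN1, hN2⟩ := ((pressure_ge hα hq' (not_le.1 hlt) hb0' hb1'
      (ε := -Pfin 3 q (muSat b) (Measure.dirac 0) D.m D.r D.lab / 2) (by linarith)).and
      (Filter.eventually_ge_atTop 1)).exists
    have := pressure_le_Pfin (p := 3) (by norm_num) hq' (integrable_muSat b) hν
      (hasFac_muSat hb0' hb1') hm D.prob hN2
    linarith
  · have hq' : (0 : ℝ) ≤ q := (threshold_nonneg hα).trans hq.le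
    obtain ⟨b, hb0, hb1, hb⟩ := pressure_neg hα hq
    have hb0' : (0 : ℝ) ≤ b := by exact_mod_cast hb0.le
    have hb1' : (b : ℝ) < 1 := by exact_mod_cast hb1
    have : ∃ (r : ℕ) (m : ℕ → ℝ) (Lab : Sys Bool), Exps m ∧ Sys.Prob (r + 2) Lab ∧
        Pfin 3 q (muSat b) (Measure.dirac 0) m r Lab < -1 / 2 := by
      by_contra hcon
      push Not at hcon
      obtain ⟨N, hN1, hN2⟩ := ((lower_fin (p := 3) (b := -1 / 2) (by norm_num) hq' (integrable_muSat b)
        hν (hasFac_muSat hb0' hb1') (fun r m Lab hm _ hL _ => hcon r m Lab hm hL)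
        (ε := 1 / 4) (by norm_num)).and hb).exists
      linarith
    obtain ⟨r, m, Lab, hm, hL, hneg⟩ := this
    obtain ⟨K, hK⟩ := exists_PsatK_neg hq' hb0' hb1' hm hL hneg
    obtain ⟨D, hD, hD'⟩ := exists_labData hm hL hK
    obtain ⟨P, hP⟩ := h3 q b D K (by exact_mod_cast hq') hb0 hb1 hD hD'
    exact ⟨_, hP⟩

theorem computable_main {α : ℝ} (hα : IsSharpThreshold (satProb 3) α) :
    ∃ f : ℕ → ℕ, Computable f ∧ ∀ r : ℕ, |(f r : ℝ) / 2 ^ r - α| ≤ 1 / 2 ^ r := by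
  obtain ⟨L, hL, hL1, hL2⟩ := lower_cert hα
  obtain ⟨U, hU, hU1, hU2⟩ := upper_cert hα
  exact computable_of_cert (threshold_nonneg hα) hL hU hL1 hL2 hU1 hU2

end Crest.Agent.R153
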