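import Crest.Agent.R153.Defs
import Crest.Agent.R141.Main

/-! Row 153: the 3-SAT model at positive temperature as a diluted spin glass; uniform label trees. -/

set_option autoImplicit false

namespace Crest.Agent.R153

open Finset MeasureTheory Crest.ProbabilityR.RandomSAT Crest.ProbabilityR.Diluted Crest.Agent.R141

/-- The soft clause with required values `s`: weight `1 - b` when all three literals fail. -/
noncomputable def satInter (b : ℝ) (s : Fin 3 → Bool) : Inter 3 :=
  fun σ => if ∀ l, σ l ≠ s l then Real.log (1 - b) else 0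

/-- The law of the soft clause with fair signs. -/
noncomputable def muSat (b : ℝ) : Measure (Inter 3) :=
  (Measure.pi fun _ : Fin 3 => (ProbabilityTheory.uniformOn Set.univ : Measure Bool)).map
    (satInter b)

instance isProbabilityMeasure_muSat (b : ℝ) : IsProbabilityMeasure (muSat b) :=
  Measure.isProbabilityMeasure_map (measurable_of_finite _).aemeasurable

/-- Clauses whose variables may coincide. -/
abbrev Raw (N : ℕ) : Type := (Fin 3 → Fin N) × (Fin 3 → Bool)

/-- Log-partition function of the soft formula. -/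
noncomputable def logZ (b : ℝ) {N M : ℕ} (F : Fin M → Raw N) : ℝ :=
  Real.log (∑ σ : Fin N → Bool, ∏ j, if ∀ l, σ ((F j).1 l) ≠ (F j).2 l then 1 - b else 1)

/-- Mean log-partition function, variables drawn with replacement. -/
noncomputable def eRaw (b : ℝ) (N M : ℕ) : ℝ := avg (fun F : Fin M → Raw N => logZ b F)

/-- Mean log-partition function, distinct variables in each clause. -/
noncomputable def eDis (b : ℝ) (N M : ℕ) : ℝ :=
  avg (fun F : Fin M → Clause 3 N => logZ b (fun j => ((F j).1.1, (F j).2)))

/-- The site term with `k` clauses. -/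
noncomputable def siteA (b : ℝ) (m : ℕ → ℝ) (r : ℕ) (Lab : Sys Bool) (k : ℕ) : ℝ :=
  avg (fun s : Fin k → Fin 3 → Bool =>
    labLog m r Lab (siteV (p := 3) (k := k) 0 (fun j => satInter b (s j))))

/-- The edge term. -/
noncomputable def edgeB (b : ℝ) (m : ℕ → ℝ) (r : ℕ) (Lab : Sys Bool) : ℝ :=
  avg (fun s : Fin 3 → Bool => labLog m r Lab (fun σ : Fin 3 → Bool => Real.exp (satInter b s σ)))

/-- The truncated functional (with `log 2` replaced by `1`). -/
noncomputable def PsatK (q b : ℝ) (m : ℕ → ℝ) (r : ℕ) (Lab : Sys Bool) (K : ℕ) : ℝ :=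
  1 + ∑ k ∈ range K, poissonWeight (q * 3) k * siteA b m r Lab k - 2 * q * edgeB b m r Lab

/-- The uniform `(B+1)`-ary tree with leaf values `f` (big-endian addresses). -/
noncomputable def utree (B : ℕ) (f : ℕ → Bool) : ℕ → ℕ → Sys Bool
  | 0, a => Sys.leaf (f a)
  | d + 1, a => Sys.node false (Fin (B + 1)) (fun _ => ((B : ℝ) + 1)⁻¹)
      (fun j => utree B f d (a * (B + 1) + j))

/-- Rational exponents with denominator `N + 1`. -/
noncomputable def mq (a : List ℕ) (N r : ℕ) (d : ℕ) : ℝ := (a.getD (min d r) 0 : ℝ) / ((N : ℝ) + 1)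

/-- Finite data describing a label system: `(B, f, N, a, r)`. -/
abbrev LabData : Type := ℕ × List Bool × ℕ × List ℕ × ℕ

/-- The exponents described by the data. -/
noncomputable def LabData.m (D : LabData) : ℕ → ℝ := mq D.2.2.2.1 D.2.2.1 D.2.2.2.2

/-- The depth described by the data. -/
def LabData.r (D : LabData) : ℕ := D.2.2.2.2

/-- The label system described by the data. -/
noncomputable def LabData.lab (D : LabData) : Sys Bool :=
  utree D.1 (fun a => D.2.1.getD a false) (D.r + 2) 0

theorem prob_utree (B : ℕ) (f : ℕ → Bool) (d a : ℕ) : Sys.Prob d (utree B f d a) := by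
  induction d generalizing a with
  | zero => trivial
  | succ d ih =>
    refine ⟨fun _ => ?_, ?_, fun ω => ih _⟩
    · change 0 < ((B : ℝ) + 1)⁻¹
      positivity
    · change ∑ _j : Fin (B + 1), ((B : ℝ) + 1)⁻¹ = 1
      simp only [sum_const, card_univ, Fintype.card_fin, nsmul_eq_mul]
      push_cast
      field_simp

theorem LabData.prob (D : LabData) : Sys.Prob (D.r + 2) D.lab := prob_utree _ _ _ _

end Crest.Agent.R153
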